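import Vale.Agent.P123C.Defs

/-! Library: circle averages of functions continuous on the circle. -/

open Complex Metric Set Filter Topology
open scoped Real ComplexConjugate

namespace Vale.Agent.P123C

variable {r : ℝ}

theorem ci {E : Type*} [NormedAddCommGroup E] {f : ℂ → E} (hr : 0 < r)
    (hf : ContinuousOn f (sphere 0 r)) : CircleIntegrable f 0 r :=
  hf.circleIntegrable hr.le

/-- Mean value for functions analytic on the open unit disc. -/
theorem avg_eq_of_diff {E : Type*} [NormedAddCommGroup E] [NormedSpace ℂ E] [CompleteSpace E]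
    {f : ℂ → E} (hf : DifferentiableOn ℂ f (ball 0 1)) (hr : 0 < r) (hr1 : r < 1) :
    avg r f = f 0 := by
  haveI : NormedSpace ℝ E := NormedSpace.restrictScalars ℝ ℂ E
  have hsub : closedBall (0 : ℂ) |r| ⊆ ball 0 1 := by
    rw [abs_of_pos hr]; exact closedBall_subset_ball hr1
  have : DiffContOnCl ℂ f (ball (0 : ℂ) |r|) :=
    (hf.mono hsub).diffContOnCl_ball (R := |r|) le_rfl |>.mono subset_rfl
  exact this.circleAverage

theorem contOn_of_diff {E : Type*} [NormedAddCommGroup E] [NormedSpace ℂ E]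
    {f : ℂ → E} (hf : DifferentiableOn ℂ f (ball 0 1)) (hr1 : r < 1) (hr : 0 < r) :
    ContinuousOn f (sphere 0 r) :=
  hf.continuousOn.mono (by
    intro w hw
    rw [mem_sphere_zero_iff_norm] at hw
    rw [mem_ball_zero_iff]; linarith)

theorem avg_add {f₁ f₂ : ℂ → ℂ} (hr : 0 < r) (h₁ : ContinuousOn f₁ (sphere 0 r))
    (h₂ : ContinuousOn f₂ (sphere 0 r)) :
    avg r (fun w => f₁ w + f₂ w) = avg r f₁ + avg r f₂ :=
  Real.circleAverage_fun_add (ci hr h₁) (ci hr h₂)

theorem avg_sub {f₁ f₂ : ℂ → ℂ} (hr : 0 < r) (h₁ : ContinuousOn f₁ (sphere 0 r))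
    (h₂ : ContinuousOn f₂ (sphere 0 r)) :
    avg r (fun w => f₁ w - f₂ w) = avg r f₁ - avg r f₂ :=
  Real.circleAverage_fun_sub (ci hr h₁) (ci hr h₂)

theorem avg_add_real {f₁ f₂ : ℂ → ℝ} (hr : 0 < r) (h₁ : ContinuousOn f₁ (sphere 0 r))
    (h₂ : ContinuousOn f₂ (sphere 0 r)) :
    avg r (fun w => f₁ w + f₂ w) = avg r f₁ + avg r f₂ :=
  Real.circleAverage_fun_add (ci hr h₁) (ci hr h₂)

theorem avg_sub_real {f₁ f₂ : ℂ → ℝ} (hr : 0 < r) (h₁ : ContinuousOn f₁ (sphere 0 r))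
    (h₂ : ContinuousOn f₂ (sphere 0 r)) :
    avg r (fun w => f₁ w - f₂ w) = avg r f₁ - avg r f₂ :=
  Real.circleAverage_fun_sub (ci hr h₁) (ci hr h₂)

theorem avg_const_mul (c : ℂ) (f : ℂ → ℂ) : avg r (fun w => c * f w) = c * avg r f := by
  have := Real.circleAverage_fun_smul (𝕜 := ℂ) (a := c) (f := f) (c := (0 : ℂ)) (R := r)
  simpa [smul_eq_mul] using this

theorem avg_mul_const (c : ℂ) (f : ℂ → ℂ) : avg r (fun w => f w * c) = avg r f * c := by
  simp only [mul_comm _ c]; exact avg_const_mul c f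

theorem avg_const_mul_real (c : ℝ) (f : ℂ → ℝ) : avg r (fun w => c * f w) = c * avg r f := by
  have := Real.circleAverage_fun_smul (𝕜 := ℝ) (a := c) (f := f) (c := (0 : ℂ)) (R := r)
  simpa [smul_eq_mul] using this

theorem avg_const {E : Type*} [NormedAddCommGroup E] [NormedSpace ℝ E] [CompleteSpace E] (c : E) :
    avg r (fun _ => c) = c := Real.circleAverage_const c 0 r

theorem avg_conj {f : ℂ → ℂ} (hr : 0 < r) (hf : ContinuousOn f (sphere 0 r)) :
    avg r (fun w => conj (f w)) = conj (avg r f) := by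
  have := (Complex.conjCLE : ℂ ≃L[ℝ] ℂ).toContinuousLinearMap.circleAverage_comp_comm (ci hr hf)
  simpa [Function.comp_def] using this

theorem avg_re {f : ℂ → ℂ} (hr : 0 < r) (hf : ContinuousOn f (sphere 0 r)) :
    avg r (fun w => (f w).re) = (avg r f).re := by
  have := Complex.reCLM.circleAverage_comp_comm (ci hr hf)
  simpa [Function.comp_def] using this

theorem avg_mono {f₁ f₂ : ℂ → ℝ} (hr : 0 < r) (h₁ : ContinuousOn f₁ (sphere 0 r))
    (h₂ : ContinuousOn f₂ (sphere 0 r)) (h : ∀ w, ‖w‖ = r → f₁ w ≤ f₂ w) :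
    avg r f₁ ≤ avg r f₂ := by
  apply Real.circleAverage_mono (ci hr h₁) (ci hr h₂)
  intro w hw
  apply h
  simpa [abs_of_pos hr] using hw

theorem avg_nonneg {f : ℂ → ℝ} (hr : 0 < r) (hf : ContinuousOn f (sphere 0 r))
    (h : ∀ w, ‖w‖ = r → 0 ≤ f w) : 0 ≤ avg r f := by
  have := avg_mono hr continuousOn_const hf h
  simpa [avg_const] using this

theorem avg_congr {E : Type*} [NormedAddCommGroup E] [NormedSpace ℝ E] {f₁ f₂ : ℂ → E}
    (hr : 0 < r) (h : ∀ w, ‖w‖ = r → f₁ w = f₂ w) : avg r f₁ = avg r f₂ := by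
  apply Real.circleAverage_congr_sphere
  intro w hw
  apply h
  simpa [abs_of_pos hr] using hw

/-- Cauchy-Schwarz for circle averages. -/
theorem avg_mul_sq_le {f g : ℂ → ℂ} (hr : 0 < r) (hf : ContinuousOn f (sphere 0 r))
    (hg : ContinuousOn g (sphere 0 r)) :
    ‖avg r (fun w => f w * g w)‖ ^ 2 ≤ avg r (fun w => ‖f w‖ ^ 2) * avg r (fun w => ‖g w‖ ^ 2) := by
  set A := avg r (fun w => ‖f w‖ ^ 2)
  set B := avg r (fun w => ‖g w‖ ^ 2)
  set c := avg r (fun w => f w * g w)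
  have hfg : ContinuousOn (fun w => f w * g w) (sphere 0 r) := hf.mul hg
  have hf2 : ContinuousOn (fun w => ‖f w‖ ^ 2) (sphere 0 r) := (hf.norm).pow 2
  have hg2 : ContinuousOn (fun w => ‖g w‖ ^ 2) (sphere 0 r) := (hg.norm).pow 2
  have key : ∀ t : ℝ, 0 ≤ A + t ^ 2 * ‖c‖ ^ 2 * B - 2 * t * ‖c‖ ^ 2 := by
    intro t
    set lam : ℂ := (t : ℂ) * conj c
    have hpt : ∀ w, ‖conj (f w) - lam * g w‖ ^ 2
        = ‖f w‖ ^ 2 + (t ^ 2 * ‖c‖ ^ 2) * ‖g w‖ ^ 2 - 2 * (lam * (f w * g w)).re := by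
      intro w
      have hl : ‖lam‖ ^ 2 = t ^ 2 * ‖c‖ ^ 2 := by
        simp only [lam, norm_mul, mul_pow, Complex.norm_real, Real.norm_eq_abs, sq_abs, RCLike.norm_conj]
      have : ‖conj (f w) - lam * g w‖ ^ 2 = ‖f w‖ ^ 2 + ‖lam‖ ^ 2 * ‖g w‖ ^ 2
          - 2 * (lam * (f w * g w)).re := by
        simp only [Complex.sq_norm, normSq_apply, sub_re, sub_im, conj_re, conj_im, mul_re, mul_im]
        ring
      rw [this, hl]
    have hcont : ContinuousOn (fun w => ‖conj (f w) - lam * g w‖ ^ 2) (sphere 0 r) := by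
      apply ContinuousOn.pow
      apply ContinuousOn.norm
      exact (Complex.continuous_conj.comp_continuousOn hf).sub (continuousOn_const.mul hg)
    have h0 := avg_nonneg hr hcont (fun w _ => by positivity)
    have e1 : avg r (fun w => ‖conj (f w) - lam * g w‖ ^ 2)
        = A + (t ^ 2 * ‖c‖ ^ 2) * B - 2 * (lam * c).re := by
      have hR : ContinuousOn (fun w => (lam * (f w * g w)).re) (sphere 0 r) :=
        Complex.continuous_re.comp_continuousOn (continuousOn_const.mul hfg)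
      calc avg r (fun w => ‖conj (f w) - lam * g w‖ ^ 2)
          = avg r (fun w => (‖f w‖ ^ 2 + (t ^ 2 * ‖c‖ ^ 2) * ‖g w‖ ^ 2)
              - 2 * (lam * (f w * g w)).re) := avg_congr hr (fun w _ => hpt w)
        _ = avg r (fun w => ‖f w‖ ^ 2 + (t ^ 2 * ‖c‖ ^ 2) * ‖g w‖ ^ 2)
              - avg r (fun w => 2 * (lam * (f w * g w)).re) :=
            avg_sub_real hr (hf2.add (continuousOn_const.mul hg2)) (continuousOn_const.mul hR)
        _ = A + (t ^ 2 * ‖c‖ ^ 2) * B - 2 * (lam * c).re := by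
            have hg2' : ContinuousOn (fun w => (t ^ 2 * ‖c‖ ^ 2) * ‖g w‖ ^ 2) (sphere 0 r) :=
              continuousOn_const.mul hg2
            have e3 := avg_add_real hr hf2 hg2'
            have e4 : avg r (fun w => (t ^ 2 * ‖c‖ ^ 2) * ‖g w‖ ^ 2) = (t ^ 2 * ‖c‖ ^ 2) * B :=
              avg_const_mul_real _ _
            have e5 : avg r (fun w => 2 * (lam * (f w * g w)).re)
                = 2 * avg r (fun w => (lam * (f w * g w)).re) := avg_const_mul_real _ _
            have hlc : ContinuousOn (fun w => lam * (f w * g w)) (sphere 0 r) :=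
              continuousOn_const.mul hfg
            have e6 := avg_re hr hlc
            have e7 : avg r (fun w => lam * (f w * g w)) = lam * c := avg_const_mul _ _
            rw [e3, e4, e5, e6, e7]
    have e2 : (lam * c).re = t * ‖c‖ ^ 2 := by
      simp only [lam, Complex.sq_norm, normSq_apply, mul_re, mul_im, ofReal_re, ofReal_im,
        conj_re, conj_im]
      ring
    rw [e1, e2] at h0
    linarith
  have hBnn : 0 ≤ B := avg_nonneg hr hg2 (fun w _ => by positivity)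
  have hAnn : 0 ≤ A := avg_nonneg hr hf2 (fun w _ => by positivity)
  rcases hBnn.eq_or_lt with hB | hB
  · -- `B = 0`: then `c = 0`
    have hc : ‖c‖ ^ 2 = 0 := by
      by_contra hne
      have hpos : 0 < ‖c‖ ^ 2 := lt_of_le_of_ne (by positivity) (Ne.symm hne)
      have := key ((A + 1) / ‖c‖ ^ 2)
      rw [← hB] at this
      have h2 : 2 * ((A + 1) / ‖c‖ ^ 2) * ‖c‖ ^ 2 = 2 * (A + 1) := by
        rw [mul_assoc, div_mul_cancel₀ _ hne]
      nlinarith
    rw [hc, ← hB]; simp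
  · have := key (1 / B)
    have h2 : (1 / B) ^ 2 * ‖c‖ ^ 2 * B = ‖c‖ ^ 2 / B := by field_simp
    have h3 : 2 * (1 / B) * ‖c‖ ^ 2 = 2 * (‖c‖ ^ 2 / B) := by field_simp
    rw [h2, h3] at this
    have h4 : ‖c‖ ^ 2 / B ≤ A := by linarith
    have := (div_le_iff₀ hB).1 h4
    linarith

/-- On the circle, `(w⁻¹)^l` has mean `0` for `l ≥ 1`. -/
theorem avg_inv_pow {l : ℕ} (hl : l ≠ 0) (hr : 0 < r) (hr1 : r < 1) :
    avg r (fun w : ℂ => (w⁻¹) ^ l) = 0 := by
  have hpt : ∀ w : ℂ, ‖w‖ = r → (w⁻¹) ^ l = ((r : ℂ)⁻¹ ^ 2) ^ l * conj (w ^ l) := by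
    intro w hw
    have hw0 : w ≠ 0 := by
      intro h; rw [h] at hw; simp at hw; linarith
    have hconj : conj w * w = (r : ℂ) ^ 2 := by
      rw [← Complex.normSq_eq_conj_mul_self, Complex.normSq_eq_norm_sq, hw]; push_cast; ring
    have hr0 : (r : ℂ) ≠ 0 := by exact_mod_cast hr.ne'
    have : w⁻¹ = (r : ℂ)⁻¹ ^ 2 * conj w := by
      field_simp
      rw [← hconj]; ring
    rw [this, mul_pow, map_pow]
  rw [avg_congr hr hpt, avg_const_mul]
  have hc : ContinuousOn (fun w : ℂ => w ^ l) (sphere 0 r) := (continuous_id.pow l).continuousOn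
  rw [avg_conj hr hc]
  have h0 : avg r (fun w : ℂ => w ^ l) = (fun w : ℂ => w ^ l) 0 :=
    avg_eq_of_diff (differentiable_id.pow l).differentiableOn hr hr1
  rw [h0]; simp [hl]

end Vale.Agent.P123C
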