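import Vale.Agent.P123C.Defs

/-! MODULE B: elementary facts about `h, q, k, zz, T`. -/

open Complex Metric Set Filter Topology
open scoped Real

namespace Vale.Agent.P123C

variable {K : Set ℂ} {h g : ℂ → ℂ}

theorem Conf.inj (C : Conf K h g) : InjOn h (ball 0 1) := by
  intro a ha b hb hab
  rw [← C.left_inv a ha, ← C.left_inv b hb, hab]

theorem Conf.image_eq (C : Conf K h g) : h '' ball 0 1 = UK K := by
  apply Subset.antisymm
  · rintro _ ⟨w, hw, rfl⟩; exact C.mapsTo hw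
  · intro u hu; exact ⟨g u, C.mapsTo_g hu, C.right_inv u hu⟩

theorem Conf.h_ne_zero (C : Conf K h g) {w : ℂ} (hw : w ∈ ball (0 : ℂ) 1) (h0 : w ≠ 0) :
    h w ≠ 0 := by
  intro hh
  exact h0 (C.inj hw (mem_ball_self one_pos) (hh.trans C.zero.symm))

/-- for `w ≠ 0`: `dslope h 0 w = h w / w`. -/
theorem Conf.dslope_eq (C : Conf K h g) {w : ℂ} (h0 : w ≠ 0) :
    dslope h 0 w = h w / w := by
  rw [dslope_of_ne _ h0, slope_def_field, C.zero]
  simp

theorem Conf.dslope_ne (C : Conf K h g) {w : ℂ} (hw : w ∈ ball (0 : ℂ) 1) :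
    dslope h 0 w ≠ 0 := by
  by_cases h0 : w = 0
  · subst h0
    rw [dslope_same]
    exact C.deriv_ne 0 hw
  · rw [C.dslope_eq h0]
    exact div_ne_zero (C.h_ne_zero hw h0) h0

theorem Conf.dslope_diff (C : Conf K h g) : DifferentiableOn ℂ (dslope h 0) (ball 0 1) :=
  (Complex.differentiableOn_dslope (ball_mem_nhds _ one_pos)).2 C.diff

theorem Conf.deriv_diff (C : Conf K h g) : DifferentiableOn ℂ (deriv h) (ball 0 1) :=
  C.diff.deriv isOpen_ball

theorem Conf.q_diff (C : Conf K h g) : DifferentiableOn ℂ (q h) (ball 0 1) := by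
  unfold q
  exact C.deriv_diff.div C.dslope_diff (fun w hw => C.dslope_ne hw)

theorem Conf.q_zero (C : Conf K h g) : q h 0 = 1 := by
  unfold q
  rw [dslope_same]
  exact div_self (C.deriv_ne 0 (mem_ball_self one_pos))

theorem Conf.q_ne (C : Conf K h g) {w : ℂ} (hw : w ∈ ball (0 : ℂ) 1) : q h w ≠ 0 := by
  unfold q
  exact div_ne_zero (C.deriv_ne w hw) (C.dslope_ne hw)

/-- for `w ≠ 0`: `q h w = w * h' / h`. -/
theorem Conf.q_eq (C : Conf K h g) {w : ℂ} (hw : w ∈ ball (0 : ℂ) 1) (h0 : w ≠ 0) :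
    q h w = w * deriv h w / h w := by
  unfold q
  rw [C.dslope_eq h0]
  have := C.h_ne_zero hw h0
  field_simp

theorem Conf.one_sub_ne (C : Conf K h g) {w τ : ℂ} (hw : w ∈ ball (0 : ℂ) 1) (hτ : τ ∈ K) :
    1 - τ * h w ≠ 0 := by
  intro hh
  exact C.mapsTo hw τ hτ (sub_eq_zero.mp hh).symm

theorem Conf.k_diff (C : Conf K h g) {τ : ℂ} (hτ : τ ∈ K) :
    DifferentiableOn ℂ (fun w => k h w τ) (ball 0 1) := by
  unfold k
  refine C.q_diff.div ?_ (fun w hw => C.one_sub_ne hw hτ)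
  exact (differentiableOn_const _).sub ((differentiableOn_const _).mul C.diff)

theorem Conf.k_zero (C : Conf K h g) (τ : ℂ) : k h 0 τ = 1 := by
  unfold k
  rw [C.q_zero, C.zero]
  simp

theorem Conf.zz_notin (C : Conf K h g) {w : ℂ} (hw : w ∈ ball (0 : ℂ) 1) (h0 : w ≠ 0) :
    zz h w ∉ K := by
  intro hz
  apply C.mapsTo hw _ hz
  unfold zz
  exact inv_mul_cancel₀ (C.h_ne_zero hw h0)

/-- `k = T / (σ - τ)` away from `w = 0`. -/
theorem Conf.k_eq (C : Conf K h g) {w τ : ℂ} (hw : w ∈ ball (0 : ℂ) 1) (h0 : w ≠ 0) (hτ : τ ∈ K) :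
    k h w τ = T h w / (zz h w - τ) := by
  unfold k T zz
  have h1 := C.h_ne_zero hw h0
  have h2 := C.one_sub_ne hw hτ
  have h3 : (h w)⁻¹ - τ = (1 - τ * h w) / h w := by
    field_simp
  rw [h3]
  field_simp

/-- `T = q * zz`. -/
theorem T_eq (h : ℂ → ℂ) (w : ℂ) : T h w = q h w * zz h w := by
  simp [T, zz, div_eq_mul_inv]

/-- The derivative of the exterior map along a circle: `∂θ σ = -i T`.  (Our circle is traversed in
the direction of increasing `arg w`, which is the decreasing direction of `arg ξ`.) -/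
theorem Conf.hasDerivAt_zz_circle (C : Conf K h g) {r : ℝ} (hr : 0 < r) (hr1 : r < 1) (θ : ℝ) :
    HasDerivAt (fun t : ℝ => zz h (circleMap 0 r t)) (-I * T h (circleMap 0 r θ)) θ := by
  have hmem : circleMap 0 r θ ∈ ball (0 : ℂ) 1 := by
    rw [mem_ball_zero_iff, norm_circleMap_zero, abs_of_pos hr]; exact hr1
  have hne : circleMap 0 r θ ≠ 0 := circleMap_ne_center hr.ne'
  have hd : HasDerivAt h (deriv h (circleMap 0 r θ)) (circleMap 0 r θ) :=
    (C.diff.differentiableAt (isOpen_ball.mem_nhds hmem)).hasDerivAt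
  have hc : HasDerivAt (circleMap 0 r) (circleMap 0 r θ * I) θ := by
    simpa using hasDerivAt_circleMap 0 r θ
  have hcomp : HasDerivAt (fun t : ℝ => h (circleMap 0 r t))
      ((circleMap 0 r θ * I) • deriv h (circleMap 0 r θ)) θ := hd.scomp θ hc
  have h1 := C.h_ne_zero hmem hne
  have hinv := hcomp.fun_inv h1
  have hval : -I * T h (circleMap 0 r θ) =
      -((circleMap 0 r θ * I) • deriv h (circleMap 0 r θ)) / h (circleMap 0 r θ) ^ 2 := by
    simp only [T, smul_eq_mul]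
    rw [C.q_eq hmem hne]
    field_simp
  rw [hval]
  exact hinv

/-- `0` is in `K` and `K` contains a small closed ball. -/
theorem Conf.exists_closedBall (C : Conf K h g) : ∃ ρ > 0, closedBall (0 : ℂ) ρ ⊆ K := by
  have := mem_interior_iff_mem_nhds.mp C.zero_interior
  exact Metric.nhds_basis_closedBall.mem_iff.mp this

/-- `w * T w = w^2 h' / h^2` is analytic and nonvanishing; value at `0` is `1 / h'(0)`. We package it
as `W T`. -/
theorem Conf.exists_wT (C : Conf K h g) :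
    ∃ F : ℂ → ℂ, DifferentiableOn ℂ F (ball 0 1) ∧ (∀ w ∈ ball (0 : ℂ) 1, F w ≠ 0) ∧
      F 0 = (deriv h 0)⁻¹ ∧ ∀ w ∈ ball (0 : ℂ) 1, w ≠ 0 → F w = w * T h w := by
  refine ⟨fun w => deriv h w / (dslope h 0 w) ^ 2, ?_, ?_, ?_, ?_⟩
  · exact C.deriv_diff.div (C.dslope_diff.pow 2) (fun w hw => pow_ne_zero 2 (C.dslope_ne hw))
  · intro w hw
    exact div_ne_zero (C.deriv_ne w hw) (pow_ne_zero 2 (C.dslope_ne hw))
  · have hh := C.deriv_ne 0 (mem_ball_self one_pos)
    simp only [dslope_same]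
    field_simp
  · intro w hw h0
    have h1 := C.h_ne_zero hw h0
    simp only [T]
    rw [C.q_eq hw h0, C.dslope_eq h0]
    field_simp

/-- `w * zz h w = w / h w` extends analytically and without zeros. -/
theorem Conf.exists_wz (C : Conf K h g) :
    ∃ F : ℂ → ℂ, DifferentiableOn ℂ F (ball 0 1) ∧ (∀ w ∈ ball (0 : ℂ) 1, F w ≠ 0) ∧
      F 0 = (deriv h 0)⁻¹ ∧ ∀ w ∈ ball (0 : ℂ) 1, w ≠ 0 → F w = w * zz h w := by
  refine ⟨fun w => (dslope h 0 w)⁻¹, ?_, ?_, ?_, ?_⟩
  · exact C.dslope_diff.inv (fun w hw => C.dslope_ne hw)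
  · intro w hw
    exact inv_ne_zero (C.dslope_ne hw)
  · simp only [dslope_same]
  · intro w hw h0
    have h1 := C.h_ne_zero hw h0
    simp only [zz]
    rw [C.dslope_eq h0]
    field_simp

end Vale.Agent.P123C
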