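import Vale.Agent.P123C.Basic

/-! Convexity of the level curves of the exterior map: a two point maximum principle.

For `lam` unimodular and `s ∈ (0, 1/2)` put `Φ u = (1 - s) zz u + s zz (lam u)`.  Where `Φ u` is outside
`K` the function `G u = u / g (1 / Φ u)` is analytic, with `‖G 0‖ ≤ 1`.  If `‖G u‖ > 1 + ε` then `1 / Φ u`
lies in the compact subset `h (closedBall 0 c)` of `UK K`, so `Φ u` stays away from `K`.  But `zz u` is
close to `K` for `‖u‖` close to `1`, hence so is `Φ u` since `K` is convex.  The maximum principle gives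
`‖u‖ ≤ ‖g (1 / Φ u)‖`.  Differentiation at `s = 0` gives chord positivity.
-/

open Complex Metric Set Filter Topology
open scoped Real

namespace Vale.Agent.P123C

variable {K : Set ℂ} {h g : ℂ → ℂ}

lemma Conf.bdd (C : Conf K h g) : ∃ D > 0, ∀ τ ∈ K, ‖τ‖ ≤ D := by
  obtain ⟨D, hD⟩ := C.compact.isBounded.exists_norm_le
  exact ⟨max D 1, by positivity, fun τ hτ => (hD τ hτ).trans (le_max_left _ _)⟩

lemma Conf.ball_sub (C : Conf K h g) : ∃ ρ > 0, ball (0 : ℂ) ρ ⊆ K := by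
  obtain ⟨ρ, hρ, hb⟩ := Metric.mem_nhds_iff.1 (mem_interior_iff_mem_nhds.1 C.zero_interior)
  exact ⟨ρ, hρ, hb⟩

lemma Conf.zero_mem (C : Conf K h g) : (0 : ℂ) ∈ K := interior_subset C.zero_interior

/-- Points of `UK K` are bounded. -/
lemma Conf.UK_bdd (C : Conf K h g) : ∃ R > 0, ∀ v ∈ UK K, ‖v‖ ≤ R := by
  obtain ⟨ρ, hρ, hb⟩ := C.ball_sub
  refine ⟨2 / ρ, by positivity, fun v hv => ?_⟩
  by_contra hn
  rw [not_le] at hn
  have hv0 : v ≠ 0 := by
    intro h0
    rw [h0, norm_zero] at hn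
    have : 0 < 2 / ρ := by positivity
    linarith
  have hpos : 0 < ‖v‖ := norm_pos_iff.2 hv0
  have h1 : ‖v⁻¹‖ < ρ := by
    rw [norm_inv, inv_lt_comm₀ hpos hρ]
    have : ρ⁻¹ < 2 / ρ := by
      rw [inv_eq_one_div]
      exact div_lt_div_of_pos_right (by norm_num) hρ
    exact this.trans hn
  exact hv _ (hb (mem_ball_zero_iff.2 h1)) (inv_mul_cancel₀ hv0)

/-- Uniform gap on a compact subset of `UK K`. -/
lemma Conf.exists_gap (C : Conf K h g) {E : Set ℂ} (hE : IsCompact E) (hEU : E ⊆ UK K) :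
    ∃ δ > 0, ∀ v ∈ E, ∀ τ ∈ K, δ ≤ ‖1 - τ * v‖ := by
  by_cases hne : E.Nonempty
  · obtain ⟨p, hp, hmin⟩ := (C.compact.prod hE).exists_isMinOn (hne.elim fun v hv =>
      ⟨(0, v), C.zero_mem, hv⟩) (f := fun p : ℂ × ℂ => ‖1 - p.1 * p.2‖) (by fun_prop)
    refine ⟨‖1 - p.1 * p.2‖, ?_, fun v hv τ hτ => hmin (Set.mk_mem_prod hτ hv)⟩
    have : 1 - p.1 * p.2 ≠ 0 := by
      rw [sub_ne_zero]
      exact fun he => hEU hp.2 p.1 hp.1 he.symm
    exact norm_pos_iff.2 this
  · refine ⟨1, one_pos, fun v hv => (hne ⟨v, hv⟩).elim⟩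

/-- `UK K` is open. -/
lemma Conf.UK_open (C : Conf K h g) : IsOpen (UK K) := by
  rw [Metric.isOpen_iff]
  intro u hu
  obtain ⟨D, hD, hK⟩ := C.bdd
  obtain ⟨δ, hδ, hgap⟩ := C.exists_gap (isCompact_singleton (x := u)) (by simpa using hu)
  refine ⟨δ / (2 * D), by positivity, fun v hv τ hτ he => ?_⟩
  have h1 := hgap u (mem_singleton u) τ hτ
  have h2 : ‖1 - τ * u‖ ≤ ‖τ‖ * ‖v - u‖ := by
    have : 1 - τ * u = τ * (v - u) := by rw [mul_sub, he]
    rw [this, norm_mul]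
  have h3 : ‖v - u‖ < δ / (2 * D) := by simpa [dist_eq_norm] using hv
  have h4 : ‖τ‖ * ‖v - u‖ ≤ D * ‖v - u‖ := by
    exact mul_le_mul_of_nonneg_right (hK τ hτ) (norm_nonneg _)
  have h5 : D * ‖v - u‖ < D * (δ / (2 * D)) := by
    exact mul_lt_mul_of_pos_left h3 hD
  have h6 : D * (δ / (2 * D)) = δ / 2 := by field_simp
  linarith

lemma Conf.g_cont (C : Conf K h g) : ContinuousOn g (UK K) := C.diff_g.continuousOn

/-- The level curves approach `K`: a qualitative statement. -/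
theorem Conf.exists_near (C : Conf K h g) {ε : ℝ} (hε : 0 < ε) :
    ∃ r₀ ∈ Set.Ioo (0 : ℝ) 1, ∀ w : ℂ, r₀ ≤ ‖w‖ → ‖w‖ < 1 → ∃ τ ∈ K, ‖zz h w - τ‖ ≤ ε := by
  obtain ⟨D, hD, hK⟩ := C.bdd
  obtain ⟨R, hR, hUK⟩ := C.UK_bdd
  set η : ℝ := min (1 / 2) (ε / (2 * D)) with hη
  have hη0 : 0 < η := by positivity
  set F : Set ℂ := {v | ‖v‖ ≤ R ∧ ∀ τ ∈ K, η ≤ ‖1 - τ * v‖} with hF
  have hFcl : IsClosed F := by
    have : F = closedBall 0 R ∩ ⋂ τ ∈ K, {v | η ≤ ‖1 - τ * v‖} := by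
      ext v; simp [hF]
    rw [this]
    refine isClosed_closedBall.inter (isClosed_biInter fun τ _ => ?_)
    exact isClosed_le continuous_const (by fun_prop)
  have hFcp : IsCompact F :=
    (isCompact_closedBall (0 : ℂ) R).of_isClosed_subset hFcl (fun v hv => by simpa using hv.1)
  have hFU : F ⊆ UK K := fun v hv τ hτ he => by
    have := hv.2 τ hτ
    rw [he, sub_self, norm_zero] at this
    linarith
  have hF0 : (0 : ℂ) ∈ F := by
    refine ⟨by simpa using hR.le, fun τ _ => ?_⟩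
    simp only [mul_zero, sub_zero, norm_one]
    exact (min_le_left _ _).trans (by norm_num)
  -- the image of `F` under `g` stays in a smaller disc
  obtain ⟨v₀, hv₀, hmax⟩ := hFcp.exists_isMaxOn ⟨0, hF0⟩ (f := fun v => ‖g v‖)
    ((C.g_cont.mono hFU).norm)
  set c := ‖g v₀‖ with hc
  have hc1 : c < 1 := by simpa using C.mapsTo_g (hFU hv₀)
  have hc0 : 0 ≤ c := norm_nonneg _
  set r₀ := (c + 1) / 2 with hr₀
  refine ⟨r₀, ⟨by positivity, by rw [hr₀]; linarith⟩, fun w hw hw1 => ?_⟩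
  have hwb : w ∈ ball (0 : ℂ) 1 := by simpa using hw1
  have hhF : h w ∉ F := by
    intro hm
    have h1 : ‖g (h w)‖ ≤ c := hmax hm
    rw [C.left_inv w hwb] at h1
    rw [hr₀] at hw
    linarith
  have hhU : h w ∈ UK K := C.mapsTo hwb
  have hhR : ‖h w‖ ≤ R := hUK _ hhU
  have hex : ∃ τ ∈ K, ‖1 - τ * h w‖ < η := by
    by_contra hn
    push Not at hn
    exact hhF ⟨hhR, hn⟩
  obtain ⟨τ, hτ, hlt⟩ := hex
  refine ⟨τ, hτ, ?_⟩
  -- `h w` is not small
  have hlow : 1 / (2 * D) < ‖h w‖ := by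
    by_contra hn
    rw [not_lt] at hn
    have h1 : ‖τ * h w‖ ≤ 1 / 2 := by
      rw [norm_mul]
      calc ‖τ‖ * ‖h w‖ ≤ D * (1 / (2 * D)) :=
            mul_le_mul (hK τ hτ) hn (norm_nonneg _) hD.le
        _ = 1 / 2 := by field_simp
    have h2 : 1 - ‖τ * h w‖ ≤ ‖1 - τ * h w‖ := by
      have := norm_sub_norm_le (1 : ℂ) (τ * h w)
      simpa using this
    have h3 : η ≤ 1 / 2 := min_le_left _ _
    linarith
  have hpos : 0 < ‖h w‖ := lt_trans (by positivity) hlow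
  have hne : h w ≠ 0 := norm_pos_iff.1 hpos
  have heq : zz h w - τ = (1 - τ * h w) / h w := by
    unfold zz; field_simp
  rw [heq, norm_div, div_le_iff₀ hpos]
  have h4 : η ≤ ε / (2 * D) := min_le_right _ _
  have h5 : ε / (2 * D) = ε * (1 / (2 * D)) := by ring
  have h6 : ε * (1 / (2 * D)) ≤ ε * ‖h w‖ := mul_le_mul_of_nonneg_left hlow.le hε.le
  linarith

lemma Conf.h_eq (C : Conf K h g) (u : ℂ) : h u = u * dslope h 0 u := by
  have := sub_smul_dslope h 0 u
  simpa [C.zero] using this.symm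

/-- The derivative of the inverse map. -/
lemma Conf.hasDerivAt_g (C : Conf K h g) {w : ℂ} (hw : w ∈ ball (0 : ℂ) 1) :
    HasDerivAt g (deriv h w)⁻¹ (h w) := by
  have hU : UK K ∈ 𝓝 (h w) := C.UK_open.mem_nhds (C.mapsTo hw)
  have hg : DifferentiableAt ℂ g (h w) := C.diff_g.differentiableAt hU
  have hh : DifferentiableAt ℂ h w := C.diff.differentiableAt (isOpen_ball.mem_nhds hw)
  have hne := C.deriv_ne w hw
  have h1 : HasDerivAt (g ∘ h) (deriv g (h w) * deriv h w) w :=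
    hg.hasDerivAt.comp w hh.hasDerivAt
  have h2 : HasDerivAt (g ∘ h) 1 w := by
    refine (hasDerivAt_id w).congr_of_eventuallyEq ?_
    filter_upwards [isOpen_ball.mem_nhds hw] with u hu
    exact C.left_inv u hu
  have h3 := h1.unique h2
  have h4 : deriv g (h w) = (deriv h w)⁻¹ := by
    field_simp
    exact h3
  rw [← h4]
  exact hg.hasDerivAt

/-- The key: two point maximum principle. -/
theorem Conf.two_point (C : Conf K h g) {lam : ℂ} (hl : ‖lam‖ = 1) {s : ℝ} (hs0 : 0 < s)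
    (hs : s < 1 / 2) {w : ℂ} (hw : w ∈ ball (0 : ℂ) 1) (hw0 : w ≠ 0)
    (hz : (1 - s) • zz h w + s • zz h (lam * w) ∉ K) :
    ‖w‖ ≤ ‖g (((1 - s) • zz h w + s • zz h (lam * w))⁻¹)‖ := by
  classical
  have hlam0 : lam ≠ 0 := by
    intro h0
    rw [h0, norm_zero] at hl
    norm_num at hl
  have hball : ∀ u ∈ ball (0 : ℂ) 1, lam * u ∈ ball (0 : ℂ) 1 := by
    intro u hu
    simpa [norm_mul, hl] using hu
  set A : ℂ → ℂ := dslope h 0 with hA
  have hAd : DifferentiableOn ℂ A (ball 0 1) := C.dslope_diff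
  have hAne : ∀ u ∈ ball (0 : ℂ) 1, A u ≠ 0 := fun u hu => C.dslope_ne hu
  set a : ℂ := ((1 - s : ℝ) : ℂ) with ha
  set b : ℂ := ((s : ℝ) : ℂ) with hb
  set B : ℂ → ℂ := fun u => a / A u + b / (lam * A (lam * u)) with hB
  have hBd : DifferentiableOn ℂ B (ball 0 1) := by
    refine DifferentiableOn.add ?_ ?_
    · exact (differentiableOn_const a).div hAd hAne
    · refine (differentiableOn_const b).div ?_ ?_
      · refine (differentiableOn_const lam).mul ?_
        exact hAd.comp (by fun_prop) hball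
      · intro u hu
        exact mul_ne_zero hlam0 (hAne _ (hball u hu))
  have hPhi : ∀ u ∈ ball (0 : ℂ) 1, u ≠ 0 →
      (1 - s) • zz h u + s • zz h (lam * u) = B u / u := by
    intro u hu hu0
    have h1 := hAne u hu
    have h2 := hAne _ (hball u hu)
    simp only [zz, Complex.real_smul, hB]
    rw [C.h_eq u, C.h_eq (lam * u)]
    simp only [← hA, ← ha, ← hb]
    field_simp
  have hab : ‖a + b / lam‖ ≤ 1 := by
    calc ‖a + b / lam‖ ≤ ‖a‖ + ‖b / lam‖ := norm_add_le _ _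
      _ = (1 - s) + s := by
          rw [norm_div, hl, div_one, ha, hb, Complex.norm_real, Complex.norm_real,
            Real.norm_of_nonneg (by linarith), Real.norm_of_nonneg hs0.le]
      _ = 1 := by ring
  have hab0 : a + b / lam ≠ 0 := by
    intro he
    have h1 : ‖a‖ = ‖b / lam‖ := by
      rw [eq_neg_of_add_eq_zero_left he, norm_neg]
    rw [norm_div, hl, div_one, ha, hb, Complex.norm_real, Complex.norm_real,
      Real.norm_of_nonneg (by linarith), Real.norm_of_nonneg hs0.le] at h1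
    linarith
  have h0ball : (0 : ℂ) ∈ ball (0 : ℂ) 1 := mem_ball_self one_pos
  have hB0 : B 0 = (a + b / lam) / deriv h 0 := by
    have hA0 : A 0 = deriv h 0 := dslope_same h 0
    simp only [hB, mul_zero, hA0]
    have := C.deriv_ne 0 h0ball
    field_simp
  have hB0ne : B 0 ≠ 0 := by
    rw [hB0]
    exact div_ne_zero hab0 (C.deriv_ne 0 h0ball)
  -- the domain
  set Ψ : ℂ → ℂ := fun u => u / B u with hΨ
  set Ω : Set ℂ := {u | u ∈ ball (0 : ℂ) 1 ∧ B u ≠ 0 ∧ Ψ u ∈ UK K} with hΩ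
  have hΩ1 : IsOpen (ball (0 : ℂ) 1 ∩ {u | B u ≠ 0}) := by
    have := (hBd.continuousOn).isOpen_inter_preimage isOpen_ball (isOpen_ne (x := (0 : ℂ)))
    exact this
  have hΨc : DifferentiableOn ℂ Ψ (ball (0 : ℂ) 1 ∩ {u | B u ≠ 0}) := by
    refine DifferentiableOn.div (by fun_prop) (hBd.mono inter_subset_left) ?_
    exact fun u hu => hu.2
  have hΩo : IsOpen Ω := by
    have := (hΨc.continuousOn).isOpen_inter_preimage hΩ1 C.UK_open
    convert this using 1
    ext u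
    simp only [hΩ, Set.mem_ofPred_eq, mem_inter_iff, mem_preimage]
    tauto
  have h0Ω : (0 : ℂ) ∈ Ω := by
    refine ⟨h0ball, hB0ne, ?_⟩
    simp only [hΨ, zero_div]
    intro τ _ he
    simp at he
  set Y : ℂ → ℂ := fun u => g (Ψ u) with hY
  have hΩsub : Ω ⊆ ball (0 : ℂ) 1 ∩ {u | B u ≠ 0} := fun u hu => ⟨hu.1, hu.2.1⟩
  have hYd : DifferentiableOn ℂ Y Ω :=
    C.diff_g.comp (hΨc.mono hΩsub) (fun u hu => hu.2.2)
  have hY0 : Y 0 = 0 := by
    simp only [hY, hΨ, zero_div]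
    have := C.left_inv 0 h0ball
    rwa [C.zero] at this
  set Y1 : ℂ → ℂ := dslope Y 0 with hY1
  have hY1d : DifferentiableOn ℂ Y1 Ω :=
    (Complex.differentiableOn_dslope (hΩo.mem_nhds h0Ω)).2 hYd
  have hYeq : ∀ u, Y u = u * Y1 u := by
    intro u
    have := sub_smul_dslope Y 0 u
    simpa [hY0] using this.symm
  -- derivative at the origin
  have hΨ0 : HasDerivAt Ψ (B 0)⁻¹ 0 := by
    have hBa : DifferentiableAt ℂ B 0 := hBd.differentiableAt (isOpen_ball.mem_nhds h0ball)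
    have h1 := (hasDerivAt_id (0 : ℂ)).div hBa.hasDerivAt hB0ne
    have e : (1 * B 0 - id 0 * deriv B 0) / B 0 ^ 2 = (B 0)⁻¹ := by
      simp only [id, zero_mul, sub_zero, one_mul]
      field_simp
    exact h1.congr_deriv e
  have hh0 : h 0 = 0 := C.zero
  have hg0 : HasDerivAt g (deriv h 0)⁻¹ 0 := by
    have := C.hasDerivAt_g h0ball
    rwa [hh0] at this
  have hΨ00 : Ψ 0 = 0 := by simp [hΨ]
  have hYder : HasDerivAt Y ((deriv h 0)⁻¹ * (B 0)⁻¹) 0 := by
    have hg0' : HasDerivAt g (deriv h 0)⁻¹ (Ψ 0) := by rwa [hΨ00]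
    exact hg0'.comp (0 : ℂ) hΨ0
  have hY10 : Y1 0 = (a + b / lam)⁻¹ := by
    rw [hY1, dslope_same, hYder.deriv, hB0]
    have := C.deriv_ne 0 h0ball
    field_simp
  have hY1ne : ∀ u ∈ Ω, Y1 u ≠ 0 := by
    intro u hu
    by_cases hu0 : u = 0
    · rw [hu0, hY10]
      exact inv_ne_zero hab0
    · intro he
      have h1 : Y u = 0 := by rw [hYeq, he, mul_zero]
      have h2 : h (Y u) = Ψ u := C.right_inv _ hu.2.2
      rw [h1, hh0] at h2
      have h3 : Ψ u ≠ 0 := div_ne_zero hu0 hu.2.1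
      exact h3 h2.symm
  set G : ℂ → ℂ := fun u => (Y1 u)⁻¹ with hG
  have hGd : DifferentiableOn ℂ G Ω := hY1d.inv hY1ne
  have hG0 : ‖G 0‖ ≤ 1 := by
    simp only [hG, hY10, inv_inv]
    exact hab
  have hmain : ∀ u ∈ Ω, ‖G u‖ ≤ 1 := by
    intro u0 hu0
    by_contra hn
    rw [not_le] at hn
    set ε : ℝ := (‖G u0‖ - 1) / 2 with hε
    have hε0 : 0 < ε := by rw [hε]; linarith
    set U : Set ℂ := {u | u ∈ Ω ∧ 1 + ε < ‖G u‖} with hU
    have hUo : IsOpen U := by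
      have := (hGd.continuousOn.norm).isOpen_inter_preimage hΩo (isOpen_Ioi (a := 1 + ε))
      exact this
    have hu0U : u0 ∈ U := ⟨hu0, by rw [hε]; linarith⟩
    have hU0 : ∀ u ∈ U, u ≠ 0 := by
      rintro u hu rfl
      have := hu.2
      linarith
    set c : ℝ := (1 + ε)⁻¹ with hc
    have hc0 : 0 < c := by positivity
    have hc1 : c < 1 := by
      rw [hc]
      exact inv_lt_one_of_one_lt₀ (by linarith)
    -- the compact set
    set E : Set ℂ := h '' closedBall 0 c with hE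
    have hsubb : closedBall (0 : ℂ) c ⊆ ball 0 1 := closedBall_subset_ball hc1
    have hEc : IsCompact E :=
      (isCompact_closedBall (0 : ℂ) c).image_of_continuousOn (C.diff.continuousOn.mono hsubb)
    have hEU : E ⊆ UK K := by
      rintro _ ⟨v, hv, rfl⟩
      exact C.mapsTo (hsubb hv)
    obtain ⟨δ, hδ, hgap⟩ := C.exists_gap hEc hEU
    obtain ⟨ρ, hρ, hρb⟩ := C.ball_sub
    -- on `U` the function `Ψ` stays in `E`
    have hUE : ∀ u ∈ U, Ψ u ∈ E := by
      intro u hu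
      have hne := hY1ne u hu.1
      have h1 : ‖Y u‖ ≤ c := by
        rw [hYeq, norm_mul]
        have h2 : ‖u‖ < 1 := by simpa using hu.1.1
        have h3 : 1 + ε < (‖Y1 u‖)⁻¹ := by simpa [hG] using hu.2
        have h4 : ‖Y1 u‖ ≤ c := by
          rw [hc, le_inv_comm₀ (norm_pos_iff.2 hne) (by linarith)]
          exact h3.le
        calc ‖u‖ * ‖Y1 u‖ ≤ 1 * ‖Y1 u‖ := by
              exact mul_le_mul_of_nonneg_right h2.le (norm_nonneg _)
          _ ≤ c := by rw [one_mul]; exact h4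
      exact ⟨Y u, by simpa using h1, C.right_inv _ hu.1.2.2⟩
    -- lower bound for `‖B u / u‖` and for the distance to `K`
    have hlow : ∀ u ∈ U, ρ ≤ ‖B u / u‖ ∧ ∀ τ ∈ K, δ * ρ ≤ ‖B u / u - τ‖ := by
      intro u hu
      have hu00 := hU0 u hu
      have hBu := hu.1.2.1
      have hΨu : Ψ u = (B u / u)⁻¹ := by simp only [hΨ, inv_div]
      have hne : B u / u ≠ 0 := div_ne_zero hBu hu00
      have hρ1 : ρ ≤ ‖B u / u‖ := by
        by_contra hlt
        rw [not_le] at hlt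
        have hmem : B u / u ∈ K := hρb (by simpa using hlt)
        have := hu.1.2.2 (B u / u) hmem
        apply this
        rw [hΨu]
        exact mul_inv_cancel₀ hne
      refine ⟨hρ1, fun τ hτ => ?_⟩
      have h1 := hgap _ (hUE u hu) τ hτ
      have h2 : B u / u - τ = (1 - τ * Ψ u) * (B u / u) := by
        rw [hΨu]
        field_simp
      rw [h2, norm_mul]
      exact mul_le_mul h1 hρ1 hρ.le (norm_nonneg _)
    -- `U` stays away from the unit circle
    obtain ⟨r₀, hr₀, hnear⟩ := C.exists_near (ε := δ * ρ / 2) (by positivity)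
    have hUr : ∀ u ∈ U, ‖u‖ < r₀ := by
      intro u hu
      by_contra hge
      rw [not_lt] at hge
      have hu1 : ‖u‖ < 1 := by simpa using hu.1.1
      obtain ⟨τ1, hτ1, h1⟩ := hnear u hge hu1
      have hlu : ‖lam * u‖ = ‖u‖ := by rw [norm_mul, hl, one_mul]
      obtain ⟨τ2, hτ2, h2⟩ := hnear (lam * u) (by rw [hlu]; exact hge) (by rw [hlu]; exact hu1)
      have hτ : (1 - s) • τ1 + s • τ2 ∈ K :=
        C.convex hτ1 hτ2 (by linarith) hs0.le (by ring)
      have h3 := (hlow u hu).2 _ hτ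
      rw [← hPhi u hu.1.1 (hU0 u hu)] at h3
      have h4 : (1 - s) • zz h u + s • zz h (lam * u) - ((1 - s) • τ1 + s • τ2) =
          (1 - s) • (zz h u - τ1) + s • (zz h (lam * u) - τ2) := by
        simp only [smul_sub]
        abel
      rw [h4] at h3
      have h5 : ‖(1 - s) • (zz h u - τ1) + s • (zz h (lam * u) - τ2)‖ ≤
          (1 - s) * (δ * ρ / 2) + s * (δ * ρ / 2) := by
        refine (norm_add_le _ _).trans ?_
        rw [norm_smul, norm_smul, Real.norm_of_nonneg (by linarith : (0 : ℝ) ≤ 1 - s),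
          Real.norm_of_nonneg hs0.le]
        exact add_le_add (mul_le_mul_of_nonneg_left h1 (by linarith))
          (mul_le_mul_of_nonneg_left h2 hs0.le)
      have h6 : 0 < δ * ρ := by positivity
      nlinarith
    -- the closure is inside `Ω`
    have hcl : ∀ u ∈ closure U, u ∈ Ω ∧ 1 + ε ≤ ‖G u‖ := by
      intro u hu
      obtain ⟨x, hx, hxt⟩ := mem_closure_iff_seq_limit.1 hu
      have hn1 : ‖u‖ ≤ r₀ := le_of_tendsto' hxt.norm (fun n => (hUr _ (hx n)).le)
      have hub : u ∈ ball (0 : ℂ) 1 := by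
        have := hr₀.2
        simp only [mem_ball_zero_iff]
        linarith
      have hBc : ContinuousAt B u := (hBd.differentiableAt (isOpen_ball.mem_nhds hub)).continuousAt
      have hBt : Tendsto (fun n => B (x n)) atTop (𝓝 (B u)) := hBc.tendsto.comp hxt
      have hBu : B u ≠ 0 := by
        by_cases hu0 : u = 0
        · rw [hu0]; exact hB0ne
        · have hle : ∀ n, ρ * ‖x n‖ ≤ ‖B (x n)‖ := by
            intro n
            have h1 := (hlow _ (hx n)).1
            have hx0 : x n ≠ 0 := hU0 _ (hx n)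
            rw [norm_div, le_div_iff₀ (norm_pos_iff.2 hx0)] at h1
            exact h1
          have h2 : ρ * ‖u‖ ≤ ‖B u‖ := le_of_tendsto_of_tendsto' (hxt.norm.const_mul ρ) hBt.norm hle
          have h3 : 0 < ρ * ‖u‖ := mul_pos hρ (norm_pos_iff.2 hu0)
          intro he
          rw [he, norm_zero] at h2
          linarith
      have hΨt : Tendsto (fun n => Ψ (x n)) atTop (𝓝 (Ψ u)) := hxt.div hBt hBu
      have hΨE : Ψ u ∈ E := hEc.isClosed.mem_of_tendsto hΨt (Eventually.of_forall fun n => hUE _ (hx n))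
      have huΩ : u ∈ Ω := ⟨hub, hBu, hEU hΨE⟩
      refine ⟨huΩ, ?_⟩
      have hGc : ContinuousAt G u := (hGd.differentiableAt (hΩo.mem_nhds huΩ)).continuousAt
      exact ge_of_tendsto' (hGc.tendsto.comp hxt).norm (fun n => (hx n).2.le)
    have hdc : DiffContOnCl ℂ G U :=
      DifferentiableOn.diffContOnCl (hGd.mono fun u hu => (hcl u hu).1)
    have hbd : Bornology.IsBounded U :=
      (Metric.isBounded_ball (x := (0 : ℂ)) (r := 1)).subset fun u hu => hu.1.1
    have hfr : ∀ z ∈ frontier U, ‖G z‖ ≤ 1 + ε := by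
      intro z hz
      have hzc : z ∈ closure U := frontier_subset_closure hz
      have hzU : z ∉ U := by
        have := hz.2
        rwa [hUo.interior_eq] at this
      by_contra hlt
      rw [not_le] at hlt
      exact hzU ⟨(hcl z hzc).1, hlt⟩
    have hfin := Complex.norm_le_of_forall_mem_frontier_norm_le hbd hdc hfr (subset_closure hu0U)
    rw [hε] at hfin
    linarith
  -- conclusion
  have hΦ : (1 - s) • zz h w + s • zz h (lam * w) = B w / w := hPhi w hw hw0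
  set Z := (1 - s) • zz h w + s • zz h (lam * w) with hZ
  have hZ0 : Z ≠ 0 := by
    intro he
    apply hz
    rw [he]
    exact C.zero_mem
  have hBw : B w ≠ 0 := by
    intro he
    apply hZ0
    rw [hΦ, he, zero_div]
  have hΨw : Ψ w = Z⁻¹ := by
    simp only [hΨ, hΦ, inv_div]
  have hwΩ : w ∈ Ω := by
    refine ⟨hw, hBw, ?_⟩
    rw [hΨw]
    intro τ hτ he
    apply hz
    have : τ = Z := by
      field_simp at he
      exact he
    rwa [← this]
  have h1 := hmain w hwΩ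
  have h2 : Y w = g Z⁻¹ := by simp only [hY, hΨw]
  rw [← h2, hYeq, norm_mul]
  have h3 : ‖Y1 w‖⁻¹ ≤ 1 := by
    simpa [hG] using h1
  have h4 : 0 < ‖Y1 w‖ := norm_pos_iff.2 (hY1ne w hwΩ)
  have h5 : 1 ≤ ‖Y1 w‖ := by
    rw [inv_le_one₀ h4] at h3
    exact h3
  nlinarith [norm_nonneg w]

/-- Chord positivity: all level curves of the exterior map are convex. -/
theorem Conf.re_chord_nonneg' (C : Conf K h g) {w lam : ℂ} (hw : w ∈ ball (0 : ℂ) 1) (h0 : w ≠ 0)
    (hl : ‖lam‖ = 1) (hl1 : lam ≠ 1) :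
    0 ≤ (T h w / (zz h w - zz h (lam * w))).re := by
  have hlam0 : lam ≠ 0 := by
    intro he
    rw [he, norm_zero] at hl
    norm_num at hl
  have hw2 : lam * w ∈ ball (0 : ℂ) 1 := by simpa [norm_mul, hl] using hw
  have hh0 : h w ≠ 0 := C.h_ne_zero hw h0
  have hh2 : h (lam * w) ≠ 0 := C.h_ne_zero hw2 (mul_ne_zero hlam0 h0)
  have hd0 : deriv h w ≠ 0 := C.deriv_ne w hw
  set z1 := zz h w with hz1
  set z2 := zz h (lam * w) with hz2
  have hz10 : z1 ≠ 0 := inv_ne_zero hh0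
  have hz1K : z1 ∉ K := C.zz_notin hw h0
  have hne12 : z1 ≠ z2 := by
    intro he
    have h1 : h w = h (lam * w) := by
      have := congrArg (fun x => x⁻¹) he
      simpa [hz1, hz2, zz] using this
    have h2 := C.inj hw hw2 h1
    have h3 : (lam - 1) * w = 0 := by rw [sub_mul, one_mul, ← h2, sub_self]
    rcases mul_eq_zero.1 h3 with h4 | h4
    · exact hl1 (sub_eq_zero.1 h4)
    · exact h0 h4
  set Δ := z2 - z1 with hΔ
  have hΔ0 : Δ ≠ 0 := sub_ne_zero.2 hne12.symm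
  -- the curve
  have hinner : HasDerivAt (fun ζ : ℂ => (z1 + ζ * Δ)⁻¹) (-(Δ / z1 ^ 2)) 0 := by
    have h1 : HasDerivAt (fun ζ : ℂ => z1 + ζ * Δ) Δ 0 := by
      simpa using ((hasDerivAt_id (0 : ℂ)).mul_const Δ).const_add z1
    have h2 : z1 + 0 * Δ ≠ 0 := by simpa using hz10
    have h3 := h1.fun_inv h2
    have e : -Δ / (z1 + 0 * Δ) ^ 2 = -(Δ / z1 ^ 2) := by
      rw [zero_mul, add_zero, neg_div]
    rw [e] at h3
    exact h3
  have hval : (z1 + (0 : ℂ) * Δ)⁻¹ = h w := by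
    simp [hz1, zz]
  have houter : HasDerivAt g (deriv h w)⁻¹ ((z1 + (0 : ℂ) * Δ)⁻¹) := by
    rw [hval]
    exact C.hasDerivAt_g hw
  have hphi : HasDerivAt (fun ζ : ℂ => g ((z1 + ζ * Δ)⁻¹)) ((deriv h w)⁻¹ * (-(Δ / z1 ^ 2))) 0 :=
    houter.comp (0 : ℂ) hinner
  have hreal : HasDerivAt (fun t : ℝ => g ((z1 + (t : ℂ) * Δ)⁻¹))
      ((deriv h w)⁻¹ * (-(Δ / z1 ^ 2))) 0 := by
    have := hphi.comp_ofReal
    simpa using this
  have hN := hreal.norm_sq
  have hf0 : g ((z1 + ((0 : ℝ) : ℂ) * Δ)⁻¹) = w := by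
    have : (z1 + ((0 : ℝ) : ℂ) * Δ)⁻¹ = h w := by simp [hz1, zz]
    rw [this, C.left_inv w hw]
  rw [hf0] at hN
  -- small positive parameters
  have hlim : ∀ᶠ t : ℝ in 𝓝[>] 0, ‖w‖ ^ 2 ≤ ‖g ((z1 + (t : ℂ) * Δ)⁻¹)‖ ^ 2 := by
    have hcont : ContinuousAt (fun t : ℝ => z1 + (t : ℂ) * Δ) 0 := by fun_prop
    have hz10' : (fun t : ℝ => z1 + (t : ℂ) * Δ) 0 ∈ Kᶜ := by
      simpa using hz1K
    have hev : ∀ᶠ t : ℝ in 𝓝 0, z1 + (t : ℂ) * Δ ∈ Kᶜ :=
      hcont.eventually (C.compact.isClosed.isOpen_compl.mem_nhds hz10')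
    have hev2 : ∀ᶠ t : ℝ in 𝓝[>] 0, z1 + (t : ℂ) * Δ ∈ Kᶜ := hev.filter_mono nhdsWithin_le_nhds
    have hev3 : ∀ᶠ t : ℝ in 𝓝[>] 0, t < 1 / 2 :=
      (eventually_lt_nhds (by norm_num : (0 : ℝ) < 1 / 2)).filter_mono nhdsWithin_le_nhds
    filter_upwards [hev2, hev3, self_mem_nhdsWithin] with t h1 h2 h3
    have h4 : (1 - t) • zz h w + t • zz h (lam * w) = z1 + (t : ℂ) * Δ := by
      simp only [Complex.real_smul, hz1, hz2, hΔ]
      push_cast
      ring
    have h5 := C.two_point hl h3 h2 hw h0 (by rw [h4]; exact h1)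
    rw [h4] at h5
    exact pow_le_pow_left₀ (norm_nonneg _) h5 2
  have hslope := hasDerivAt_iff_tendsto_slope.1 hN
  have hsub : Set.Ioi (0 : ℝ) ⊆ {0}ᶜ := fun t (ht : 0 < t) => ne_of_gt ht
  have hslope2 := hslope.mono_left (nhdsWithin_mono (0 : ℝ) hsub)
  have hnn : 0 ≤ 2 * inner ℝ w ((deriv h w)⁻¹ * (-(Δ / z1 ^ 2))) := by
    refine ge_of_tendsto hslope2 ?_
    filter_upwards [hlim, self_mem_nhdsWithin] with t h1 h2
    rw [slope_def_field]
    have h3 : (0 : ℝ) < t := h2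
    have e0 : ‖g ((z1 + ((0 : ℝ) : ℂ) * Δ)⁻¹)‖ ^ 2 = ‖w‖ ^ 2 := by rw [hf0]
    apply div_nonneg _ (by linarith)
    simp only [e0]
    linarith
  -- algebra
  set Q : ℂ := (deriv h w)⁻¹ * (-(Δ / z1 ^ 2)) * (starRingEnd ℂ) w with hQ
  have hQre : 0 ≤ Q.re := by
    have := Complex.inner w ((deriv h w)⁻¹ * (-(Δ / z1 ^ 2)))
    rw [this] at hnn
    linarith
  have hw00 : (starRingEnd ℂ) w ≠ 0 := (map_ne_zero _).2 h0
  have hQ0 : Q ≠ 0 := by
    rw [hQ]
    refine mul_ne_zero (mul_ne_zero (inv_ne_zero hd0) (neg_ne_zero.2 (div_ne_zero hΔ0 (pow_ne_zero _ hz10)))) hw00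
  have hT : T h w = w * deriv h w / h w ^ 2 := by
    unfold T
    rw [C.q_eq hw h0]
    field_simp
  have hz1' : z1 = (h w)⁻¹ := rfl
  have hX : T h w / (z1 - z2) = ((‖w‖ ^ 2 : ℝ) : ℂ) / Q := by
    have hnorm : ((‖w‖ ^ 2 : ℝ) : ℂ) = w * (starRingEnd ℂ) w := by
      rw [Complex.mul_conj, Complex.normSq_eq_norm_sq]
    have hsub2 : z1 - z2 = -Δ := by rw [hΔ]; ring
    rw [hnorm, hT, hsub2, hQ, hz1']
    have hΔ1 : -Δ ≠ 0 := neg_ne_zero.2 hΔ0
    field_simp
  rw [hX, Complex.div_re]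
  simp only [Complex.ofReal_re, Complex.ofReal_im, zero_mul, zero_div, add_zero]
  have hns : 0 < Complex.normSq Q := Complex.normSq_pos.2 hQ0
  positivity

end Vale.Agent.P123C
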