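import Vale.Agent.P123C.Starlike
import Vale.Agent.P123C.ChordPos

/-! MODULE E: convexity of the level curves (chord positivity); the proof is in `ChordPos.lean` (two point
maximum principle), which makes the older route below unnecessary.

Lower bound.  Fix `ρ` with `closedBall 0 ρ ⊆ K`.  For `|τ| ≤ ρ`, `Re k ≥ 0` gives `Re (conj T * (z - τ)) ≥ 0`
for `z = zz h w`, hence `Re (conj T * z) ≥ ρ ‖T‖`, hence `‖T‖ ≤ ‖z‖^2 Re q / ρ` (as `T / z = q`).
Let `D ≥ ‖zz h w‖` near the boundary.  Mean of `log ‖w T‖`: by `AnalyticOnNhd.circleAverage_log_norm_of_ne_zero`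
for the zero free `F = w T` (`Conf.exists_wT`), `avg r log ‖T‖ = log ‖h'(0)⁻¹‖ - log r ≥ log ‖h'(0)⁻¹‖`.  So
`avg r (log (Re q)) ≥ -c₃` uniformly in `r`.  With `β = ∫_arc Re q`, an arc of length `γ`, the tangent line bound
`log x ≤ x / a + log a - 1` on the arc (`a = β/γ`) and on the complement (`a = (2π - β)/(2π - γ)`), using
`avg r (Re q) = 1`, give `β ≥ η(γ) > 0` independent of `r`.

Then `zz (r e^{i(θ+γ)}) / zz (r e^{iθ}) = exp (-i ∫ q) = t e^{-iβ}` with `t > 0`, `β ∈ [η, 2π-η']`,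
and `‖zz‖ ≥ ρ` so `‖zz₁ - zz₂‖ ≥ ρ min(1, sin ..) =: d > 0`.

Positivity.  `F_λ (w) = T w / (zz w - zz (λ w))` is analytic on the disc after removing the singularity at
`0` (value `1/(1 - conj λ)`, real part `1/2`).  On `‖w‖ = r` near `1`: let `τ'` be a nearest point in `K` to
`zz (λ w)`;  `F_λ = k w τ' + T (zz(λw) - τ') / ((zz w - zz (λw)) (zz w - τ'))`, the first has `Re ≥ 0` and the
second has norm `≤ M * M(1-r) / (d * d/2)`.  Minimum principle on `ball 0 r` (apply the maximum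
principle to `exp (-F_λ)`) and `r → 1`. -/

open Complex Metric Set Filter Topology
open scoped Real

namespace Vale.Agent.P123C

variable {K : Set ℂ} {h g : ℂ → ℂ}

/-- Chord positivity: all level curves of the exterior map are convex. -/
theorem Conf.re_chord_nonneg (C : Conf K h g) {w lam : ℂ} (hw : w ∈ ball (0 : ℂ) 1) (h0 : w ≠ 0)
    (hl : ‖lam‖ = 1) (hl1 : lam ≠ 1) :
    0 ≤ (T h w / (zz h w - zz h (lam * w))).re :=
  C.re_chord_nonneg' hw h0 hl hl1

end Vale.Agent.P123C
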