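import Vale.Agent.P123C.Faber
import Vale.Agent.P123C.Avg

/-! MODULE G2: the `L²` chain of the proof, for scalar functions. -/

open Complex Metric Set Filter Topology Polynomial
open scoped Real InnerProductSpace ComplexConjugate NNReal

namespace Vale.Agent.P123C

variable {K : Set ℂ} {h g : ℂ → ℂ} {r : ℝ}

theorem cm {f₁ f₂ : ℂ → ℂ} {S : Set ℂ} (h₁ : ContinuousOn f₁ S) (h₂ : ContinuousOn f₂ S) :
    ContinuousOn (fun w => f₁ w * f₂ w) S := h₁.mul h₂

theorem cn2 {f₁ : ℂ → ℂ} {S : Set ℂ} (h₁ : ContinuousOn f₁ S) :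
    ContinuousOn (fun w => ‖f₁ w‖ ^ 2) S := h₁.norm.pow 2

theorem norm_lt_one_of_eq {w : ℂ} (hw : ‖w‖ = r) (hr1 : r < 1) : w ∈ ball (0 : ℂ) 1 := by
  rw [mem_ball_zero_iff]; linarith

theorem ne_zero_of_norm_eq {w : ℂ} (hw : ‖w‖ = r) (hr : 0 < r) : w ≠ 0 := by
  intro h0; rw [h0, norm_zero] at hw; linarith

theorem Conf.zz_cont (C : Conf K h g) (hr : 0 < r) (hr1 : r < 1) :
    ContinuousOn (zz h) (sphere 0 r) := by
  have h1 : ContinuousOn h (sphere 0 r) := contOn_of_diff C.diff hr1 hr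
  apply h1.inv₀
  intro w hw
  rw [mem_sphere_zero_iff_norm] at hw
  exact C.h_ne_zero (norm_lt_one_of_eq hw hr1) (ne_zero_of_norm_eq hw hr)

theorem Conf.T_cont (C : Conf K h g) (hr : 0 < r) (hr1 : r < 1) :
    ContinuousOn (T h) (sphere 0 r) := by
  have h1 : ContinuousOn (q h) (sphere 0 r) := contOn_of_diff C.q_diff hr1 hr
  have : T h = fun w => q h w * zz h w := by
    funext w; exact T_eq h w
  rw [this]
  exact h1.mul (C.zz_cont hr hr1)

theorem Conf.poly_cont (C : Conf K h g) (hr : 0 < r) (hr1 : r < 1) (Q : ℂ[X]) :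
    ContinuousOn (fun w => Q.eval (zz h w)) (sphere 0 r) :=
  Q.continuous.comp_continuousOn (C.zz_cont hr hr1)

/-- Mean zero of `zz^n * T`: a derivative in `θ` of a periodic function. -/
theorem Conf.avg_zz_pow_T (C : Conf K h g) (hr : 0 < r) (hr1 : r < 1) (n : ℕ) :
    avg r (fun w => (zz h w) ^ n * T h w) = 0 := by
  set Z : ℝ → ℂ := fun t => zz h (circleMap 0 r t) with hZ
  have hZd : ∀ θ : ℝ, HasDerivAt Z (-I * T h (circleMap 0 r θ)) θ :=
    C.hasDerivAt_zz_circle hr hr1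
  set F : ℝ → ℂ := fun t => (Z t) ^ (n + 1) / ((n : ℂ) + 1) with hF
  have hn1 : ((n : ℂ) + 1) ≠ 0 := by exact_mod_cast Nat.succ_ne_zero n
  have hFd : ∀ θ : ℝ, HasDerivAt F
      ((Z θ) ^ n * (-I * T h (circleMap 0 r θ))) θ := by
    intro θ
    have := ((hZd θ).pow (n + 1)).div_const ((n : ℂ) + 1)
    have e : ((n + 1 : ℕ) : ℂ) * Z θ ^ (n + 1 - 1) * (-I * T h (circleMap 0 r θ)) / ((n : ℂ) + 1)
        = (Z θ) ^ n * (-I * T h (circleMap 0 r θ)) := by
      rw [Nat.add_sub_cancel]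
      push_cast
      field_simp
    exact this.congr_deriv e
  have hcirc : ∀ θ : ℝ, circleMap 0 r θ ∈ sphere (0 : ℂ) r := by
    intro θ
    have := circleMap_mem_sphere (0 : ℂ) hr.le θ
    simpa using this
  have hcont : Continuous fun θ : ℝ => (Z θ) ^ n * (-I * T h (circleMap 0 r θ)) := by
    have h1 : Continuous Z := continuous_iff_continuousAt.2 (fun θ => (hZd θ).continuousAt)
    have h2 : Continuous fun θ : ℝ => T h (circleMap 0 r θ) :=
      (C.T_cont hr hr1).comp_continuous (continuous_circleMap 0 r) hcirc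
    exact (h1.pow n).mul (continuous_const.mul h2)
  have hint : ∫ θ in (0 : ℝ)..2 * π, (Z θ) ^ n * (-I * T h (circleMap 0 r θ)) = 0 := by
    rw [intervalIntegral.integral_eq_sub_of_hasDerivAt (fun θ _ => hFd θ)
      (hcont.intervalIntegrable _ _)]
    have : Z (2 * π) = Z 0 := by
      simp only [hZ]
      congr 1
      simp [circleMap]
    simp only [hF, this, sub_self]
  have hint2 : ∫ θ in (0 : ℝ)..2 * π, (zz h (circleMap 0 r θ)) ^ n * T h (circleMap 0 r θ) = 0 := by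
    have e : ∀ θ : ℝ, (Z θ) ^ n * (-I * T h (circleMap 0 r θ))
        = (-I) * ((zz h (circleMap 0 r θ)) ^ n * T h (circleMap 0 r θ)) := by
      intro θ; simp only [hZ]; ring
    simp_rw [e] at hint
    rw [intervalIntegral.integral_const_mul] at hint
    exact (mul_eq_zero.1 hint).resolve_left (by simp)
  change Real.circleAverage _ 0 r = 0
  rw [Real.circleAverage_def, hint2, smul_zero]

theorem avg_norm_sq_add {f₁ f₂ : ℂ → ℂ} (hr : 0 < r) (h₁ : ContinuousOn f₁ (sphere 0 r))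
    (h₂ : ContinuousOn f₂ (sphere 0 r)) :
    avg r (fun w => ‖f₁ w + f₂ w‖ ^ 2)
      = avg r (fun w => ‖f₁ w‖ ^ 2) + avg r (fun w => ‖f₂ w‖ ^ 2)
        + 2 * (avg r (fun w => conj (f₁ w) * f₂ w)).re := by
  have hpt : ∀ w, ‖f₁ w + f₂ w‖ ^ 2
      = ‖f₁ w‖ ^ 2 + ‖f₂ w‖ ^ 2 + 2 * (conj (f₁ w) * f₂ w).re := by
    intro w
    simp only [Complex.sq_norm, normSq_apply, add_re, add_im, mul_re, conj_re, conj_im]
    ring
  have c1 : ContinuousOn (fun w => ‖f₁ w‖ ^ 2) (sphere 0 r) := h₁.norm.pow 2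
  have c2 : ContinuousOn (fun w => ‖f₂ w‖ ^ 2) (sphere 0 r) := h₂.norm.pow 2
  have c3 : ContinuousOn (fun w => conj (f₁ w) * f₂ w) (sphere 0 r) :=
    (Complex.continuous_conj.comp_continuousOn h₁).mul h₂
  have c4 : ContinuousOn (fun w => (conj (f₁ w) * f₂ w).re) (sphere 0 r) :=
    Complex.continuous_re.comp_continuousOn c3
  have c12 : ContinuousOn (fun w => ‖f₁ w‖ ^ 2 + ‖f₂ w‖ ^ 2) (sphere 0 r) := c1.add c2
  have c5 : ContinuousOn (fun w => 2 * (conj (f₁ w) * f₂ w).re) (sphere 0 r) :=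
    continuousOn_const.mul c4
  simp_rw [hpt]
  rw [avg_add_real hr c12 c5, avg_add_real hr c1 c2, avg_const_mul_real, avg_re hr c3]

theorem avg_norm_sq_sub {f₁ f₂ : ℂ → ℂ} (hr : 0 < r) (h₁ : ContinuousOn f₁ (sphere 0 r))
    (h₂ : ContinuousOn f₂ (sphere 0 r)) :
    avg r (fun w => ‖f₁ w - f₂ w‖ ^ 2)
      = avg r (fun w => ‖f₁ w‖ ^ 2) + avg r (fun w => ‖f₂ w‖ ^ 2)
        - 2 * (avg r (fun w => conj (f₁ w) * f₂ w)).re := by
  have hneg : ContinuousOn (fun w => - f₂ w) (sphere 0 r) := h₂.neg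
  have e := avg_norm_sq_add hr h₁ hneg
  have e2 : avg r (fun w => conj (f₁ w) * (- f₂ w)) = - avg r (fun w => conj (f₁ w) * f₂ w) := by
    have := avg_const_mul (r := r) (-1) (fun w => conj (f₁ w) * f₂ w)
    simpa using this
  rw [e2] at e
  simp only [← sub_eq_add_neg, norm_neg, neg_re] at e
  rw [e]; ring

/-- Uniform approximation of an analytic function vanishing at `0` on a circle, by a polynomial
vanishing at `0`. -/
theorem exists_poly_approx {f : ℂ → ℂ} (hf : DifferentiableOn ℂ f (ball 0 1)) (hf0 : f 0 = 0)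
    (hr : 0 < r) (hr1 : r < 1) {ε : ℝ} (hε : 0 < ε) :
    ∃ p : ℂ[X], p.coeff 0 = 0 ∧ ∀ w : ℂ, ‖w‖ = r → ‖f w - p.eval w‖ ≤ ε := by
  obtain ⟨R, hR1, hR2⟩ := exists_between hr1
  obtain ⟨R', hR'1, hR'2⟩ := exists_between hR1
  have hR0 : 0 < R := by linarith
  have hR'0 : 0 < R' := by linarith
  lift R to ℝ≥0 using hR0.le
  lift R' to ℝ≥0 using hR'0.le
  have hd : DifferentiableOn ℂ f (closedBall (0 : ℂ) R) :=
    hf.mono (closedBall_subset_ball hR2)
  have hS := hd.hasFPowerSeriesOnBall (by exact_mod_cast hR0)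
  have hU := hS.tendstoUniformlyOn (r' := R') (by exact_mod_cast hR'2)
  rw [Metric.tendstoUniformlyOn_iff] at hU
  obtain ⟨n, hn⟩ := (hU (ε / 2) (half_pos hε)).exists
  set c := cauchyPowerSeries f 0 (R : ℝ)
  set p₀ : ℂ[X] := ∑ k ∈ Finset.range n, monomial k (c.coeff k) with hp₀
  have hpe : ∀ y : ℂ, c.partialSum n y = p₀.eval y := by
    intro y
    simp only [FormalMultilinearSeries.partialSum, hp₀, Polynomial.eval_finsetSum, eval_monomial]
    apply Finset.sum_congr rfl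
    intro k _
    rw [FormalMultilinearSeries.apply_eq_pow_smul_coeff, smul_eq_mul, mul_comm]
  have hbd : ∀ y : ℂ, ‖y‖ < R' → ‖f y - p₀.eval y‖ < ε / 2 := by
    intro y hy
    have := hn y (by simpa using hy)
    rw [dist_eq_norm, hpe, zero_add] at this
    exact this
  refine ⟨p₀ - Polynomial.C (p₀.eval 0), ?_, ?_⟩
  · simp [Polynomial.coeff_zero_eq_eval_zero]
  · intro w hw
    have h1 := hbd w (by rw [hw]; exact_mod_cast hR'1)
    have h2 := hbd 0 (by simpa using hR'0)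
    rw [hf0, zero_sub, norm_neg] at h2
    have e : f w - (p₀ - Polynomial.C (p₀.eval 0)).eval w = (f w - p₀.eval w) + p₀.eval 0 := by
      simp; ring
    rw [e]
    calc _ ≤ ‖f w - p₀.eval w‖ + ‖p₀.eval 0‖ := norm_add_le _ _
      _ ≤ ε := by linarith

theorem avg_ofReal {f : ℂ → ℝ} (hr : 0 < r) (hf : ContinuousOn f (sphere 0 r)) :
    avg r (fun w => ((f w : ℝ) : ℂ)) = ((avg r f : ℝ) : ℂ) := by
  have := Complex.ofRealCLM.circleAverage_comp_comm (ci hr hf)
  simpa [Function.comp_def] using this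

/-- The limit step of the duality argument. -/
theorem limit_step {f : ℂ → ℂ} {M : ℝ} (hr : 0 < r) (hM : 0 ≤ M)
    (hf : ContinuousOn f (sphere 0 r))
    (happ : ∀ ε > 0, ∃ p : ℂ[X], p.coeff 0 = 0 ∧ ∀ w : ℂ, ‖w‖ = r → ‖f w - p.eval w‖ ≤ ε)
    (hdual : ∀ p : ℂ[X], p.coeff 0 = 0 →
      ‖avg r (fun w => conj (p.eval w) * f w)‖ ^ 2 ≤ 2 * avg r (fun w => ‖p.eval w‖ ^ 2) * M) :
    avg r (fun w => ‖f w‖ ^ 2) ≤ 2 * M := by
  by_contra hcon
  push Not at hcon
  set F := avg r (fun w => ‖f w‖ ^ 2) with hF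
  have hFc : ContinuousOn (fun w => ‖f w‖ ^ 2) (sphere 0 r) := hf.norm.pow 2
  have hF0 : 0 ≤ F := avg_nonneg hr hFc (fun w _ => by positivity)
  have hFpos : 0 < F := by linarith
  set φ := Real.sqrt F with hφ
  have hφ2 : φ ^ 2 = F := Real.sq_sqrt hF0
  have hφpos : 0 < φ := Real.sqrt_pos.2 hFpos
  -- choose `ε`
  set G : ℝ → ℝ := fun ε => φ ^ 2 * (φ - ε) ^ 2 - 2 * (φ + ε) ^ 2 * M with hG
  have hGc : Continuous G := by
    simp only [hG]; fun_prop
  have hG0 : 0 < G 0 := by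
    have : G 0 = F * (F - 2 * M) := by
      simp only [hG, sub_zero, add_zero]
      rw [← hφ2]; ring
    rw [this]
    exact mul_pos hFpos (by linarith)
  have hev : ∀ᶠ ε in 𝓝[>] (0 : ℝ), 0 < G ε ∧ ε < φ := by
    have h1 : ∀ᶠ ε in 𝓝 (0 : ℝ), 0 < G ε := hGc.continuousAt.eventually (lt_mem_nhds hG0)
    have h2 : ∀ᶠ ε in 𝓝 (0 : ℝ), ε < φ := gt_mem_nhds hφpos
    exact nhdsWithin_le_nhds (h1.and h2)
  obtain ⟨ε, ⟨hGε, hεφ⟩, hε⟩ := (hev.and self_mem_nhdsWithin).exists
  have hε0 : 0 < ε := hε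
  obtain ⟨p, hp0, hp⟩ := happ ε hε0
  have hpc : ContinuousOn (fun w => p.eval w) (sphere 0 r) := p.continuous.continuousOn
  set u : ℂ → ℂ := fun w => f w - p.eval w with hu
  have huc : ContinuousOn u (sphere 0 r) := hf.sub hpc
  have huN : avg r (fun w => ‖u w‖ ^ 2) ≤ ε ^ 2 := by
    have := avg_mono (f₂ := fun _ => ε ^ 2) hr (cn2 huc) continuousOn_const (fun w hw => by
      have := hp w hw
      have h0 := norm_nonneg (u w)
      simp only [hu] at h0 ⊢
      exact pow_le_pow_left₀ h0 this 2)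
    simpa [avg_const] using this
  have huN0 : 0 ≤ avg r (fun w => ‖u w‖ ^ 2) := avg_nonneg hr (huc.norm.pow 2) (fun w _ => by positivity)
  have hconjf : ContinuousOn (fun w => conj (f w)) (sphere 0 r) :=
    Complex.continuous_conj.comp_continuousOn hf
  have hconju : ContinuousOn (fun w => conj (u w)) (sphere 0 r) :=
    Complex.continuous_conj.comp_continuousOn huc
  have cs1 : ‖avg r (fun w => conj (u w) * f w)‖ ≤ ε * φ := by
    have h1 := avg_mul_sq_le hr hconju hf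
    simp only [RCLike.norm_conj] at h1
    have h2 : ‖avg r (fun w => conj (u w) * f w)‖ ^ 2 ≤ (ε * φ) ^ 2 := by
      calc _ ≤ avg r (fun w => ‖u w‖ ^ 2) * F := h1
        _ ≤ ε ^ 2 * F := mul_le_mul_of_nonneg_right huN hF0
        _ = (ε * φ) ^ 2 := by rw [mul_pow, hφ2]
    exact (pow_le_pow_iff_left₀ (norm_nonneg _) (by positivity) (by norm_num)).1 h2
  have cs2 : ‖avg r (fun w => conj (f w) * u w)‖ ≤ ε * φ := by
    have h1 := avg_mul_sq_le hr hconjf huc
    simp only [RCLike.norm_conj] at h1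
    have h2 : ‖avg r (fun w => conj (f w) * u w)‖ ^ 2 ≤ (ε * φ) ^ 2 := by
      calc _ ≤ F * avg r (fun w => ‖u w‖ ^ 2) := h1
        _ ≤ F * ε ^ 2 := mul_le_mul_of_nonneg_left huN hF0
        _ = (ε * φ) ^ 2 := by rw [mul_pow, hφ2]; ring
    exact (pow_le_pow_iff_left₀ (norm_nonneg _) (by positivity) (by norm_num)).1 h2
  -- the inner product
  have hA : avg r (fun w => conj (p.eval w) * f w)
      = (F : ℂ) - avg r (fun w => conj (u w) * f w) := by
    have e : ∀ w, conj (p.eval w) * f w = ((‖f w‖ ^ 2 : ℝ) : ℂ) - conj (u w) * f w := by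
      intro w
      simp only [hu, map_sub]
      have : ((‖f w‖ ^ 2 : ℝ) : ℂ) = conj (f w) * f w := by
        rw [Complex.conj_mul']; push_cast; rfl
      rw [this]; ring
    simp_rw [e]
    have c1 : ContinuousOn (fun w => ((‖f w‖ ^ 2 : ℝ) : ℂ)) (sphere 0 r) :=
      Complex.continuous_ofReal.comp_continuousOn hFc
    rw [avg_sub hr c1 (cm hconju hf), avg_ofReal hr hFc]
  have hAlow : F - ε * φ ≤ ‖avg r (fun w => conj (p.eval w) * f w)‖ := by
    rw [hA]
    have h1 : ‖(F : ℂ)‖ = F := by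
      rw [Complex.norm_real, Real.norm_of_nonneg hF0]
    have h2 := norm_sub_norm_le (F : ℂ) (avg r (fun w => conj (u w) * f w))
    rw [h1] at h2
    linarith
  -- the norm of `p`
  have hpN : avg r (fun w => ‖p.eval w‖ ^ 2) ≤ (φ + ε) ^ 2 := by
    have e : ∀ w, p.eval w = f w - u w := by intro w; simp [hu]
    simp_rw [e]
    rw [avg_norm_sq_sub hr hf huc]
    have h1 := Complex.abs_re_le_norm (avg r (fun w => conj (f w) * u w))
    have h2 := neg_abs_le (avg r (fun w => conj (f w) * u w)).re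
    nlinarith
  have h1 := hdual p hp0
  have hnn : 0 ≤ F - ε * φ := by
    have : F - ε * φ = φ * (φ - ε) := by rw [← hφ2]; ring
    rw [this]
    exact mul_nonneg hφpos.le (by linarith)
  have h2 : (F - ε * φ) ^ 2 ≤ 2 * (φ + ε) ^ 2 * M := by
    calc (F - ε * φ) ^ 2 ≤ ‖avg r (fun w => conj (p.eval w) * f w)‖ ^ 2 :=
          pow_le_pow_left₀ hnn hAlow 2
      _ ≤ 2 * avg r (fun w => ‖p.eval w‖ ^ 2) * M := h1
      _ ≤ 2 * (φ + ε) ^ 2 * M := by
          apply mul_le_mul_of_nonneg_right _ hM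
          linarith
  have h3 : G ε = (F - ε * φ) ^ 2 - 2 * (φ + ε) ^ 2 * M := by
    simp only [hG]; rw [← hφ2]; ring
  rw [h3] at hGε
  linarith

/-- Reflection of a polynomial in the circle of radius `r`: on the circle
`(refl r p).eval w⁻¹ = conj (p.eval w)`. -/
noncomputable def refl (r : ℝ) (p : ℂ[X]) : ℂ[X] :=
  (p.map (starRingEnd ℂ)).comp (Polynomial.C ((r : ℂ) ^ 2) * X)

theorem refl_eval {p : ℂ[X]} {w : ℂ} (hw : ‖w‖ = r) (hr : 0 < r) :
    (refl r p).eval w⁻¹ = conj (p.eval w) := by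
  have hw0 := ne_zero_of_norm_eq hw hr
  have e : (r : ℂ) ^ 2 * w⁻¹ = conj w := by
    have hconj : conj w * w = (r : ℂ) ^ 2 := by
      rw [Complex.conj_mul', hw]
    rw [← hconj]
    field_simp
  simp only [refl, eval_comp, eval_mul, eval_C, eval_X, e]
  rw [Polynomial.eval_map, Polynomial.eval₂_at_apply]

theorem refl_coeff_zero {p : ℂ[X]} (hp : p.coeff 0 = 0) : (refl r p).coeff 0 = 0 := by
  rw [Polynomial.coeff_zero_eq_eval_zero]
  simp only [refl, eval_comp, eval_mul, eval_C, eval_X, mul_zero]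
  rw [← Polynomial.coeff_zero_eq_eval_zero, Polynomial.coeff_map, hp, map_zero]

/-- The duality step, using the key contraction. -/
theorem Conf.dual_step (C : Conf K h g) (hr : 0 < r) (hr1 : r < 1) {f m : ℂ → ℂ}
    (hf : DifferentiableOn ℂ f (ball 0 1)) (hf0 : f 0 = 0)
    (hm : ContinuousOn m (sphere 0 r))
    (hmom : ∀ Q : ℂ[X], avg r (fun w => Q.eval (zz h w) * f w)
      = avg r (fun w => Q.eval (zz h w) * m w))
    (p : ℂ[X]) (hp : p.coeff 0 = 0) :
    ‖avg r (fun w => conj (p.eval w) * f w)‖ ^ 2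
      ≤ 2 * avg r (fun w => ‖p.eval w‖ ^ 2) * avg r (fun w => ‖m w‖ ^ 2) := by
  obtain ⟨Q, W, hWd, hW0, hQ⟩ := C.faber_exists (refl r p)
  have hbound := C.faber_bound hr hr1 (refl_coeff_zero hp) hWd hW0 hQ
  have hQc : ∀ w : ℂ, ‖w‖ = r → Q.eval (zz h w) = conj (p.eval w) + W w := by
    intro w hw
    rw [hQ w (norm_lt_one_of_eq hw hr1) (ne_zero_of_norm_eq hw hr), refl_eval hw hr]
  have hvN : avg r (fun w => ‖(refl r p).eval w⁻¹‖ ^ 2) = avg r (fun w => ‖p.eval w‖ ^ 2) := by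
    apply avg_congr hr
    intro w hw
    rw [refl_eval hw hr, RCLike.norm_conj]
  rw [hvN] at hbound
  have hpc : ContinuousOn (fun w => p.eval w) (sphere 0 r) := p.continuous.continuousOn
  have hcp : ContinuousOn (fun w => conj (p.eval w)) (sphere 0 r) :=
    Complex.continuous_conj.comp_continuousOn hpc
  have hWc : ContinuousOn W (sphere 0 r) := contOn_of_diff hWd hr1 hr
  have hfc : ContinuousOn f (sphere 0 r) := contOn_of_diff hf hr1 hr
  have hQcont := C.poly_cont hr hr1 Q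
  -- norm of `Q(zz)`
  have hN : avg r (fun w => ‖Q.eval (zz h w)‖ ^ 2) ≤ 2 * avg r (fun w => ‖p.eval w‖ ^ 2) := by
    have e1 : avg r (fun w => ‖Q.eval (zz h w)‖ ^ 2) = avg r (fun w => ‖conj (p.eval w) + W w‖ ^ 2) :=
      avg_congr hr (fun w hw => by rw [hQc w hw])
    rw [e1, avg_norm_sq_add hr hcp hWc]
    have e2 : avg r (fun w => conj (conj (p.eval w)) * W w) = 0 := by
      have hd : DifferentiableOn ℂ (fun w => p.eval w * W w) (ball 0 1) :=
        (p.differentiable.differentiableOn).mul hWd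
      have := avg_eq_of_diff hd hr hr1
      simp only [hW0, mul_zero] at this
      simpa using this
    rw [e2]
    simp only [RCLike.norm_conj, zero_re, mul_zero, add_zero]
    linarith
  -- the inner product
  have hI : avg r (fun w => conj (p.eval w) * f w) = avg r (fun w => Q.eval (zz h w) * m w) := by
    rw [← hmom Q]
    have e1 : avg r (fun w => Q.eval (zz h w) * f w)
        = avg r (fun w => conj (p.eval w) * f w + W w * f w) :=
      avg_congr hr (fun w hw => by rw [hQc w hw]; ring)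
    rw [e1, avg_add hr (cm hcp hfc) (cm hWc hfc)]
    have hd : DifferentiableOn ℂ (fun w => W w * f w) (ball 0 1) := hWd.mul hf
    have e2 := avg_eq_of_diff hd hr hr1
    simp only [hW0, zero_mul] at e2
    rw [e2, add_zero]
  rw [hI]
  have hcs := avg_mul_sq_le hr hQcont hm
  have hm0 : 0 ≤ avg r (fun w => ‖m w‖ ^ 2) := avg_nonneg hr (hm.norm.pow 2) (fun w _ => by positivity)
  exact hcs.trans (mul_le_mul_of_nonneg_right hN hm0)

/-- **The `L²` chain.** -/
theorem Conf.chain (C : Conf K h g) {s c : ℝ} (hr : 0 < r) (hr1 : r < 1) (P : ℂ[X])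
    (hs : ∀ w : ℂ, ‖w‖ = r → ‖P.eval (zz h w)‖ ≤ s) (hc : 0 < c) {a b d : ℂ → ℂ}
    (ha : DifferentiableOn ℂ a (ball 0 1)) (hb : DifferentiableOn ℂ b (ball 0 1))
    (hd : DifferentiableOn ℂ d (ball 0 1)) (ha0 : a 0 = 1) (hbd : 0 ≤ (b 0 * d 0).re)
    (hpt : ∀ w ∈ ball (0 : ℂ) 1, ‖b w + conj (d w)‖ ≤ 2 * (a w).re)
    (hmom : ∀ Q : ℂ[X], avg r (fun w => Q.eval (zz h w) * a w)
      = (c : ℂ)⁻¹ * avg r (fun w => Q.eval (zz h w) * (P.eval (zz h w) * b w))) :
    c ≤ 2 * s := by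
  have hcC : (c : ℂ) ≠ 0 := by exact_mod_cast hc.ne'
  have hs0 : 0 ≤ s := by
    have hw : ‖((r : ℂ))‖ = r := by simp [abs_of_pos hr]
    exact (norm_nonneg _).trans (hs _ hw)
  have hac := contOn_of_diff ha hr1 hr
  have hbc := contOn_of_diff hb hr1 hr
  have hdc := contOn_of_diff hd hr1 hr
  have huc := C.poly_cont hr hr1 P
  set u : ℂ → ℂ := fun w => P.eval (zz h w) with hu
  have hubc : ContinuousOn (fun w => u w * b w) (sphere 0 r) := huc.mul hbc
  -- mean of `u b`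
  have havg_a : avg r a = 1 := by rw [avg_eq_of_diff ha hr hr1, ha0]
  have havg_ub : avg r (fun w => u w * b w) = (c : ℂ) := by
    have := hmom 1
    simp only [eval_one, one_mul] at this
    rw [show avg r (fun w => a w) = avg r a from rfl, havg_a] at this
    have h2 : (c : ℂ) = c * ((c : ℂ)⁻¹ * avg r (fun w => P.eval (zz h w) * b w)) := by
      rw [← this, mul_one]
    rw [h2, mul_inv_cancel_left₀ hcC]
  -- the function `m`
  set m : ℂ → ℂ := fun w => (c : ℂ)⁻¹ * (u w * b w) - 1 with hm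
  have hmc : ContinuousOn m (sphere 0 r) := (continuousOn_const.mul hubc).sub continuousOn_const
  set f : ℂ → ℂ := fun w => a w - 1 with hf
  have hfd : DifferentiableOn ℂ f (ball 0 1) := ha.sub (differentiableOn_const _)
  have hf0 : f 0 = 0 := by simp [hf, ha0]
  have hfc : ContinuousOn f (sphere 0 r) := contOn_of_diff hfd hr1 hr
  -- moment identity
  have hmomfm : ∀ Q : ℂ[X], avg r (fun w => Q.eval (zz h w) * f w)
      = avg r (fun w => Q.eval (zz h w) * m w) := by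
    intro Q
    have hQc := C.poly_cont hr hr1 Q
    have e1 : avg r (fun w => Q.eval (zz h w) * f w)
        = avg r (fun w => Q.eval (zz h w) * a w) - avg r (fun w => Q.eval (zz h w)) := by
      rw [← avg_sub hr (cm hQc hac) hQc]
      apply avg_congr hr
      intro w _
      simp only [hf]; ring
    have e2 : avg r (fun w => Q.eval (zz h w) * m w)
        = (c : ℂ)⁻¹ * avg r (fun w => Q.eval (zz h w) * (u w * b w))
          - avg r (fun w => Q.eval (zz h w)) := by
      rw [← avg_const_mul, ← avg_sub hr (cm continuousOn_const (cm hQc hubc)) hQc]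
      apply avg_congr hr
      intro w _
      simp only [hm]; ring
    rw [e1, e2, hmom Q]
  -- norm of `m`
  set Nb := avg r (fun w => ‖b w‖ ^ 2) with hNb
  have hbN : ContinuousOn (fun w => ‖b w‖ ^ 2) (sphere 0 r) := hbc.norm.pow 2
  have hNb0 : 0 ≤ Nb := avg_nonneg hr hbN (fun w _ => by positivity)
  set Nm := avg r (fun w => ‖m w‖ ^ 2) with hNm
  have hNm0 : 0 ≤ Nm := avg_nonneg hr (hmc.norm.pow 2) (fun w _ => by positivity)
  have hNm_le : Nm ≤ (c⁻¹) ^ 2 * s ^ 2 * Nb - 1 := by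
    have hone : ContinuousOn (fun _ : ℂ => (1 : ℂ)) (sphere 0 r) := continuousOn_const
    have hg : ContinuousOn (fun w => (c : ℂ)⁻¹ * (u w * b w)) (sphere 0 r) :=
      continuousOn_const.mul hubc
    have e := avg_norm_sq_sub hr hone hg
    have e' : avg r (fun w => ‖(1 : ℂ) - (c : ℂ)⁻¹ * (u w * b w)‖ ^ 2) = Nm := by
      apply avg_congr hr
      intro w _
      simp only [hm]
      rw [← norm_neg]
      congr 2
      ring
    rw [e'] at e
    have e3 : avg r (fun w => conj (1 : ℂ) * ((c : ℂ)⁻¹ * (u w * b w))) = 1 := by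
      simp only [map_one, one_mul]
      rw [avg_const_mul, havg_ub, inv_mul_cancel₀ hcC]
    rw [e3] at e
    simp only [norm_one, one_pow, one_re, mul_one] at e
    have e4 : avg r (fun _ : ℂ => (1 : ℝ)) = 1 := avg_const _
    rw [e4] at e
    have e5 : avg r (fun w => ‖(c : ℂ)⁻¹ * (u w * b w)‖ ^ 2) ≤ (c⁻¹) ^ 2 * s ^ 2 * Nb := by
      have e6 : (c⁻¹) ^ 2 * s ^ 2 * Nb = avg r (fun w => (c⁻¹) ^ 2 * s ^ 2 * ‖b w‖ ^ 2) :=
        (avg_const_mul_real _ _).symm
      rw [e6]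
      have hcc : ContinuousOn (fun w => (c⁻¹) ^ 2 * s ^ 2 * ‖b w‖ ^ 2) (sphere 0 r) :=
        continuousOn_const.mul hbN
      apply avg_mono hr (cn2 hg) hcc
      intro w hw
      have hcn : ‖(c : ℂ)⁻¹‖ = c⁻¹ := by
        rw [norm_inv, Complex.norm_real, Real.norm_of_nonneg hc.le]
      rw [norm_mul, norm_mul, hcn, mul_pow, mul_pow, mul_assoc]
      have h1 : ‖u w‖ ^ 2 ≤ s ^ 2 := pow_le_pow_left₀ (norm_nonneg _) (hs w hw) 2
      have h2 : 0 ≤ (c⁻¹) ^ 2 := by positivity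
      exact mul_le_mul_of_nonneg_left (mul_le_mul_of_nonneg_right h1 (by positivity)) h2
    linarith
  -- duality
  have hfN : avg r (fun w => ‖f w‖ ^ 2) ≤ 2 * Nm := by
    apply limit_step hr hNm0 hfc
    · intro ε hε
      exact exists_poly_approx hfd hf0 hr hr1 hε
    · intro p hp
      exact C.dual_step hr hr1 hfd hf0 hmc hmomfm p hp
  -- norm of `a`
  have haN : avg r (fun w => ‖a w‖ ^ 2) = avg r (fun w => ‖f w‖ ^ 2) + 1 := by
    have e : ∀ w, a w = f w + 1 := by intro w; simp [hf]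
    simp_rw [e]
    have hone : ContinuousOn (fun _ : ℂ => (1 : ℂ)) (sphere 0 r) := continuousOn_const
    rw [avg_norm_sq_add hr hfc hone]
    have e2 : avg r (fun w => conj (f w) * 1) = 0 := by
      simp only [mul_one]
      rw [avg_conj hr hfc, avg_eq_of_diff hfd hr hr1, hf0, map_zero]
    rw [e2]
    have e4 : avg r (fun _ : ℂ => ‖(1 : ℂ)‖ ^ 2) = 1 := by simp [avg_const]
    rw [e4]
    simp
  -- the pointwise inequality, averaged
  have hptsq : Nb + avg r (fun w => ‖d w‖ ^ 2) + 2 * (b 0 * d 0).re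
      ≤ 2 * avg r (fun w => ‖a w‖ ^ 2) + 2 * (a 0 ^ 2).re := by
    have hdN : ContinuousOn (fun w => ‖d w‖ ^ 2) (sphere 0 r) := hdc.norm.pow 2
    have haN' : ContinuousOn (fun w => ‖a w‖ ^ 2) (sphere 0 r) := hac.norm.pow 2
    have hbdc : ContinuousOn (fun w => b w * d w) (sphere 0 r) := hbc.mul hdc
    have haac : ContinuousOn (fun w => a w ^ 2) (sphere 0 r) := hac.pow 2
    have hbdre : ContinuousOn (fun w => (b w * d w).re) (sphere 0 r) :=
      Complex.continuous_re.comp_continuousOn hbdc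
    have haare : ContinuousOn (fun w => (a w ^ 2).re) (sphere 0 r) :=
      Complex.continuous_re.comp_continuousOn haac
    have hL : avg r (fun w => ‖b w‖ ^ 2 + ‖d w‖ ^ 2 + 2 * (b w * d w).re)
        = Nb + avg r (fun w => ‖d w‖ ^ 2) + 2 * (b 0 * d 0).re := by
      have h12 : ContinuousOn (fun w => ‖b w‖ ^ 2 + ‖d w‖ ^ 2) (sphere 0 r) := hbN.add hdN
      have h3 : ContinuousOn (fun w => 2 * (b w * d w).re) (sphere 0 r) :=
        continuousOn_const.mul hbdre
      rw [avg_add_real hr h12 h3, avg_add_real hr hbN hdN, avg_const_mul_real, avg_re hr hbdc]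
      have := avg_eq_of_diff (f := fun w => b w * d w) (hb.mul hd) hr hr1
      rw [this]
    have hR : avg r (fun w => 2 * ‖a w‖ ^ 2 + 2 * (a w ^ 2).re)
        = 2 * avg r (fun w => ‖a w‖ ^ 2) + 2 * (a 0 ^ 2).re := by
      have h1 : ContinuousOn (fun w => 2 * ‖a w‖ ^ 2) (sphere 0 r) :=
        continuousOn_const.mul haN'
      have h3 : ContinuousOn (fun w => 2 * (a w ^ 2).re) (sphere 0 r) :=
        continuousOn_const.mul haare
      rw [avg_add_real hr h1 h3, avg_const_mul_real, avg_const_mul_real, avg_re hr haac]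
      have := avg_eq_of_diff (f := fun w => a w ^ 2) (ha.pow 2) hr hr1
      rw [this]
    rw [← hL, ← hR]
    apply avg_mono hr
    · exact (hbN.add hdN).add (continuousOn_const.mul hbdre)
    · exact (continuousOn_const.mul haN').add (continuousOn_const.mul haare)
    · intro w hw
      have h1 := hpt w (norm_lt_one_of_eq hw hr1)
      have h2 : ‖b w + conj (d w)‖ ^ 2 ≤ (2 * (a w).re) ^ 2 :=
        pow_le_pow_left₀ (norm_nonneg _) h1 2
      have h3 : ‖b w + conj (d w)‖ ^ 2 = ‖b w‖ ^ 2 + ‖d w‖ ^ 2 + 2 * (b w * d w).re := by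
        simp only [Complex.sq_norm, normSq_apply, add_re, add_im, mul_re, conj_re, conj_im]
        ring
      have h4 : (2 * (a w).re) ^ 2 = 2 * ‖a w‖ ^ 2 + 2 * (a w ^ 2).re := by
        rw [Complex.sq_norm, normSq_apply, pow_two (a w), mul_re]
        ring
      rw [h3, h4] at h2
      exact h2
  have ha02 : (a 0 ^ 2).re = 1 := by simp [ha0]
  rw [ha02, haN] at hptsq
  have hdN0 : 0 ≤ avg r (fun w => ‖d w‖ ^ 2) :=
    avg_nonneg hr (hdc.norm.pow 2) (fun w _ => by positivity)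
  have hmain : Nb ≤ 4 * ((c⁻¹) ^ 2 * s ^ 2 * Nb) := by nlinarith
  -- positivity of `Nb`
  have hNbpos : 0 < Nb := by
    have hcs := avg_mul_sq_le hr huc hbc
    rw [havg_ub, Complex.norm_real, Real.norm_of_nonneg hc.le] at hcs
    rcases hNb0.eq_or_lt with h0 | h0
    · rw [← hNb, ← h0, mul_zero] at hcs
      have : 0 < c ^ 2 := by positivity
      linarith
    · exact h0
  have h1 : 1 ≤ 4 * ((c⁻¹) ^ 2 * s ^ 2) := by
    by_contra hlt
    push Not at hlt
    have : 4 * ((c⁻¹) ^ 2 * s ^ 2) * Nb < 1 * Nb := mul_lt_mul_of_pos_right hlt hNbpos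
    nlinarith
  have h2 : c ^ 2 ≤ (2 * s) ^ 2 := by
    have e : (c⁻¹) ^ 2 * c ^ 2 = 1 := by
      rw [← mul_pow, inv_mul_cancel₀ hc.ne', one_pow]
    have hcc : 0 < c ^ 2 := by positivity
    calc c ^ 2 = 1 * c ^ 2 := by ring
      _ ≤ 4 * ((c⁻¹) ^ 2 * s ^ 2) * c ^ 2 := mul_le_mul_of_nonneg_right h1 hcc.le
      _ = ((c⁻¹) ^ 2 * c ^ 2) * (2 * s) ^ 2 := by ring
      _ = (2 * s) ^ 2 := by rw [e, one_mul]
  exact (pow_le_pow_iff_left₀ hc.le (by positivity) (by norm_num)).1 h2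

end Vale.Agent.P123C
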