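import Vale.Agent.P123C.CoreOp
import Vale.Agent.P123C.CoreChain

/-! MODULE G: the main inequality.  `V` finite dimensional, numerical range in `K`.
See the note of helper21 for the chain (1)-(5).

`Kop w = q w • (1 - h w • A)⁻¹`, analytic on the disc, `Kop 0 = 1`, `Re ⟪v, Kop w v⟫ ≥ 0`:
with `u = (1 - h A)⁻¹ v`, `⟪v, Kop v⟫ = q * ⟪(1 - hA) u, u⟫ = q ‖u‖² conj (1 - τ h)`, `τ = ⟪u, A u⟫/‖u‖² ∈ K`,
and `Re (q conj s) = |s|² Re (q / s)`. -/

open Complex Metric Set Filter Topology Polynomial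
open scoped Real InnerProductSpace ComplexConjugate

namespace Vale.Agent.P123C

variable {K : Set ℂ} {h g : ℂ → ℂ} {r : ℝ}
variable {V : Type*} [NormedAddCommGroup V] [InnerProductSpace ℂ V] [FiniteDimensional ℂ V]

theorem Conf.coef_cont (C : Conf K h g) (A : V →L[ℂ] V)
    (hA : ∀ x : V, ‖x‖ = 1 → inner ℂ x (A x) ∈ K) (hr : 0 < r) (hr1 : r < 1) (y x : V) :
    ContinuousOn (fun w => inner ℂ y (Kop h A w x)) (sphere 0 r) :=
  contOn_of_diff (C.coef_diff A hA y x) hr1 hr

/-- Moments of the kernel: powers. -/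
theorem Conf.moment_pow (C : Conf K h g) (A : V →L[ℂ] V)
    (hA : ∀ x : V, ‖x‖ = 1 → inner ℂ x (A x) ∈ K) (hr : 0 < r) (hr1 : r < 1) (y : V) (n : ℕ) :
    ∀ x : V, avg r (fun w => (zz h w) ^ n * inner ℂ y (Kop h A w x)) = inner ℂ y ((A ^ n) x) := by
  induction n with
  | zero =>
    intro x
    simp only [pow_zero, one_mul]
    rw [avg_eq_of_diff (C.coef_diff A hA y x) hr hr1, C.kop_zero]
  | succ n ih =>
    intro x
    have hpt : ∀ w : ℂ, ‖w‖ = r → (zz h w) ^ (n + 1) * inner ℂ y (Kop h A w x)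
        = inner ℂ y x * ((zz h w) ^ n * T h w)
          + (zz h w) ^ n * inner ℂ y (Kop h A w (A x)) := by
      intro w hw
      have hwb := norm_lt_one_of_eq hw hr1
      have hw0 := ne_zero_of_norm_eq hw hr
      have e := congrArg (fun S : V →L[ℂ] V => inner ℂ y (S x)) (C.zz_kop A hA hwb hw0)
      simp only [ContinuousLinearMap.smul_apply, ContinuousLinearMap.add_apply,
        ContinuousLinearMap.mul_apply, ContinuousLinearMap.one_apply, inner_smul_right,
        inner_add_right] at e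
      rw [pow_succ, mul_assoc, e]
      ring
    rw [avg_congr hr hpt]
    have c1 : ContinuousOn (fun w => inner ℂ y x * ((zz h w) ^ n * T h w)) (sphere 0 r) :=
      cm continuousOn_const (cm ((C.zz_cont hr hr1).pow n) (C.T_cont hr hr1))
    have c2 : ContinuousOn (fun w => (zz h w) ^ n * inner ℂ y (Kop h A w (A x))) (sphere 0 r) :=
      cm ((C.zz_cont hr hr1).pow n) (C.coef_cont A hA hr hr1 y (A x))
    rw [avg_add hr c1 c2, avg_const_mul, C.avg_zz_pow_T hr hr1 n, mul_zero, zero_add, ih (A x),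
      pow_succ]
    simp

/-- Moments of the kernel: polynomials. -/
theorem Conf.moment (C : Conf K h g) (A : V →L[ℂ] V)
    (hA : ∀ x : V, ‖x‖ = 1 → inner ℂ x (A x) ∈ K) (hr : 0 < r) (hr1 : r < 1) (y x : V) (Q : ℂ[X]) :
    avg r (fun w => Q.eval (zz h w) * inner ℂ y (Kop h A w x)) = inner ℂ y (aeval A Q x) := by
  induction Q using Polynomial.induction_on' with
  | add p₁ p₂ h₁ h₂ =>
    simp only [eval_add, add_mul, map_add, ContinuousLinearMap.add_apply, inner_add_right]
    rw [avg_add hr (cm (C.poly_cont hr hr1 p₁) (C.coef_cont A hA hr hr1 y x))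
      (cm (C.poly_cont hr hr1 p₂) (C.coef_cont A hA hr hr1 y x)), h₁, h₂]
  | monomial n c =>
    simp only [eval_monomial, aeval_monomial, mul_assoc]
    rw [avg_const_mul, C.moment_pow A hA hr hr1 y n x, Algebra.algebraMap_eq_smul_one,
      smul_mul_assoc, one_mul, ContinuousLinearMap.smul_apply, inner_smul_right]

/-- The pointwise inequality. -/
theorem Conf.pt_ineq (C : Conf K h g) (A : V →L[ℂ] V)
    (hA : ∀ x : V, ‖x‖ = 1 → inner ℂ x (A x) ∈ K) {w : ℂ} (hw : w ∈ ball (0 : ℂ) 1) (x y : V)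
    (hyy : inner ℂ y (Kop h A w y) = inner ℂ x (Kop h A w x)) :
    ‖inner ℂ y (Kop h A w x) + conj (inner ℂ x (Kop h A w y))‖
      ≤ 2 * (inner ℂ x (Kop h A w x)).re := by
  set a : ℂ := inner ℂ x (Kop h A w x) with ha
  set b : ℂ := inner ℂ y (Kop h A w x) with hb
  set d : ℂ := inner ℂ x (Kop h A w y) with hd
  have key : ∀ β : ℂ, ‖β‖ = 1 → 0 ≤ 2 * a.re + (conj β * (b + conj d)).re := by
    intro β hβ
    have h1 := C.kop_re_nonneg A hA hw (x + β • y)
    have hβ2 : conj β * β = 1 := by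
      rw [Complex.conj_mul', hβ]; simp
    have e : inner ℂ (x + β • y) (Kop h A w (x + β • y))
        = 2 * a + β * d + conj β * b := by
      simp only [map_add, map_smul, inner_add_left, inner_add_right, inner_smul_left,
        inner_smul_right]
      rw [hyy, ← ha, ← hb, ← hd]
      have e3 : β * (d + conj β * a) = β * d + (conj β * β) * a := by ring
      rw [e3, hβ2]
      ring
    rw [e] at h1
    have e2 : (2 * a + β * d + conj β * b).re = 2 * a.re + (conj β * (b + conj d)).re := by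
      simp only [add_re, add_im, mul_re, re_ofNat, im_ofNat, conj_re, conj_im]
      ring
    rw [e2] at h1
    exact h1
  set B := b + conj d with hB
  by_cases hB0 : B = 0
  · have := key 1 (by simp)
    rw [hB0] at this ⊢
    simpa using this
  have hBn : (‖B‖ : ℂ) ≠ 0 := by exact_mod_cast norm_ne_zero_iff.2 hB0
  have := key (-(B / ‖B‖)) (by
    rw [norm_neg, norm_div, Complex.norm_real, norm_norm]
    exact div_self (norm_ne_zero_iff.2 hB0))
  have e : (conj (-(B / (‖B‖ : ℂ))) * B).re = - ‖B‖ := by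
    have : conj (-(B / (‖B‖ : ℂ))) * B = ((-‖B‖ : ℝ) : ℂ) := by
      rw [map_neg, map_div₀, Complex.conj_ofReal, neg_mul, div_mul_eq_mul_div, Complex.conj_mul']
      push_cast
      field_simp
    rw [this, Complex.ofReal_re]
  rw [e] at this
  linarith

/-- An extremal pair of vectors. -/
theorem exists_extremal_vectors (T₀ : V →L[ℂ] V) (hc : 0 < ‖T₀‖) :
    ∃ x y : V, ‖x‖ = 1 ∧ ‖y‖ = 1 ∧ T₀ x = ((‖T₀‖ : ℝ) : ℂ) • y ∧
      ∀ z, inner ℂ y (T₀ z) = ((‖T₀‖ : ℝ) : ℂ) * inner ℂ x z := by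
  have : CompleteSpace V := FiniteDimensional.complete ℂ V
  have : ProperSpace V := FiniteDimensional.proper ℂ V
  have hnt : Nontrivial V := by
    by_contra hnt
    rw [not_nontrivial_iff_subsingleton] at hnt
    have h0 : T₀ = 0 := by
      ext z
      exact Subsingleton.elim _ _
    rw [h0, norm_zero] at hc
    exact lt_irrefl _ hc
  obtain ⟨x, hxs, hmax⟩ := (isCompact_sphere (0 : V) 1).exists_isMaxOn
    (NormedSpace.sphere_nonempty.2 zero_le_one)
    (f := fun z => ‖T₀ z‖) (continuous_norm.comp T₀.continuous).continuousOn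
  have hxn : ‖x‖ = 1 := by simpa using hxs
  have hnorm : ‖T₀‖ ≤ ‖T₀ x‖ := by
    apply ContinuousLinearMap.opNorm_le_of_unit_norm (norm_nonneg _)
    intro z hz
    exact hmax (by simpa using hz)
  have hTx : ‖T₀ x‖ = ‖T₀‖ := by
    apply le_antisymm _ hnorm
    simpa [hxn] using T₀.le_opNorm x
  set c := ‖T₀‖ with hcdef
  have hcC : (c : ℂ) ≠ 0 := by exact_mod_cast hc.ne'
  set y : V := ((c : ℂ)⁻¹) • T₀ x with hy
  have hyn : ‖y‖ = 1 := by
    rw [hy, norm_smul, norm_inv, Complex.norm_real, hTx, Real.norm_of_nonneg hc.le]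
    exact inv_mul_cancel₀ hc.ne'
  have hTy : T₀ x = (c : ℂ) • y := by
    rw [hy, smul_smul, mul_inv_cancel₀ hcC, one_smul]
  set v := ContinuousLinearMap.adjoint T₀ y with hv
  have hvz : ∀ z, inner ℂ v z = inner ℂ y (T₀ z) := fun z =>
    ContinuousLinearMap.adjoint_inner_left T₀ z y
  have hvn : ‖v‖ ≤ c := by
    have := (ContinuousLinearMap.adjoint T₀).le_opNorm y
    rw [hyn, mul_one, ContinuousLinearMap.adjoint.norm_map] at this
    simpa using this
  have hvx : inner ℂ v x = (c : ℂ) := by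
    rw [hvz, hTy, inner_smul_right, inner_self_eq_norm_sq_to_K, hyn]
    simp
  have hvc : v = (c : ℂ) • x := by
    have h1 : ‖v - (c : ℂ) • x‖ ^ 2 ≤ 0 := by
      rw [@norm_sub_sq ℂ, inner_smul_right, hvx, norm_smul, hxn, Complex.norm_real,
        Real.norm_of_nonneg hc.le]
      have e : RCLike.re ((c : ℂ) * (c : ℂ)) = c * c := by
        rw [← Complex.ofReal_mul]; simp
      rw [e]
      have h2 : ‖v‖ ^ 2 ≤ c ^ 2 := pow_le_pow_left₀ (norm_nonneg _) hvn 2
      nlinarith
    have h2 : ‖v - (c : ℂ) • x‖ = 0 := by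
      have := sq_nonneg ‖v - (c : ℂ) • x‖
      have h3 : ‖v - (c : ℂ) • x‖ ^ 2 = 0 := le_antisymm h1 this
      exact pow_eq_zero_iff (by norm_num) |>.1 h3
    exact sub_eq_zero.1 (norm_eq_zero.1 h2)
  refine ⟨x, y, hxn, hyn, hTy, ?_⟩
  intro z
  rw [← hvz, hvc, inner_smul_left, Complex.conj_ofReal]

theorem commute_aeval (A : V →L[ℂ] V) (P : ℂ[X]) : Commute A (aeval A P) := by
  have e : aeval A (X * P) = aeval A (P * X) := by rw [mul_comm]
  show A * aeval A P = aeval A P * A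
  simpa [aeval_mul] using e

/-- The main theorem on a level curve. -/
theorem Conf.core (C : Conf K h g) (A : V →L[ℂ] V)
    (hA : ∀ x : V, ‖x‖ = 1 → inner ℂ x (A x) ∈ K) (P : ℂ[X]) {r s : ℝ} (hr : 0 < r) (hr1 : r < 1)
    (hs : ∀ w : ℂ, ‖w‖ = r → ‖P.eval (zz h w)‖ ≤ s) :
    ‖aeval A P‖ ≤ 2 * s := by
  have hs0 : 0 ≤ s := by
    have hw : ‖((r : ℂ))‖ = r := by simp [abs_of_pos hr]
    exact (norm_nonneg _).trans (hs _ hw)
  set T₀ : V →L[ℂ] V := aeval A P with hT₀
  by_cases hc : ‖T₀‖ = 0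
  · rw [hc]; linarith
  have hcpos : 0 < ‖T₀‖ := lt_of_le_of_ne (norm_nonneg _) (Ne.symm hc)
  obtain ⟨x, y, hx, hy, hxy, hadj⟩ := exists_extremal_vectors T₀ hcpos
  set c := ‖T₀‖ with hcdef
  have hcC : (c : ℂ) ≠ 0 := by exact_mod_cast hcpos.ne'
  have hcomm := commute_aeval A P
  have hxx : inner ℂ x x = (1 : ℂ) := by
    rw [inner_self_eq_norm_sq_to_K, hx]; simp
  have hpt : ∀ w ∈ ball (0 : ℂ) 1, ‖inner ℂ y (Kop h A w x) + conj (inner ℂ x (Kop h A w y))‖
      ≤ 2 * (inner ℂ x (Kop h A w x)).re := by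
    intro w hw
    apply C.pt_ineq A hA hw
    have hy' : y = ((c : ℂ)⁻¹) • T₀ x := by
      rw [hxy, smul_smul, inv_mul_cancel₀ hcC, one_smul]
    have hK : Kop h A w (T₀ x) = T₀ (Kop h A w x) := by
      have := (C.kop_commute A T₀ hA hw hcomm).eq
      exact congrArg (fun S : V →L[ℂ] V => S x) this
    calc inner ℂ y (Kop h A w y)
        = (c : ℂ)⁻¹ * inner ℂ y (Kop h A w (T₀ x)) := by
          conv_lhs => rw [hy']
          rw [map_smul, inner_smul_right, ← hy']
      _ = (c : ℂ)⁻¹ * ((c : ℂ) * inner ℂ x (Kop h A w x)) := by rw [hK, hadj]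
      _ = inner ℂ x (Kop h A w x) := inv_mul_cancel_left₀ hcC _
  refine C.chain hr hr1 P hs hcpos (C.coef_diff A hA x x) (C.coef_diff A hA y x)
    (C.coef_diff A hA x y) ?_ ?_ hpt ?_
  · rw [C.kop_zero]; simpa using hxx
  · rw [C.kop_zero]
    simp only [ContinuousLinearMap.one_apply]
    rw [← inner_conj_symm x y, mul_comm, ← Complex.normSq_eq_conj_mul_self, Complex.ofReal_re]
    exact Complex.normSq_nonneg _
  · intro Q
    rw [C.moment A hA hr hr1 x x Q]
    have e : avg r (fun w => Q.eval (zz h w) * (P.eval (zz h w) * inner ℂ y (Kop h A w x)))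
        = avg r (fun w => (Q * P).eval (zz h w) * inner ℂ y (Kop h A w x)) := by
      apply avg_congr hr
      intro w _
      rw [eval_mul, mul_assoc]
    rw [e, C.moment A hA hr hr1 y x (Q * P), mul_comm Q P, map_mul,
      ContinuousLinearMap.mul_apply, ← hT₀, hadj, inv_mul_cancel_left₀ hcC]

end Vale.Agent.P123C
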