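import Vale.Agent.P123C.Faber
import Vale.Agent.P123C.Avg

/-! MODULE G1: the operator kernel `Kop w = q w • (1 - h w • A)⁻¹`. -/

open Complex Metric Set Filter Topology Polynomial
open scoped Real InnerProductSpace ComplexConjugate

namespace Vale.Agent.P123C

variable {K : Set ℂ} {h g : ℂ → ℂ}
variable {V : Type*} [NormedAddCommGroup V] [InnerProductSpace ℂ V] [FiniteDimensional ℂ V]

/-- The resolvent. -/
noncomputable def Res (h : ℂ → ℂ) (A : V →L[ℂ] V) (w : ℂ) : V →L[ℂ] V :=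
  Ring.inverse (1 - h w • A)

/-- The kernel. -/
noncomputable def Kop (h : ℂ → ℂ) (A : V →L[ℂ] V) (w : ℂ) : V →L[ℂ] V :=
  q h w • Res h A w

theorem Conf.isUnit_sub (C : Conf K h g) (A : V →L[ℂ] V)
    (hA : ∀ x : V, ‖x‖ = 1 → inner ℂ x (A x) ∈ K) {w : ℂ} (hw : w ∈ ball (0 : ℂ) 1) :
    IsUnit (1 - h w • A) := by
  have : CompleteSpace V := FiniteDimensional.complete ℂ V
  rw [ContinuousLinearMap.isUnit_iff_bijective]
  have hinj : Function.Injective (1 - h w • A : V →L[ℂ] V) := by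
    rw [injective_iff_map_eq_zero]
    intro u hu
    by_contra hne
    have hnu : (‖u‖ : ℂ) ≠ 0 := by
      exact_mod_cast (norm_ne_zero_iff.2 hne)
    set x : V := ((‖u‖ : ℂ)⁻¹) • u with hx
    have hxn : ‖x‖ = 1 := by
      rw [hx, norm_smul, norm_inv, Complex.norm_real, norm_norm]
      exact inv_mul_cancel₀ (norm_ne_zero_iff.2 hne)
    have hu' : u = h w • A u := by
      have : (1 - h w • A : V →L[ℂ] V) u = u - h w • A u := by
        simp
      rw [this] at hu
      exact sub_eq_zero.1 hu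
    have hx' : x = h w • A x := by
      rw [hx, map_smul, smul_comm, ← hu']
    have h1 : inner ℂ x x = h w * inner ℂ x (A x) := by
      nth_rewrite 2 [hx']
      rw [inner_smul_right]
    have h2 : inner ℂ x x = (1 : ℂ) := by
      rw [inner_self_eq_norm_sq_to_K, hxn]; simp
    have h3 := (C.mapsTo hw) _ (hA x hxn)
    apply h3
    rw [mul_comm, ← h1, h2]
  refine ⟨hinj, ?_⟩
  exact LinearMap.injective_iff_surjective.1 hinj

theorem Conf.res_mul (C : Conf K h g) (A : V →L[ℂ] V)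
    (hA : ∀ x : V, ‖x‖ = 1 → inner ℂ x (A x) ∈ K) {w : ℂ} (hw : w ∈ ball (0 : ℂ) 1) :
    Res h A w * (1 - h w • A) = 1 :=
  Ring.inverse_mul_cancel _ (C.isUnit_sub A hA hw)

theorem Conf.mul_res (C : Conf K h g) (A : V →L[ℂ] V)
    (hA : ∀ x : V, ‖x‖ = 1 → inner ℂ x (A x) ∈ K) {w : ℂ} (hw : w ∈ ball (0 : ℂ) 1) :
    (1 - h w • A) * Res h A w = 1 :=
  Ring.mul_inverse_cancel _ (C.isUnit_sub A hA hw)

theorem Conf.res_commute (C : Conf K h g) (A B : V →L[ℂ] V)
    (hA : ∀ x : V, ‖x‖ = 1 → inner ℂ x (A x) ∈ K) {w : ℂ} (hw : w ∈ ball (0 : ℂ) 1)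
    (hB : Commute A B) : Commute (Res h A w) B := by
  have hS : Commute (1 - h w • A) B := by
    apply Commute.sub_left (Commute.one_left B)
    exact hB.smul_left _
  have h1 := C.res_mul A hA hw
  have h2 := C.mul_res A hA hw
  show Res h A w * B = B * Res h A w
  calc Res h A w * B = Res h A w * B * ((1 - h w • A) * Res h A w) := by rw [h2, mul_one]
    _ = Res h A w * (B * (1 - h w • A)) * Res h A w := by noncomm_ring
    _ = Res h A w * ((1 - h w • A) * B) * Res h A w := by rw [hS.eq]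
    _ = (Res h A w * (1 - h w • A)) * (B * Res h A w) := by noncomm_ring
    _ = B * Res h A w := by rw [h1, one_mul]

theorem Conf.kop_commute (C : Conf K h g) (A B : V →L[ℂ] V)
    (hA : ∀ x : V, ‖x‖ = 1 → inner ℂ x (A x) ∈ K) {w : ℂ} (hw : w ∈ ball (0 : ℂ) 1)
    (hB : Commute A B) : Commute (Kop h A w) B :=
  (C.res_commute A B hA hw hB).smul_left _

theorem Conf.res_diff (C : Conf K h g) (A : V →L[ℂ] V)
    (hA : ∀ x : V, ‖x‖ = 1 → inner ℂ x (A x) ∈ K) :
    DifferentiableOn ℂ (Res h A) (ball 0 1) := by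
  have : CompleteSpace V := FiniteDimensional.complete ℂ V
  intro w hw
  have h1 : DifferentiableWithinAt ℂ (fun w => (1 : V →L[ℂ] V) - h w • A) (ball 0 1) w :=
    (differentiableWithinAt_const _).sub ((C.diff w hw).smul_const A)
  exact (differentiableAt_inverse (𝕜 := ℂ) (C.isUnit_sub A hA hw)).comp_differentiableWithinAt w h1

theorem Conf.kop_diff (C : Conf K h g) (A : V →L[ℂ] V)
    (hA : ∀ x : V, ‖x‖ = 1 → inner ℂ x (A x) ∈ K) :
    DifferentiableOn ℂ (Kop h A) (ball 0 1) :=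
  C.q_diff.smul (C.res_diff A hA)

theorem Conf.kop_zero (C : Conf K h g) (A : V →L[ℂ] V) : Kop h A 0 = 1 := by
  simp [Kop, Res, C.zero, C.q_zero]

/-- Scalar matrix coefficient. -/
theorem Conf.coef_diff (C : Conf K h g) (A : V →L[ℂ] V)
    (hA : ∀ x : V, ‖x‖ = 1 → inner ℂ x (A x) ∈ K) (y x : V) :
    DifferentiableOn ℂ (fun w => inner ℂ y (Kop h A w x)) (ball 0 1) := by
  have : CompleteSpace V := FiniteDimensional.complete ℂ V
  intro w hw
  have h1 : DifferentiableWithinAt ℂ (fun w => Kop h A w x) (ball 0 1) w :=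
    (C.kop_diff A hA w hw).clm_apply (differentiableWithinAt_const x)
  -- the functional `inner y` is continuous and complex linear
  exact ((innerSL ℂ y).differentiableAt).comp_differentiableWithinAt w h1

/-- Positivity of the kernel. -/
theorem Conf.kop_re_nonneg (C : Conf K h g) (A : V →L[ℂ] V)
    (hA : ∀ x : V, ‖x‖ = 1 → inner ℂ x (A x) ∈ K) {w : ℂ} (hw : w ∈ ball (0 : ℂ) 1) (v : V) :
    0 ≤ (inner ℂ v (Kop h A w v)).re := by
  set u := Res h A w v with hu
  have hv : v = u - h w • A u := by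
    have := congrArg (fun T : V →L[ℂ] V => T v) (C.mul_res A hA hw)
    simp only [ContinuousLinearMap.mul_apply, ContinuousLinearMap.one_apply] at this
    rw [← this]; simp [hu]
  by_cases hu0 : u = 0
  · have hv0 : v = 0 := by rw [hv, hu0]; simp
    simp [hv0]
  have hnu : ‖u‖ ≠ 0 := norm_ne_zero_iff.2 hu0
  have hnuC : (‖u‖ : ℂ) ≠ 0 := by exact_mod_cast hnu
  set x : V := ((‖u‖ : ℂ)⁻¹) • u with hx
  have hxn : ‖x‖ = 1 := by
    rw [hx, norm_smul, norm_inv, Complex.norm_real, norm_norm]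
    exact inv_mul_cancel₀ hnu
  set τ : ℂ := inner ℂ x (A x) with hτ
  have hτK : τ ∈ K := hA x hxn
  have hτ' : inner ℂ u (A u) = (‖u‖ : ℂ) ^ 2 * τ := by
    have hux : u = (‖u‖ : ℂ) • x := by
      rw [hx, smul_smul, mul_inv_cancel₀ hnuC, one_smul]
    rw [hτ]
    conv_lhs => rw [hux]
    simp only [map_smul, inner_smul_left, inner_smul_right, conj_ofReal]
    ring
  set s : ℂ := 1 - τ * h w with hs
  have hs0 : s ≠ 0 := C.one_sub_ne hw hτK
  have hinner : inner ℂ v u = (‖u‖ : ℂ) ^ 2 * conj s := by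
    have h1 : inner ℂ (A u) u = conj (inner ℂ u (A u)) := by
      rw [inner_conj_symm]
    rw [hv, inner_sub_left, inner_smul_left, h1, hτ', inner_self_eq_norm_sq_to_K, hs]
    simp only [map_sub, map_one, map_mul, map_pow, conj_ofReal, RCLike.ofReal_real_eq_id, id,
      Complex.coe_algebraMap]
    ring
  have hK : inner ℂ v (Kop h A w v) = q h w * inner ℂ v u := by
    simp [Kop, inner_smul_right, hu]
  have hre : (q h w * conj s).re = Complex.normSq s * (k h w τ).re := by
    have : q h w * conj s = (Complex.normSq s : ℂ) * k h w τ := by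
      have hkk : k h w τ = q h w / s := by simp [k, hs]
      rw [hkk, Complex.normSq_eq_conj_mul_self]
      field_simp
    rw [this, Complex.re_ofReal_mul]
  have hk0 := C.re_k_nonneg hw hτK
  rw [hK, hinner]
  have e : q h w * ((‖u‖ : ℂ) ^ 2 * conj s) = ((‖u‖ ^ 2 : ℝ) : ℂ) * (q h w * conj s) := by
    push_cast; ring
  rw [e, Complex.re_ofReal_mul, hre]
  have := Complex.normSq_nonneg s
  positivity

/-- `zz • Kop = T • 1 + Kop * A` for `w ≠ 0`. -/
theorem Conf.zz_kop (C : Conf K h g) (A : V →L[ℂ] V)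
    (hA : ∀ x : V, ‖x‖ = 1 → inner ℂ x (A x) ∈ K) {w : ℂ} (hw : w ∈ ball (0 : ℂ) 1) (h0 : w ≠ 0) :
    zz h w • Kop h A w = T h w • (1 : V →L[ℂ] V) + Kop h A w * A := by
  have hh : h w ≠ 0 := C.h_ne_zero hw h0
  have h1 := C.res_mul A hA hw
  have key : (h w)⁻¹ • Res h A w = (h w)⁻¹ • (1 : V →L[ℂ] V) + Res h A w * A := by
    have : Res h A w * (1 - h w • A) = Res h A w - h w • (Res h A w * A) := by
      rw [mul_sub, mul_one, mul_smul_comm]
    rw [this] at h1
    have h2 : Res h A w = 1 + h w • (Res h A w * A) := by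
      rw [← h1]; abel
    conv_lhs => rw [h2]
    rw [smul_add, smul_smul, inv_mul_cancel₀ hh, one_smul]
  simp only [Kop, zz, T]
  have : (h w)⁻¹ • q h w • Res h A w = q h w • ((h w)⁻¹ • Res h A w) := smul_comm _ _ _
  rw [this, key, smul_add, smul_smul, smul_mul_assoc, div_eq_mul_inv]

end Vale.Agent.P123C
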