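import Vale.Agent.P123C.Faber
import Vale.Agent.P123C.Avg

/-! MODULE G-SCALAR: the scalar chain (1) + (4) + (5) of the main inequality.

No operators here.  Functions `a, b, d`, analytic on the unit disc, with `a 0 = 1`, the pointwise
positivity `‖b + conj d‖ ≤ 2 Re a` on the circle of radius `r`, and the Cauchy identities
`c * avg (Q(zz) a) = avg (Q(zz) (P(zz) b))` for every polynomial `Q`.  Conclusion `c ≤ 2 s`, where
`s` bounds `P(zz)` on the circle. -/

open Complex Metric Set Filter Topology Polynomial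
open scoped Real ComplexConjugate

namespace Vale.Agent.P123C

variable {K : Set ℂ} {h g : ℂ → ℂ} {r : ℝ}

theorem sphere_sub_ball (hr1 : r < 1) : sphere (0 : ℂ) r ⊆ ball 0 1 := by
  intro w hw
  rw [mem_sphere_zero_iff_norm] at hw
  rw [mem_ball_zero_iff]; linarith

theorem Conf.zz_cont (C : Conf K h g) (hr : 0 < r) (hr1 : r < 1) :
    ContinuousOn (zz h) (sphere 0 r) := by
  unfold zz
  refine (C.diff.continuousOn.mono (sphere_sub_ball hr1)).inv₀ ?_
  intro w hw
  refine C.h_ne_zero (sphere_sub_ball hr1 hw) ?_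
  rw [mem_sphere_zero_iff_norm] at hw
  intro h0
  rw [h0, norm_zero] at hw
  linarith

theorem Conf.eval_zz_cont (C : Conf K h g) (hr : 0 < r) (hr1 : r < 1) (Q : ℂ[X]) :
    ContinuousOn (fun w => Q.eval (zz h w)) (sphere 0 r) :=
  Q.continuous.comp_continuousOn (C.zz_cont hr hr1)

/-- Polynomial approximation on a circle of an analytic function vanishing at `0`. -/
theorem exists_poly_approx {f : ℂ → ℂ} (hf : DifferentiableOn ℂ f (ball 0 1)) (hr : 0 < r)
    (hr1 : r < 1) (h0 : f 0 = 0) {ε : ℝ} (hε : 0 < ε) :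
    ∃ p : ℂ[X], p.coeff 0 = 0 ∧ ∀ w : ℂ, ‖w‖ = r → ‖p.eval w - f w‖ ≤ ε := by
  obtain ⟨R, hrR, hR1⟩ := exists_between hr1
  obtain ⟨R', hrR', hR'1⟩ := exists_between hR1
  have hR'0 : 0 < R' := by linarith
  have hR0 : 0 < R := by linarith
  let Rn : NNReal := ⟨R, hR0.le⟩
  let Rn' : NNReal := ⟨R', hR'0.le⟩
  have hsub : closedBall (0 : ℂ) Rn' ⊆ ball 0 1 :=
    closedBall_subset_ball hR'1
  have hRn' : 0 < Rn' := hR'0
  have hser := (hf.mono hsub).hasFPowerSeriesOnBall hRn'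
  have hlt : (Rn : ENNReal) < (Rn' : ENNReal) := by
    rw [ENNReal.coe_lt_coe]
    exact hrR'
  have hunif := hser.tendstoUniformlyOn' hlt
  rw [Metric.tendstoUniformlyOn_iff] at hunif
  have hev := hunif (ε / 2) (by positivity)
  obtain ⟨n, hn⟩ := hev.exists
  set S := cauchyPowerSeries f 0 Rn' with hS
  let q : ℂ[X] := ∑ k ∈ Finset.range n, Polynomial.C (S.coeff k) * X ^ k
  have hq : ∀ y : ℂ, q.eval y = S.partialSum n y := by
    intro y
    simp only [q, FormalMultilinearSeries.partialSum, Polynomial.eval_finsetSum, Polynomial.eval_mul,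
      Polynomial.eval_C, Polynomial.eval_pow, Polynomial.eval_X,
      FormalMultilinearSeries.apply_eq_pow_smul_coeff, smul_eq_mul]
    exact Finset.sum_congr rfl (fun k _ => mul_comm _ _)
  have hq1 : ∀ y : ℂ, ‖y‖ < R → ‖q.eval y - f y‖ ≤ ε / 2 := by
    intro y hy
    have := hn y (by rw [mem_ball_zero_iff]; exact hy)
    rw [dist_comm, Complex.dist_eq] at this
    rw [hq]
    simpa using this.le
  refine ⟨q - Polynomial.C (q.eval 0), ?_, ?_⟩
  · simp [Polynomial.coeff_zero_eq_eval_zero]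
  · intro w hw
    have h1 := hq1 w (by rw [hw]; exact hrR)
    have h2 := hq1 0 (by simpa using hR0)
    rw [h0, sub_zero] at h2
    have e : (q - Polynomial.C (q.eval 0)).eval w - f w = (q.eval w - f w) - q.eval 0 := by
      simp; ring
    rw [e]
    calc ‖(q.eval w - f w) - q.eval 0‖ ≤ ‖q.eval w - f w‖ + ‖q.eval 0‖ := norm_sub_le _ _
      _ ≤ ε := by linarith

/-- Step (1) integrated. -/
theorem int_pos_step (hr : 0 < r) (hr1 : r < 1) {a b d : ℂ → ℂ}
    (ha : DifferentiableOn ℂ a (ball 0 1)) (hb : DifferentiableOn ℂ b (ball 0 1))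
    (hd : DifferentiableOn ℂ d (ball 0 1)) (ha0 : a 0 = 1) (hbd0 : 0 ≤ (b 0 * d 0).re)
    (hpos : ∀ w : ℂ, ‖w‖ = r → ‖b w + conj (d w)‖ ≤ 2 * (a w).re) :
    avg r (fun w => ‖b w‖ ^ 2) ≤ 4 + 2 * avg r (fun w => ‖a w - 1‖ ^ 2) := by
  have ca := contOn_of_diff ha hr1 hr
  have cb := contOn_of_diff hb hr1 hr
  have cd := contOn_of_diff hd hr1 hr
  have cb2 : ContinuousOn (fun w => ‖b w‖ ^ 2) (sphere 0 r) := cb.norm.pow 2
  have cd2 : ContinuousOn (fun w => ‖d w‖ ^ 2) (sphere 0 r) := cd.norm.pow 2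
  have ca2 : ContinuousOn (fun w => ‖a w‖ ^ 2) (sphere 0 r) := ca.norm.pow 2
  have cf : ContinuousOn (fun w => a w - 1) (sphere 0 r) := ca.sub continuousOn_const
  have cf2 : ContinuousOn (fun w => ‖a w - 1‖ ^ 2) (sphere 0 r) := cf.norm.pow 2
  have cbdC : ContinuousOn (fun w => b w * d w) (sphere 0 r) := cb.mul cd
  have caaC : ContinuousOn (fun w => a w * a w) (sphere 0 r) := ca.mul ca
  have cbd : ContinuousOn (fun w => (b w * d w).re) (sphere 0 r) :=
    Complex.continuous_re.comp_continuousOn cbdC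
  have caa : ContinuousOn (fun w => (a w * a w).re) (sphere 0 r) :=
    Complex.continuous_re.comp_continuousOn caaC
  have care : ContinuousOn (fun w => (a w).re) (sphere 0 r) :=
    Complex.continuous_re.comp_continuousOn ca
  have e1 : avg r (fun w => (b w * d w).re) = (b 0 * d 0).re := by
    rw [avg_re hr cbdC, avg_eq_of_diff (f := fun w => b w * d w) (hb.mul hd) hr hr1]
  have e2 : avg r (fun w => (a w * a w).re) = 1 := by
    rw [avg_re hr caaC, avg_eq_of_diff (f := fun w => a w * a w) (ha.mul ha) hr hr1]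
    simp [ha0]
  have e3 : avg r (fun w => (a w).re) = 1 := by
    rw [avg_re hr ca, avg_eq_of_diff ha hr hr1]
    simp [ha0]
  -- pointwise
  have hpt : ∀ w : ℂ, ‖w‖ = r → ‖b w‖ ^ 2 + ‖d w‖ ^ 2 + 2 * (b w * d w).re
      ≤ 2 * ‖a w‖ ^ 2 + 2 * (a w * a w).re := by
    intro w hw
    have h1 := hpos w hw
    have h3 : ‖b w + conj (d w)‖ ^ 2 ≤ (2 * (a w).re) ^ 2 :=
      pow_le_pow_left₀ (norm_nonneg _) h1 2
    simp only [Complex.sq_norm, normSq_apply, add_re, add_im, conj_re, conj_im, mul_re]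
      at h3 ⊢
    nlinarith [h3]
  have c12 : ContinuousOn (fun w => ‖b w‖ ^ 2 + ‖d w‖ ^ 2) (sphere 0 r) := cb2.add cd2
  have c3 : ContinuousOn (fun w => 2 * (b w * d w).re) (sphere 0 r) := continuousOn_const.mul cbd
  have c4 : ContinuousOn (fun w => 2 * ‖a w‖ ^ 2) (sphere 0 r) := continuousOn_const.mul ca2
  have c5 : ContinuousOn (fun w => 2 * (a w * a w).re) (sphere 0 r) := continuousOn_const.mul caa
  have c6 : ContinuousOn (fun w => 2 * (a w).re) (sphere 0 r) := continuousOn_const.mul care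
  have hmono : avg r (fun w => ‖b w‖ ^ 2 + ‖d w‖ ^ 2 + 2 * (b w * d w).re)
      ≤ avg r (fun w => 2 * ‖a w‖ ^ 2 + 2 * (a w * a w).re) :=
    avg_mono hr (c12.add c3) (c4.add c5) hpt
  have l1 : avg r (fun w => ‖b w‖ ^ 2 + ‖d w‖ ^ 2 + 2 * (b w * d w).re)
      = avg r (fun w => ‖b w‖ ^ 2) + avg r (fun w => ‖d w‖ ^ 2)
        + 2 * (b 0 * d 0).re := by
    rw [avg_add_real hr c12 c3, avg_add_real hr cb2 cd2, avg_const_mul_real, e1]
  have l2 : avg r (fun w => 2 * ‖a w‖ ^ 2 + 2 * (a w * a w).re)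
      = 2 * avg r (fun w => ‖a w‖ ^ 2) + 2 * 1 := by
    rw [avg_add_real hr c4 c5, avg_const_mul_real, avg_const_mul_real, e2]
  have l3 : avg r (fun w => ‖a w‖ ^ 2) = avg r (fun w => ‖a w - 1‖ ^ 2) + 1 := by
    have hp : ∀ w : ℂ, ‖w‖ = r → ‖a w‖ ^ 2 = (‖a w - 1‖ ^ 2 + 2 * (a w).re) - 1 := by
      intro w _
      simp only [Complex.sq_norm, normSq_apply, sub_re, sub_im, one_re, one_im]
      ring
    have c7 : ContinuousOn (fun w => ‖a w - 1‖ ^ 2 + 2 * (a w).re) (sphere 0 r) := cf2.add c6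
    rw [avg_congr hr hp, avg_sub_real hr c7 continuousOn_const,
      avg_add_real hr cf2 c6, avg_const_mul_real, e3, avg_const]
    ring
  have hd2 : 0 ≤ avg r (fun w => ‖d w‖ ^ 2) := avg_nonneg hr cd2 (fun w _ => by positivity)
  rw [l1, l2, l3] at hmono
  linarith

/-- Step (4), for a polynomial test function. -/
theorem Conf.dual_step_poly (C : Conf K h g) (hr : 0 < r) (hr1 : r < 1) {a ub : ℂ → ℂ}
    (ha : DifferentiableOn ℂ a (ball 0 1))
    (hub : ContinuousOn ub (sphere 0 r)) {c : ℝ} (hc : 0 < c)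
    (hQ : ∀ Q : ℂ[X], (c : ℂ) * avg r (fun w => Q.eval (zz h w) * a w)
      = avg r (fun w => Q.eval (zz h w) * ub w))
    {p : ℂ[X]} (hp : p.coeff 0 = 0) :
    ‖avg r (fun w => conj (p.eval w) * (a w - 1))‖ ^ 2
      ≤ 2 * avg r (fun w => ‖p.eval w‖ ^ 2) * avg r (fun w => ‖ub w / c - 1‖ ^ 2) := by
  have hcC : (c : ℂ) ≠ 0 := by exact_mod_cast hc.ne'
  have hne : ∀ w : ℂ, ‖w‖ = r → w ≠ 0 := by
    intro w hw h0
    rw [h0, norm_zero] at hw
    linarith
  have hmem : ∀ w : ℂ, ‖w‖ = r → w ∈ ball (0 : ℂ) 1 := by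
    intro w hw
    rw [mem_ball_zero_iff, hw]; exact hr1
  -- the polynomial in `1/w` equal to `conj p` on the circle
  let v : ℂ[X] := (p.map (starRingEnd ℂ)).comp (Polynomial.C ((r : ℂ) ^ 2) * X)
  have hv_eval : ∀ w : ℂ, ‖w‖ = r → v.eval w⁻¹ = conj (p.eval w) := by
    intro w hw
    have h0 := hne w hw
    have hconj : (r : ℂ) ^ 2 * w⁻¹ = conj w := by
      have : conj w * w = (r : ℂ) ^ 2 := by
        rw [← Complex.normSq_eq_conj_mul_self, Complex.normSq_eq_norm_sq, hw]; push_cast; ring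
      rw [← this]
      field_simp
    simp only [v, Polynomial.eval_comp, Polynomial.eval_mul, Polynomial.eval_C, Polynomial.eval_X]
    rw [hconj, Polynomial.eval_map_apply]
  have hv0 : v.coeff 0 = 0 := by
    rw [Polynomial.coeff_zero_eq_eval_zero]
    simp only [v, Polynomial.eval_comp, Polynomial.eval_mul, Polynomial.eval_C, Polynomial.eval_X,
      mul_zero]
    rw [← Polynomial.coeff_zero_eq_eval_zero, Polynomial.coeff_map, hp, map_zero]
  obtain ⟨Q, W, hWd, hW0, hQW⟩ := C.faber_exists v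
  have hbd := C.faber_bound hr hr1 hv0 hWd hW0 hQW
  have hQs : ∀ w : ℂ, ‖w‖ = r → Q.eval (zz h w) = conj (p.eval w) + W w := by
    intro w hw
    rw [hQW w (hmem w hw) (hne w hw), hv_eval w hw]
  have e_v : avg r (fun w => ‖v.eval w⁻¹‖ ^ 2) = avg r (fun w => ‖p.eval w‖ ^ 2) := by
    apply avg_congr hr
    intro w hw
    rw [hv_eval w hw, RCLike.norm_conj]
  rw [e_v] at hbd
  -- continuity
  have hpd : DifferentiableOn ℂ (fun w => p.eval w) (ball 0 1) :=
    p.differentiable.differentiableOn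
  have cp : ContinuousOn (fun w => p.eval w) (sphere 0 r) := contOn_of_diff hpd hr1 hr
  have cpc : ContinuousOn (fun w => conj (p.eval w)) (sphere 0 r) :=
    Complex.continuous_conj.comp_continuousOn cp
  have cW : ContinuousOn W (sphere 0 r) := contOn_of_diff hWd hr1 hr
  have ca : ContinuousOn a (sphere 0 r) := contOn_of_diff ha hr1 hr
  have cf : ContinuousOn (fun w => a w - 1) (sphere 0 r) := ca.sub continuousOn_const
  have cQ := C.eval_zz_cont hr hr1 Q
  have cm : ContinuousOn (fun w => ub w / c - 1) (sphere 0 r) :=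
    (hub.div_const _).sub continuousOn_const
  -- means
  have e_cp : avg r (fun w => conj (p.eval w)) = 0 := by
    rw [avg_conj hr cp, avg_eq_of_diff hpd hr hr1, ← Polynomial.coeff_zero_eq_eval_zero, hp,
      map_zero]
  have e_W : avg r W = 0 := by rw [avg_eq_of_diff hWd hr hr1, hW0]
  have e_Wa : avg r (fun w => W w * a w) = 0 := by
    rw [avg_eq_of_diff (f := fun w => W w * a w) (hWd.mul ha) hr hr1, hW0, zero_mul]
  have e_pW : avg r (fun w => (p.eval w * W w).re) = 0 := by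
    have c1 : ContinuousOn (fun w => p.eval w * W w) (sphere 0 r) := cp.mul cW
    rw [avg_re hr c1, avg_eq_of_diff (f := fun w => p.eval w * W w) (hpd.mul hWd) hr hr1, hW0]
    simp
  have e_Q : avg r (fun w => Q.eval (zz h w)) = 0 := by
    rw [avg_congr hr hQs, avg_add hr cpc cW, e_cp, e_W, add_zero]
  -- the mean of `Q a`
  set α := avg r (fun w => conj (p.eval w) * (a w - 1)) with hα
  have e_Qa : avg r (fun w => Q.eval (zz h w) * a w) = α := by
    have hpt : ∀ w : ℂ, ‖w‖ = r → Q.eval (zz h w) * a w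
        = (conj (p.eval w) * (a w - 1) + conj (p.eval w)) + W w * a w := by
      intro w hw
      rw [hQs w hw]; ring
    have c1 : ContinuousOn (fun w => conj (p.eval w) * (a w - 1)) (sphere 0 r) := cpc.mul cf
    have c2 : ContinuousOn (fun w => conj (p.eval w) * (a w - 1) + conj (p.eval w))
        (sphere 0 r) := c1.add cpc
    have c3 : ContinuousOn (fun w => W w * a w) (sphere 0 r) := cW.mul ca
    rw [avg_congr hr hpt, avg_add hr c2 c3, avg_add hr c1 cpc, e_cp, e_Wa, add_zero, add_zero]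
  have e_Qub : avg r (fun w => Q.eval (zz h w) * ub w)
      = (c : ℂ) * avg r (fun w => Q.eval (zz h w) * (ub w / c - 1)) := by
    have hpt : ∀ w : ℂ, ‖w‖ = r → Q.eval (zz h w) * ub w
        = (c : ℂ) * (Q.eval (zz h w) * (ub w / c - 1) + Q.eval (zz h w)) := by
      intro w _
      field_simp
      ring
    have c1 : ContinuousOn (fun w => Q.eval (zz h w) * (ub w / c - 1)) (sphere 0 r) := cQ.mul cm
    rw [avg_congr hr hpt, avg_const_mul, avg_add hr c1 cQ, e_Q, add_zero]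
  have e_α : α = avg r (fun w => Q.eval (zz h w) * (ub w / c - 1)) := by
    have := hQ Q
    rw [e_Qa, e_Qub] at this
    exact mul_left_cancel₀ hcC this
  have hCS := avg_mul_sq_le hr cQ cm
  rw [← e_α] at hCS
  -- the norm of `Q`
  have cp2 : ContinuousOn (fun w => ‖p.eval w‖ ^ 2) (sphere 0 r) := cp.norm.pow 2
  have cW2 : ContinuousOn (fun w => ‖W w‖ ^ 2) (sphere 0 r) := cW.norm.pow 2
  have cpW : ContinuousOn (fun w => 2 * (p.eval w * W w).re) (sphere 0 r) :=
    continuousOn_const.mul (Complex.continuous_re.comp_continuousOn (cp.mul cW))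
  have e_Q2 : avg r (fun w => ‖Q.eval (zz h w)‖ ^ 2)
      = avg r (fun w => ‖p.eval w‖ ^ 2) + avg r (fun w => ‖W w‖ ^ 2) := by
    have hpt : ∀ w : ℂ, ‖w‖ = r → ‖Q.eval (zz h w)‖ ^ 2
        = (‖p.eval w‖ ^ 2 + ‖W w‖ ^ 2) + 2 * (p.eval w * W w).re := by
      intro w hw
      rw [hQs w hw]
      simp only [Complex.sq_norm, normSq_apply, add_re, add_im, conj_re, conj_im, mul_re]
      ring
    have c1 : ContinuousOn (fun w => ‖p.eval w‖ ^ 2 + ‖W w‖ ^ 2) (sphere 0 r) := cp2.add cW2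
    rw [avg_congr hr hpt, avg_add_real hr c1 cpW, avg_add_real hr cp2 cW2, avg_const_mul_real,
      e_pW, mul_zero, add_zero]
  have hm2 : 0 ≤ avg r (fun w => ‖ub w / c - 1‖ ^ 2) :=
    avg_nonneg hr (cm.norm.pow 2) (fun w _ => by positivity)
  calc ‖α‖ ^ 2 ≤ avg r (fun w => ‖Q.eval (zz h w)‖ ^ 2) * avg r (fun w => ‖ub w / c - 1‖ ^ 2) := hCS
    _ ≤ 2 * avg r (fun w => ‖p.eval w‖ ^ 2) * avg r (fun w => ‖ub w / c - 1‖ ^ 2) := by
        apply mul_le_mul_of_nonneg_right _ hm2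
        rw [e_Q2]; linarith

/-- Step (4): `‖a - 1‖² ≤ 2 ‖m‖²`. -/
theorem Conf.dual_step (C : Conf K h g) (hr : 0 < r) (hr1 : r < 1) {a ub : ℂ → ℂ}
    (ha : DifferentiableOn ℂ a (ball 0 1)) (ha0 : a 0 = 1)
    (hub : ContinuousOn ub (sphere 0 r)) {c : ℝ} (hc : 0 < c)
    (hQ : ∀ Q : ℂ[X], (c : ℂ) * avg r (fun w => Q.eval (zz h w) * a w)
      = avg r (fun w => Q.eval (zz h w) * ub w)) :
    avg r (fun w => ‖a w - 1‖ ^ 2) ≤ 2 * avg r (fun w => ‖ub w / c - 1‖ ^ 2) := by
  have hfd : DifferentiableOn ℂ (fun w => a w - 1) (ball 0 1) := ha.sub (differentiableOn_const _)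
  have cf : ContinuousOn (fun w => a w - 1) (sphere 0 r) := contOn_of_diff hfd hr1 hr
  have cf1 : ContinuousOn (fun w => ‖a w - 1‖) (sphere 0 r) := cf.norm
  have cf2 : ContinuousOn (fun w => ‖a w - 1‖ ^ 2) (sphere 0 r) := cf.norm.pow 2
  set A := avg r (fun w => ‖a w - 1‖ ^ 2) with hA
  set M := avg r (fun w => ‖ub w / c - 1‖ ^ 2) with hM
  have hcm : ContinuousOn (fun w => ub w / c - 1) (sphere 0 r) :=
    (hub.div_const _).sub continuousOn_const
  have hM0 : 0 ≤ M := avg_nonneg hr (hcm.norm.pow 2) (fun w _ => by positivity)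
  have hA0 : 0 ≤ A := avg_nonneg hr cf2 (fun w _ => by positivity)
  rcases hA0.eq_or_lt with hA1 | hApos
  · rw [← hA1]; positivity
  -- approximate inequality
  have key : ∀ ε : ℝ, 0 < ε → ε < A / (A + 1) →
      (A - ε * (A + 1)) ^ 2 ≤ 2 * (A + 2 * ε * (A + 1) + ε ^ 2) * M := by
    intro ε hε hε2
    obtain ⟨p, hp0, hpw⟩ := exists_poly_approx hfd hr hr1 (by simp [ha0]) hε
    have hstep := C.dual_step_poly hr hr1 ha hub hc hQ hp0
    have hpd : DifferentiableOn ℂ (fun w => p.eval w) (ball 0 1) :=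
      p.differentiable.differentiableOn
    have cp : ContinuousOn (fun w => p.eval w) (sphere 0 r) := contOn_of_diff hpd hr1 hr
    have cpc : ContinuousOn (fun w => conj (p.eval w)) (sphere 0 r) :=
      Complex.continuous_conj.comp_continuousOn cp
    have cal : ContinuousOn (fun w => conj (p.eval w) * (a w - 1)) (sphere 0 r) := cpc.mul cf
    -- lower bound on the real part
    have hre : A - ε * (A + 1) ≤ (avg r (fun w => conj (p.eval w) * (a w - 1))).re := by
      rw [← avg_re hr cal]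
      have hpt : ∀ w : ℂ, ‖w‖ = r → (‖a w - 1‖ ^ 2 - ε * (‖a w - 1‖ ^ 2 + 1))
          ≤ (conj (p.eval w) * (a w - 1)).re := by
        intro w hw
        have h1 := hpw w hw
        have e1 : (conj (p.eval w) * (a w - 1)).re
            = ‖a w - 1‖ ^ 2 + (conj (p.eval w - (a w - 1)) * (a w - 1)).re := by
          simp only [Complex.sq_norm, normSq_apply, map_sub, mul_re, sub_re, sub_im, conj_re,
            conj_im, one_re, one_im, map_one]
          ring
        have e2 : -(‖p.eval w - (a w - 1)‖ * ‖a w - 1‖)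
            ≤ (conj (p.eval w - (a w - 1)) * (a w - 1)).re := by
          have := Complex.abs_re_le_norm (conj (p.eval w - (a w - 1)) * (a w - 1))
          rw [norm_mul, RCLike.norm_conj] at this
          exact (abs_le.mp this).1
        have e3 : ‖p.eval w - (a w - 1)‖ * ‖a w - 1‖ ≤ ε * (‖a w - 1‖ ^ 2 + 1) := by
          have h2 : ‖a w - 1‖ ≤ ‖a w - 1‖ ^ 2 + 1 := by nlinarith [sq_nonneg (‖a w - 1‖ - 1)]
          calc ‖p.eval w - (a w - 1)‖ * ‖a w - 1‖ ≤ ε * ‖a w - 1‖ :=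
                mul_le_mul_of_nonneg_right h1 (norm_nonneg _)
            _ ≤ ε * (‖a w - 1‖ ^ 2 + 1) := mul_le_mul_of_nonneg_left h2 hε.le
        rw [e1]; linarith
      have c1 : ContinuousOn (fun w => ‖a w - 1‖ ^ 2 - ε * (‖a w - 1‖ ^ 2 + 1)) (sphere 0 r) :=
        cf2.sub (continuousOn_const.mul (cf2.add continuousOn_const))
      have c2 : ContinuousOn (fun w => (conj (p.eval w) * (a w - 1)).re) (sphere 0 r) :=
        Complex.continuous_re.comp_continuousOn cal
      have h3 := avg_mono hr c1 c2 hpt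
      have c3 : ContinuousOn (fun w => ε * (‖a w - 1‖ ^ 2 + 1)) (sphere 0 r) :=
        continuousOn_const.mul (cf2.add continuousOn_const)
      have e4 : avg r (fun w => ‖a w - 1‖ ^ 2 - ε * (‖a w - 1‖ ^ 2 + 1)) = A - ε * (A + 1) := by
        rw [avg_sub_real hr cf2 c3, avg_const_mul_real, avg_add_real hr cf2 continuousOn_const,
          avg_const]
      rw [e4] at h3
      exact h3
    -- upper bound on the norm of `p`
    have hup : avg r (fun w => ‖p.eval w‖ ^ 2) ≤ A + 2 * ε * (A + 1) + ε ^ 2 := by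
      have hpt : ∀ w : ℂ, ‖w‖ = r → ‖p.eval w‖ ^ 2
          ≤ ‖a w - 1‖ ^ 2 + 2 * ε * (‖a w - 1‖ ^ 2 + 1) + ε ^ 2 := by
        intro w hw
        have h1 := hpw w hw
        have h2 : ‖p.eval w‖ ≤ ‖a w - 1‖ + ε := by
          calc ‖p.eval w‖ = ‖(p.eval w - (a w - 1)) + (a w - 1)‖ := by
                congr 1; ring
            _ ≤ ‖p.eval w - (a w - 1)‖ + ‖a w - 1‖ := norm_add_le _ _
            _ ≤ ‖a w - 1‖ + ε := by linarith
        have h3 : ‖p.eval w‖ ^ 2 ≤ (‖a w - 1‖ + ε) ^ 2 :=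
          pow_le_pow_left₀ (norm_nonneg _) h2 2
        have h4 : ‖a w - 1‖ ≤ ‖a w - 1‖ ^ 2 + 1 := by nlinarith [sq_nonneg (‖a w - 1‖ - 1)]
        nlinarith
      have c0 : ContinuousOn (fun w => ‖p.eval w‖ ^ 2) (sphere 0 r) := cp.norm.pow 2
      have c3 : ContinuousOn (fun w => 2 * ε * (‖a w - 1‖ ^ 2 + 1)) (sphere 0 r) :=
        continuousOn_const.mul (cf2.add continuousOn_const)
      have c4 : ContinuousOn (fun w => ‖a w - 1‖ ^ 2 + 2 * ε * (‖a w - 1‖ ^ 2 + 1)) (sphere 0 r) :=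
        cf2.add c3
      have h3 := avg_mono hr c0 (c4.add continuousOn_const) hpt
      have e4 : avg r (fun w => ‖a w - 1‖ ^ 2 + 2 * ε * (‖a w - 1‖ ^ 2 + 1) + ε ^ 2)
          = A + 2 * ε * (A + 1) + ε ^ 2 := by
        rw [avg_add_real hr c4 continuousOn_const, avg_add_real hr cf2 c3, avg_const_mul_real,
          avg_add_real hr cf2 continuousOn_const, avg_const, avg_const]
      calc avg r (fun w => ‖p.eval w‖ ^ 2)
          ≤ avg r (fun w => ‖a w - 1‖ ^ 2 + 2 * ε * (‖a w - 1‖ ^ 2 + 1) + ε ^ 2) := h3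
        _ = A + 2 * ε * (A + 1) + ε ^ 2 := e4
    -- assemble
    have hpos1 : 0 ≤ A - ε * (A + 1) := by
      have hA1 : 0 < A + 1 := by linarith
      rw [lt_div_iff₀ hA1] at hε2
      linarith
    set α := avg r (fun w => conj (p.eval w) * (a w - 1)) with hα
    have h5 : (A - ε * (A + 1)) ^ 2 ≤ ‖α‖ ^ 2 := by
      apply pow_le_pow_left₀ hpos1
      exact hre.trans (Complex.re_le_norm α)
    calc (A - ε * (A + 1)) ^ 2 ≤ ‖α‖ ^ 2 := h5
      _ ≤ 2 * avg r (fun w => ‖p.eval w‖ ^ 2) * M := hstep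
      _ ≤ 2 * (A + 2 * ε * (A + 1) + ε ^ 2) * M := by
          apply mul_le_mul_of_nonneg_right _ hM0
          linarith
  -- limit `ε → 0`
  have hlim : Tendsto (fun ε : ℝ => (A - ε * (A + 1)) ^ 2 - 2 * (A + 2 * ε * (A + 1) + ε ^ 2) * M)
      (𝓝[>] 0) (𝓝 ((A - 0 * (A + 1)) ^ 2 - 2 * (A + 2 * 0 * (A + 1) + 0 ^ 2) * M)) := by
    have hc : Continuous (fun ε : ℝ => (A - ε * (A + 1)) ^ 2
        - 2 * (A + 2 * ε * (A + 1) + ε ^ 2) * M) := by fun_prop
    exact (hc.tendsto 0).mono_left nhdsWithin_le_nhds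
  have hpos2 : 0 < A / (A + 1) := by positivity
  have hle : (A - 0 * (A + 1)) ^ 2 - 2 * (A + 2 * 0 * (A + 1) + 0 ^ 2) * M ≤ 0 := by
    apply le_of_tendsto hlim
    filter_upwards [Ioo_mem_nhdsGT hpos2] with ε hε
    have := key ε hε.1 hε.2
    linarith
  have hfin : A * A ≤ A * (2 * M) := by nlinarith
  exact le_of_mul_le_mul_left hfin hApos

/-- The scalar chain. -/
theorem Conf.core_scalar (C : Conf K h g) {s c : ℝ} (hr : 0 < r) (hr1 : r < 1) {a b d : ℂ → ℂ}
    (ha : DifferentiableOn ℂ a (ball 0 1)) (hb : DifferentiableOn ℂ b (ball 0 1))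
    (hd : DifferentiableOn ℂ d (ball 0 1)) (ha0 : a 0 = 1) (hbd0 : 0 ≤ (b 0 * d 0).re)
    (hpos : ∀ w : ℂ, ‖w‖ = r → ‖b w + conj (d w)‖ ≤ 2 * (a w).re)
    (P : ℂ[X]) (hs : ∀ w : ℂ, ‖w‖ = r → ‖P.eval (zz h w)‖ ≤ s) (hc : 0 < c)
    (hQ : ∀ Q : ℂ[X], (c : ℂ) * avg r (fun w => Q.eval (zz h w) * a w)
      = avg r (fun w => Q.eval (zz h w) * (P.eval (zz h w) * b w))) :
    c ≤ 2 * s := by
  have hcC : (c : ℂ) ≠ 0 := by exact_mod_cast hc.ne'
  have cu := C.eval_zz_cont hr hr1 P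
  have cb : ContinuousOn b (sphere 0 r) := contOn_of_diff hb hr1 hr
  have cub : ContinuousOn (fun w => P.eval (zz h w) * b w) (sphere 0 r) := cu.mul cb
  have cb2 : ContinuousOn (fun w => ‖b w‖ ^ 2) (sphere 0 r) := cb.norm.pow 2
  have cu2 : ContinuousOn (fun w => ‖P.eval (zz h w)‖ ^ 2) (sphere 0 r) := cu.norm.pow 2
  have cub2 : ContinuousOn (fun w => ‖P.eval (zz h w) * b w‖ ^ 2) (sphere 0 r) := cub.norm.pow 2
  set B := avg r (fun w => ‖b w‖ ^ 2) with hB
  have hB0 : 0 ≤ B := avg_nonneg hr cb2 (fun w _ => by positivity)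
  -- `s ≥ 0`
  have hs0 : 0 ≤ s := by
    have := hs (r : ℂ) (by simp [abs_of_pos hr])
    exact (norm_nonneg _).trans this
  -- mean of `u b` is `c`
  have hmean : avg r (fun w => P.eval (zz h w) * b w) = c := by
    have h1 := hQ 1
    simp only [Polynomial.eval_one, one_mul] at h1
    rw [← h1, avg_eq_of_diff ha hr hr1, ha0, mul_one]
  -- step (1), (4)
  have h1 := int_pos_step hr hr1 ha hb hd ha0 hbd0 hpos
  have h4 := C.dual_step hr hr1 ha ha0 cub hc hQ
  -- the norm of `m`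
  set M := avg r (fun w => ‖P.eval (zz h w) * b w / c - 1‖ ^ 2) with hM
  have hM_eq : 1 + M = avg r (fun w => ‖P.eval (zz h w) * b w‖ ^ 2) / c ^ 2 := by
    have hpt : ∀ w : ℂ, ‖w‖ = r → ‖P.eval (zz h w) * b w / c - 1‖ ^ 2
        = (‖P.eval (zz h w) * b w‖ ^ 2 / c ^ 2 - 2 * (P.eval (zz h w) * b w).re / c) + 1 := by
      intro w _
      set z := P.eval (zz h w) * b w
      have e1 : z / (c : ℂ) = ((z.re / c : ℝ) : ℂ) + ((z.im / c : ℝ) : ℂ) * I := by
        apply Complex.ext <;> simp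
      rw [e1]
      simp only [Complex.sq_norm, normSq_apply, add_re, add_im, sub_re, sub_im, mul_re, mul_im,
        ofReal_re, ofReal_im, I_re, I_im, one_re, one_im]
      field_simp
      ring
    have c1 : ContinuousOn (fun w => ‖P.eval (zz h w) * b w‖ ^ 2 / c ^ 2) (sphere 0 r) :=
      cub2.div_const _
    have c2 : ContinuousOn (fun w => (P.eval (zz h w) * b w).re) (sphere 0 r) :=
      Complex.continuous_re.comp_continuousOn cub
    have c3 : ContinuousOn (fun w => 2 * (P.eval (zz h w) * b w).re / c) (sphere 0 r) :=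
      (continuousOn_const.mul c2).div_const _
    have e2 : avg r (fun w => ‖P.eval (zz h w) * b w‖ ^ 2 / c ^ 2)
        = avg r (fun w => ‖P.eval (zz h w) * b w‖ ^ 2) / c ^ 2 := by
      simp only [div_eq_mul_inv]
      have := avg_const_mul_real (r := r) ((c ^ 2)⁻¹) (fun w => ‖P.eval (zz h w) * b w‖ ^ 2)
      simp only [mul_comm _ ((c ^ 2)⁻¹)]
      exact this
    have e3 : avg r (fun w => 2 * (P.eval (zz h w) * b w).re / c) = 2 := by
      have e4 : ∀ w : ℂ, 2 * (P.eval (zz h w) * b w).re / c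
          = (2 / c) * (P.eval (zz h w) * b w).re := by
        intro w; ring
      simp only [e4]
      rw [avg_const_mul_real, avg_re hr cub, hmean]
      simp
      field_simp
    have e5 : M = (avg r (fun w => ‖P.eval (zz h w) * b w‖ ^ 2) / c ^ 2 - 2) + 1 := by
      have c13 : ContinuousOn (fun w => ‖P.eval (zz h w) * b w‖ ^ 2 / c ^ 2
          - 2 * (P.eval (zz h w) * b w).re / c) (sphere 0 r) := c1.sub c3
      rw [hM, avg_congr hr hpt, avg_add_real hr c13 continuousOn_const,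
        avg_sub_real hr c1 c3, e2, e3, avg_const]
    rw [e5]; ring
  -- bound of `u b`
  have hub2 : avg r (fun w => ‖P.eval (zz h w) * b w‖ ^ 2) ≤ s ^ 2 * B := by
    have hpt : ∀ w : ℂ, ‖w‖ = r → ‖P.eval (zz h w) * b w‖ ^ 2 ≤ s ^ 2 * ‖b w‖ ^ 2 := by
      intro w hw
      rw [norm_mul, mul_pow]
      apply mul_le_mul_of_nonneg_right _ (by positivity)
      exact pow_le_pow_left₀ (norm_nonneg _) (hs w hw) 2
    have := avg_mono hr cub2 (continuousOn_const.mul cb2) hpt
    calc avg r (fun w => ‖P.eval (zz h w) * b w‖ ^ 2) ≤ avg r (fun w => s ^ 2 * ‖b w‖ ^ 2) := this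
      _ = s ^ 2 * B := avg_const_mul_real _ _
  -- `B > 0`
  have hBpos : 0 < B := by
    have hCS := avg_mul_sq_le hr cu cb
    rw [hmean] at hCS
    have h2 : ‖(c : ℂ)‖ ^ 2 = c ^ 2 := by
      rw [Complex.norm_real, Real.norm_eq_abs, sq_abs]
    rw [h2] at hCS
    have h3 : 0 < c ^ 2 := by positivity
    rcases hB0.eq_or_lt with h0 | h0
    · rw [← hB, ← h0, mul_zero] at hCS
      linarith
    · exact h0
  -- conclusion
  have hchain : B ≤ 4 * (s ^ 2 * B / c ^ 2) := by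
    have h5 : B ≤ 4 * (1 + M) := by linarith
    rw [hM_eq] at h5
    have h6 : avg r (fun w => ‖P.eval (zz h w) * b w‖ ^ 2) / c ^ 2 ≤ s ^ 2 * B / c ^ 2 :=
      div_le_div_of_nonneg_right hub2 (by positivity)
    linarith
  have hc2 : c ^ 2 ≤ 4 * s ^ 2 := by
    have h7 : B * c ^ 2 ≤ 4 * (s ^ 2 * B) := by
      have h3 : 0 < c ^ 2 := by positivity
      have := mul_le_mul_of_nonneg_right hchain h3.le
      have e : 4 * (s ^ 2 * B / c ^ 2) * c ^ 2 = 4 * (s ^ 2 * B) := by field_simp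
      rwa [e] at this
    have h8 : B * c ^ 2 ≤ B * (4 * s ^ 2) := by linarith
    exact le_of_mul_le_mul_left h8 hBpos
  have : c ^ 2 ≤ (2 * s) ^ 2 := by nlinarith
  exact abs_le_of_sq_le_sq' this (by positivity) |>.2

end Vale.Agent.P123C
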