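import Mathlib

/-!
# Crouzeix conjecture: definitions for the exterior-map proof.

Notation.  `K` is a compact convex set with `0` in its interior.  `UK K` is the image of the
exterior of `K` under `z ↦ 1/z`, together with `0`.  `h : 𝔻 → UK K` is a conformal bijection with
`h 0 = 0`, and `g` is its inverse.  In the variable `w` (`ξ = 1/w` is the usual exterior coordinate)
* `zz h w = 1 / h w` is the exterior map `σ(1/w)`;
* `T h w = q h w / h w` equals `ξ σ'(ξ)`;
* `k h w τ = q h w / (1 - τ * h w) = T / (σ - τ)` is the Faber kernel, analytic on the disc for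
  `τ ∈ K`, with value `1` at `w = 0`.
-/

open Complex Metric Set Filter Topology
open scoped Real

namespace Vale.Agent.P123C

/-- Image of the exterior of `K` under `z ↦ 1/z`, together with `0`. -/
def UK (K : Set ℂ) : Set ℂ := {u | ∀ τ ∈ K, τ * u ≠ 1}

/-- A conformal bijection of the unit disc onto `UK K`, with inverse `g`. -/
structure Conf (K : Set ℂ) (h g : ℂ → ℂ) : Prop where
  compact : IsCompact K
  convex : Convex ℝ K
  zero_interior : (0 : ℂ) ∈ interior K
  diff : DifferentiableOn ℂ h (ball 0 1)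
  zero : h 0 = 0
  mapsTo : MapsTo h (ball 0 1) (UK K)
  deriv_ne : ∀ w ∈ ball (0 : ℂ) 1, deriv h w ≠ 0
  diff_g : DifferentiableOn ℂ g (UK K)
  mapsTo_g : MapsTo g (UK K) (ball 0 1)
  left_inv : ∀ w ∈ ball (0 : ℂ) 1, g (h w) = w
  right_inv : ∀ u ∈ UK K, h (g u) = u

/-- `w h'(w) / h(w)`, with the value `1` at `w = 0`. -/
noncomputable def q (h : ℂ → ℂ) (w : ℂ) : ℂ := deriv h w / dslope h 0 w

/-- The Faber kernel `ξ σ'(ξ) / (σ(ξ) - τ)` in the variable `w = 1/ξ`. -/
noncomputable def k (h : ℂ → ℂ) (w τ : ℂ) : ℂ := q h w / (1 - τ * h w)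

/-- The exterior map `σ(1/w)`. -/
noncomputable def zz (h : ℂ → ℂ) (w : ℂ) : ℂ := (h w)⁻¹

/-- `ξ σ'(ξ)` in the variable `w = 1/ξ`. -/
noncomputable def T (h : ℂ → ℂ) (w : ℂ) : ℂ := q h w / h w

/-- Circle average at radius `r`, centre `0`. -/
noncomputable abbrev avg {E : Type*} [NormedAddCommGroup E] [NormedSpace ℝ E]
    (r : ℝ) (f : ℂ → E) : E := Real.circleAverage f 0 r

end Vale.Agent.P123C
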