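import Vale.Agent.P123C.FaberLambda
import Vale.Agent.P123C.Avg

/-! MODULE F: Faber decomposition and the key `L²` contraction.

F1. `faber_exists`: every polynomial `v` in `ξ = 1/w` is the principal part of `Q (zz h w)` for some polynomial `Q`.
Induction on the degree using `w zz h w = F w` analytic with `F 0 ≠ 0` (`Conf.exists_wz`):
`zz^n = F^n w^{-n}`, expand `F^n` by its Taylor polynomial of order `n`.

F2. `faber_bound`.  Fix `r`, `w₀ = r e^{iφ}`, `τ₀ = zz h w₀`, and `r₂ < r`.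
* (KP) Let `k₀ w = q w / (1 - τ₀ h w)`, analytic on `ball 0 r`, value `1` at `0`.  Then for `|w| = r₂`:
  `Q (τ₀) = avg r₂ (Q(zz) k₀)`, since `(Q(z) - Q(τ₀)) / (z - τ₀)` is a polynomial `R (z)`, and
  `avg r₂ (R(zz) T) = 0` (it is a derivative in `θ` of a periodic function; see `Conf.hasDerivAt_zz_circle`),
  `avg r₂ k₀ = 1`.  As `Q(zz) = v(1/w) + W w`, and `avg r₂ (W k₀) = W 0 * 1 = 0`:
  `Q τ₀ = avg r₂ (v(1/w) k₀)`.
  On `|w| = r₂`, `conj (v (1/w))` is a polynomial in `w` vanishing at `0` when `v.coeff 0 = 0`, so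
  `avg r₂ (v(1/w) conj k₀) = 0`, and `Q τ₀ = avg r₂ (v(1/w) * 2 Re k₀)`.
* Poisson (`DiffContOnCl.circleAverage_poissonKernel_smul` in the variable `ξ`, or for `w ↦ v(1/w)` on
  `|w|=r₂` with the exterior Poisson kernel): `v(1/w₀) = avg r₂ (v(1/w) * Re ((w₀ + w)/(w₀ - w)))`.
* Thus `W w₀ = avg r₂ (v(1/w) * L)`, `L w = 2 Re k₀ w - Re ((w₀ + w)/(w₀ - w))`.
* `L ≥ 0` on `‖w‖ ≤ r`: `Λ w = 2 k₀ w - (w₀ + w)/(w₀ - w)` is analytic on the disc (removable at `w₀`), `Λ 0 = 1`, on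
  `‖w‖ = r`, `w ≠ w₀`: `Re ((w₀+w)/(w₀-w)) = 0`, `Re k₀ w = Re (T w / (zz w - zz w₀)) ≥ 0`
  (`Conf.re_chord_nonneg` with `lam = w₀ / w`), at `w₀` by continuity; minimum principle.
* mean of `L` over `|w| = r₂` is `Re Λ 0 = 1`.  Jensen: `|W w₀|² ≤ avg r₂ (|v(1/w)|² L)`.
* averaging over `φ`: expand `|v(1/w)|² = Σ t_l conj t_j w^{-l} conj(w)^{-j}`.  For `n ≥ 1`, taking
  `Q_n` with principal part `ξ^n` (from F1), `avg r₂ (w^{-n} L) = W_n w₀` whose `φ`-average is `W_n 0 = 0`;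
  `n = 0` gives `1`.  So `avg_φ |W|² ≤ avg r₂ |v(1/w)|²`, for every `r₂ < r`, and `r₂ → r`.
  No Fubini needed. -/

open Complex Metric Set Filter Topology Polynomial
open scoped Real ComplexConjugate

namespace Vale.Agent.P123C


variable {K : Set ℂ} {h g : ℂ → ℂ}

theorem Conf.faber_aux (C : Conf K h g) (n : ℕ) :
    ∀ f : ℂ → ℂ, DifferentiableOn ℂ f (ball 0 1) →
      ∃ (Q : ℂ[X]) (W : ℂ → ℂ), DifferentiableOn ℂ W (ball 0 1) ∧
        ∀ w ∈ ball (0 : ℂ) 1, w ≠ 0 → Q.eval (zz h w) = f w * (w⁻¹) ^ n + W w := by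
  induction n with
  | zero =>
    intro f hf
    refine ⟨0, fun w => - f w, hf.neg, fun w _ _ => ?_⟩
    simp
  | succ n ih =>
    intro f hf
    obtain ⟨F, hFd, hFne, -, hFeq⟩ := C.exists_wz
    have h0mem : (0 : ℂ) ∈ ball (0 : ℂ) 1 := mem_ball_self one_pos
    set c : ℂ := f 0 / (F 0) ^ (n + 1) with hc
    set G : ℂ → ℂ := fun w => f w - c * (F w) ^ (n + 1) with hG
    have hGd : DifferentiableOn ℂ G (ball 0 1) := hf.sub ((hFd.pow _).const_mul _)
    have hG0 : G 0 = 0 := by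
      have := pow_ne_zero (n + 1) (hFne 0 h0mem)
      simp only [hG, hc]
      field_simp
      ring
    have hg1 : DifferentiableOn ℂ (dslope G 0) (ball 0 1) :=
      (Complex.differentiableOn_dslope (isOpen_ball.mem_nhds h0mem)).2 hGd
    obtain ⟨Q', W', hW', hQ'⟩ := ih (dslope G 0) hg1
    refine ⟨Polynomial.C c * X ^ (n + 1) + Q', W', hW', fun w hw hw0 => ?_⟩
    have h1 := hQ' w hw hw0
    have h2 : dslope G 0 w = G w * w⁻¹ := by
      rw [dslope_of_ne _ hw0, slope_def_field, hG0]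
      simp [div_eq_mul_inv]
    have h3 : zz h w = F w * w⁻¹ := by
      rw [hFeq w hw hw0]
      field_simp
    rw [eval_add, eval_mul, eval_C, eval_pow, eval_X, h1, h2, h3]
    simp only [hG]
    ring

/-- F1: Faber decomposition. -/
theorem Conf.faber_exists (C : Conf K h g) (v : ℂ[X]) :
    ∃ (Q : ℂ[X]) (W : ℂ → ℂ), DifferentiableOn ℂ W (ball 0 1) ∧ W 0 = 0 ∧
      ∀ w ∈ ball (0 : ℂ) 1, w ≠ 0 → Q.eval (zz h w) = v.eval w⁻¹ + W w := by
  have key : ∃ (Q : ℂ[X]) (W : ℂ → ℂ), DifferentiableOn ℂ W (ball 0 1) ∧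
      ∀ w ∈ ball (0 : ℂ) 1, w ≠ 0 → Q.eval (zz h w) = v.eval w⁻¹ + W w := by
    induction v using Polynomial.induction_on' with
    | add p q hp hq =>
      obtain ⟨Q1, W1, h1, h1'⟩ := hp
      obtain ⟨Q2, W2, h2, h2'⟩ := hq
      refine ⟨Q1 + Q2, fun w => W1 w + W2 w, h1.add h2, fun w hw hw0 => ?_⟩
      rw [eval_add, eval_add, h1' w hw hw0, h2' w hw hw0]
      ring
    | monomial n a =>
      obtain ⟨Q, W, hW, hQ⟩ := C.faber_aux n (fun _ => a) (differentiableOn_const a)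
      refine ⟨Q, W, hW, fun w hw hw0 => ?_⟩
      rw [hQ w hw hw0, eval_monomial]
  obtain ⟨Q, W, hW, hQ⟩ := key
  refine ⟨Q - Polynomial.C (W 0), fun w => W w - W 0, hW.sub (differentiableOn_const _), by simp,
    fun w hw hw0 => ?_⟩
  rw [eval_sub, eval_C, hQ w hw hw0]
  ring



section avgLemmas

private lemma fb_avg_add {f₁ f₂ : ℂ → ℂ} {ρ : ℝ} (hf₁ : CircleIntegrable f₁ 0 ρ) (hf₂ : CircleIntegrable f₂ 0 ρ) :
    avg ρ (fun w => f₁ w + f₂ w) = avg ρ f₁ + avg ρ f₂ :=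
  Real.circleAverage_fun_add hf₁ hf₂

private lemma fb_avg_sub {f₁ f₂ : ℂ → ℂ} {ρ : ℝ} (hf₁ : CircleIntegrable f₁ 0 ρ) (hf₂ : CircleIntegrable f₂ 0 ρ) :
    avg ρ (fun w => f₁ w - f₂ w) = avg ρ f₁ - avg ρ f₂ :=
  Real.circleAverage_fun_sub hf₁ hf₂

private lemma fb_avg_const_mul (a : ℂ) (f : ℂ → ℂ) (ρ : ℝ) : avg ρ (fun w => a * f w) = a * avg ρ f :=
  Real.circleAverage_fun_smul (a := a) (f := f)

private lemma fb_avg_const (a : ℂ) (ρ : ℝ) : avg ρ (fun _ => a) = a :=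
  Real.circleAverage_const a 0 ρ

private lemma avg_of_diff {f : ℂ → ℂ} {ρ R : ℝ} (hρ : 0 < ρ) (hρR : ρ < R)
    (hf : DifferentiableOn ℂ f (ball 0 R)) : avg ρ f = f 0 := by
  have : DiffContOnCl ℂ f (ball 0 |ρ|) := by
    rw [abs_of_pos hρ]
    exact hf.diffContOnCl_ball (closedBall_subset_ball hρR)
  exact this.circleAverage

private lemma ci_of_diff {f : ℂ → ℂ} {ρ R : ℝ} (hρ : 0 < ρ) (hρR : ρ < R)
    (hf : DifferentiableOn ℂ f (ball 0 R)) : CircleIntegrable f 0 ρ :=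
  (hf.continuousOn.mono (sphere_subset_ball hρR)).circleIntegrable hρ.le

private lemma fb_avg_conj {f : ℂ → ℂ} {ρ : ℝ} (hf : CircleIntegrable f 0 ρ) :
    avg ρ (fun w => conj (f w)) = conj (avg ρ f) := by
  have := (Complex.conjCLE : ℂ →L[ℝ] ℂ).circleAverage_comp_comm hf
  simpa [Function.comp_def] using this

private lemma fb_avg_re {f : ℂ → ℂ} {ρ : ℝ} (hf : CircleIntegrable f 0 ρ) :
    avg ρ (fun w => (f w).re) = (avg ρ f).re := by
  have := (Complex.reCLM : ℂ →L[ℝ] ℝ).circleAverage_comp_comm hf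
  simpa [Function.comp_def] using this

private lemma conj_inv_on_sphere {ρ : ℝ} (hρ : 0 < ρ) {w : ℂ} (hw : ‖w‖ = ρ) :
    conj (w / (ρ : ℂ) ^ 2) = w⁻¹ := by
  have h0 : w ≠ 0 := by
    intro h
    rw [h, norm_zero] at hw
    exact hρ.ne hw
  have h1 : conj w * w = (ρ : ℂ) ^ 2 := by
    rw [mul_comm, Complex.mul_conj, Complex.normSq_eq_norm_sq, hw]
    push_cast
    ring
  have hρ0 : (ρ : ℂ) ≠ 0 := by exact_mod_cast hρ.ne'
  have hc : conj w ≠ 0 := by simpa using h0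
  rw [map_div₀, map_pow, Complex.conj_ofReal, ← h1]
  field_simp

private lemma cont_inv_poly {ρ : ℝ} (hρ : 0 < ρ) (p : ℂ[X]) :
    ContinuousOn (fun w : ℂ => p.eval w⁻¹) (sphere 0 ρ) := by
  have h1 : ContinuousOn (fun w : ℂ => w⁻¹) (sphere 0 ρ) := by
    apply continuousOn_id.inv₀
    intro w hw h0
    have h1 : ‖w‖ = ρ := by simpa using hw
    have h2 : w = 0 := h0
    rw [h2, norm_zero] at h1
    exact hρ.ne h1
  exact p.continuous.comp_continuousOn h1

private lemma sphere_mem_abs {ρ : ℝ} (hρ : 0 < ρ) {w : ℂ} (hw : w ∈ sphere (0 : ℂ) |ρ|) : ‖w‖ = ρ := by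
  rw [abs_of_pos hρ] at hw
  simpa using hw

/-- `conj` of an analytic function against a polynomial in `1/w` without constant term. -/
private lemma avg_poly_conj {ρ R : ℝ} (hρ : 0 < ρ) (hρR : ρ < R) {v : ℂ[X]} (hv : v.coeff 0 = 0) {f : ℂ → ℂ}
    (hf : DifferentiableOn ℂ f (ball 0 R)) :
    avg ρ (fun w => v.eval w⁻¹ * conj (f w)) = 0 := by
  set G : ℂ → ℂ := fun w => (v.map (starRingEnd ℂ)).eval (w / (ρ : ℂ) ^ 2) * f w with hG
  have hρ0 : (ρ : ℂ) ≠ 0 := by exact_mod_cast hρ.ne'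
  have hGd : DifferentiableOn ℂ G (ball 0 R) := by
    apply DifferentiableOn.mul _ hf
    apply Differentiable.differentiableOn
    exact (v.map (starRingEnd ℂ)).differentiable.comp (differentiable_id.div_const _)
  have h1 : avg ρ G = G 0 := avg_of_diff hρ hρR hGd
  have h2 : G 0 = 0 := by
    simp only [hG, zero_div]
    rw [← coeff_zero_eq_eval_zero, coeff_map, hv]
    simp
  have h3 := fb_avg_conj (ci_of_diff hρ hρR hGd)
  rw [h1, h2, map_zero] at h3
  rw [← h3]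
  apply Real.circleAverage_congr_sphere
  intro w hw
  have hw' := sphere_mem_abs hρ hw
  simp only [hG, map_mul]
  congr 1
  rw [← conj_inv_on_sphere hρ hw', ← Polynomial.eval_map_apply]
  simp [Polynomial.map_map]

private lemma avg_inv_poly {ρ : ℝ} (hρ : 0 < ρ) (p : ℂ[X]) : avg ρ (fun w => p.eval w⁻¹) = p.eval 0 := by
  set q : ℂ[X] := p - Polynomial.C (p.eval 0) with hq
  have hq0 : q.coeff 0 = 0 := by
    simp [hq, coeff_zero_eq_eval_zero]
  have h1 := avg_poly_conj (R := ρ + 1) hρ (by linarith) hq0 (f := fun _ => 1)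
    (differentiableOn_const _)
  simp only [map_one, mul_one] at h1
  have h2 : (fun w => p.eval w⁻¹) = fun w => q.eval w⁻¹ + p.eval 0 := by
    ext w
    simp [hq]
  rw [h2, fb_avg_add ((cont_inv_poly hρ q).circleIntegrable hρ.le)
    (circleIntegrable_const _ _ _), h1, fb_avg_const]
  simp

/-- Poisson formula in the variable `1/w`. -/
private lemma avg_poisson {ρ : ℝ} (hρ : 0 < ρ) {w₀ : ℂ} (hw₀ : ρ < ‖w₀‖) {v : ℂ[X]} (hv : v.coeff 0 = 0) :
    avg ρ (fun w => v.eval w⁻¹ * ((w₀ + w) / (w₀ - w))) = 2 * v.eval w₀⁻¹ := by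
  have hw₀0 : w₀ ≠ 0 := by
    intro h
    rw [h, norm_zero] at hw₀
    linarith
  set ξ₀ : ℂ := w₀⁻¹ with hξ₀
  set R : ℂ[X] := (v - Polynomial.C (v.eval ξ₀)) /ₘ (X - Polynomial.C ξ₀) with hR
  have hRmul : (X - Polynomial.C ξ₀) * R = v - Polynomial.C (v.eval ξ₀) := by
    rw [hR, mul_divByMonic_eq_iff_isRoot]
    simp [IsRoot]
  have hval : ∀ x : ℂ, v.eval x = v.eval ξ₀ + (x - ξ₀) * R.eval x := by
    intro x
    have := congrArg (Polynomial.eval x) hRmul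
    simp only [eval_mul, eval_sub, eval_X, eval_C] at this
    rw [this]
    ring
  have hR0 : ξ₀ * R.eval 0 = v.eval ξ₀ := by
    have h1 := hval 0
    rw [← coeff_zero_eq_eval_zero, hv] at h1
    linear_combination h1
  set P : ℂ → ℂ := fun w => (w₀ + w) / (w₀ - w) with hP
  have hPd : DifferentiableOn ℂ P (ball 0 ‖w₀‖) := by
    apply DifferentiableOn.div (by fun_prop) (by fun_prop)
    intro w hw h0
    have : w = w₀ := by linear_combination -h0
    rw [this] at hw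
    simp at hw
  have hP0 : P 0 = 1 := by
    simp only [hP]
    field_simp
    simp
  have h1 : avg ρ P = 1 := by rw [avg_of_diff hρ hw₀ hPd, hP0]
  set p : ℂ[X] := (X + Polynomial.C ξ₀) * R with hp
  have h2 := avg_inv_poly hρ p
  have hp0 : p.eval 0 = v.eval ξ₀ := by
    simp only [hp, eval_mul, eval_add, eval_X, eval_C, zero_add]
    exact hR0
  have h3 : avg ρ (fun w => v.eval w⁻¹ * ((w₀ + w) / (w₀ - w))) =
      avg ρ (fun w => v.eval ξ₀ * P w + p.eval w⁻¹) := by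
    apply Real.circleAverage_congr_sphere
    intro w hw
    have hw' := sphere_mem_abs hρ hw
    have hw0 : w ≠ 0 := by
      intro h
      rw [h, norm_zero] at hw'
      exact hρ.ne hw'
    have hne : w₀ - w ≠ 0 := by
      intro h
      have : w₀ = w := by linear_combination h
      rw [this, hw'] at hw₀
      exact lt_irrefl _ hw₀
    simp only [hP, hp, eval_mul, eval_add, eval_X, eval_C]
    rw [hval w⁻¹]
    simp only [hξ₀]
    field_simp
  have hc1 : CircleIntegrable (fun w => v.eval ξ₀ * P w) 0 ρ :=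
    (continuousOn_const.mul (hPd.continuousOn.mono (sphere_subset_ball hw₀))).circleIntegrable hρ.le
  rw [h3, fb_avg_add hc1 ((cont_inv_poly hρ p).circleIntegrable hρ.le), h2, hp0, fb_avg_const_mul, h1]
  ring

end avgLemmas


section kernel

variable {K : Set ℂ} {h g : ℂ → ℂ}

private lemma Conf.h_cont (C : Conf K h g) : ContinuousOn h (ball 0 1) := C.diff.continuousOn

private lemma mem_ball_of_norm_lt {w : ℂ} {r : ℝ} (hw : ‖w‖ < r) : w ∈ ball (0 : ℂ) r := by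
  simpa using hw

private lemma Conf.denom_ne (C : Conf K h g) {w₀ w : ℂ} (hw₀ : w₀ ∈ ball (0 : ℂ) 1) (h0 : w₀ ≠ 0)
    (hw : w ∈ ball (0 : ℂ) 1) (hne : w ≠ w₀) : 1 - zz h w₀ * h w ≠ 0 := by
  intro hz
  have hh := C.h_ne_zero hw₀ h0
  apply hne
  apply C.inj hw hw₀
  simp only [zz] at hz
  field_simp at hz
  linear_combination -hz

private lemma Conf.k_diff' (C : Conf K h g) {w₀ : ℂ} (hw₀ : w₀ ∈ ball (0 : ℂ) 1) (h0 : w₀ ≠ 0) :
    DifferentiableOn ℂ (fun w => k h w (zz h w₀)) (ball 0 ‖w₀‖) := by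
  have hsub : ball (0 : ℂ) ‖w₀‖ ⊆ ball 0 1 := ball_subset_ball (by simpa using hw₀.out.le)
  apply DifferentiableOn.div (C.q_diff.mono hsub)
  · exact (differentiableOn_const _).sub ((C.diff.mono hsub).const_mul _)
  · intro w hw
    apply C.denom_ne hw₀ h0 (hsub hw)
    rintro rfl
    simp at hw

private lemma Conf.k_eq' (C : Conf K h g) {w₀ w : ℂ} (hw₀ : w₀ ∈ ball (0 : ℂ) 1) (h0 : w₀ ≠ 0)
    (hw : w ∈ ball (0 : ℂ) 1) (hw0 : w ≠ 0) (hne : w ≠ w₀) :
    k h w (zz h w₀) = T h w / (zz h w - zz h w₀) ∧ zz h w - zz h w₀ ≠ 0 := by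
  have h1 := C.h_ne_zero hw₀ h0
  have h2 := C.h_ne_zero hw hw0
  have h3 : h w - h w₀ ≠ 0 := fun hh => hne (C.inj hw hw₀ (sub_eq_zero.1 hh))
  have h4 : h w₀ - h w ≠ 0 := fun hh => hne (C.inj hw hw₀ (sub_eq_zero.1 hh).symm)
  have h5 : zz h w - zz h w₀ ≠ 0 := by
    simp only [zz]
    intro hz
    apply h4
    field_simp at hz
    linear_combination hz
  refine ⟨?_, h5⟩
  have h6 : 1 - zz h w₀ * h w ≠ 0 := C.denom_ne hw₀ h0 hw hne
  simp only [k, T]
  simp only [zz] at h5 h6 ⊢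
  field_simp

private lemma poly_antideriv (R : ℂ[X]) : ∃ S : ℂ[X], derivative S = R := by
  induction R using Polynomial.induction_on' with
  | add p q hp hq =>
    obtain ⟨S1, h1⟩ := hp
    obtain ⟨S2, h2⟩ := hq
    exact ⟨S1 + S2, by rw [derivative_add, h1, h2]⟩
  | monomial n a =>
    refine ⟨monomial (n + 1) (a / (n + 1)), ?_⟩
    rw [derivative_monomial]
    have : ((n : ℂ) + 1) ≠ 0 := by exact_mod_cast Nat.succ_ne_zero n
    simp only [Nat.add_sub_cancel]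
    congr 1
    push_cast
    field_simp

private lemma Conf.contOn_zz (C : Conf K h g) : ContinuousOn (zz h) (ball 0 1 \ {0}) := by
  apply (C.h_cont.mono sdiff_subset).inv₀
  intro w hw
  exact C.h_ne_zero hw.1 hw.2

private lemma Conf.contOn_T (C : Conf K h g) : ContinuousOn (T h) (ball 0 1 \ {0}) := by
  apply (C.q_diff.continuousOn.mono sdiff_subset).div (C.h_cont.mono sdiff_subset)
  intro w hw
  exact C.h_ne_zero hw.1 hw.2

private lemma circle_mem {ρ : ℝ} (hρ : 0 < ρ) (hρ1 : ρ < 1) (θ : ℝ) :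
    circleMap 0 ρ θ ∈ ball (0 : ℂ) 1 \ {0} := by
  have h1 : ‖circleMap 0 ρ θ‖ = ρ := by
    rw [norm_circleMap_zero, abs_of_pos hρ]
  refine ⟨by simpa [h1] using hρ1, ?_⟩
  intro h0
  have h0' : circleMap 0 ρ θ = 0 := h0
  rw [h0', norm_zero] at h1
  exact hρ.ne h1

private lemma sphere_sub {ρ : ℝ} (hρ : 0 < ρ) (hρ1 : ρ < 1) : sphere (0 : ℂ) ρ ⊆ ball 0 1 \ {0} := by
  intro w hw
  have h1 : ‖w‖ = ρ := by simpa using hw
  refine ⟨by simpa [h1] using hρ1, ?_⟩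
  intro h0
  have h0' : w = 0 := h0
  rw [h0', norm_zero] at h1
  exact hρ.ne h1

private lemma Conf.avg_poly_T (C : Conf K h g) {ρ : ℝ} (hρ : 0 < ρ) (hρ1 : ρ < 1) (R : ℂ[X]) :
    avg ρ (fun w => R.eval (zz h w) * T h w) = 0 := by
  obtain ⟨S, hS⟩ := poly_antideriv R
  have hzzc : Continuous (fun t : ℝ => zz h (circleMap 0 ρ t)) :=
    C.contOn_zz.comp_continuous (continuous_circleMap 0 ρ) (circle_mem hρ hρ1)
  have hTc : Continuous (fun t : ℝ => T h (circleMap 0 ρ t)) :=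
    C.contOn_T.comp_continuous (continuous_circleMap 0 ρ) (circle_mem hρ hρ1)
  have hd : ∀ t : ℝ, HasDerivAt (fun t : ℝ => S.eval (zz h (circleMap 0 ρ t)))
      ((-I) * (R.eval (zz h (circleMap 0 ρ t)) * T h (circleMap 0 ρ t))) t := by
    intro t
    have h1 := C.hasDerivAt_zz_circle hρ hρ1 t
    have h2 := S.hasDerivAt (zz h (circleMap 0 ρ t))
    have h3 := h2.scomp t h1
    rw [hS] at h3
    have h4 : (-I * T h (circleMap 0 ρ t)) • R.eval (zz h (circleMap 0 ρ t)) =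
        (-I) * (R.eval (zz h (circleMap 0 ρ t)) * T h (circleMap 0 ρ t)) := by
      simp only [smul_eq_mul]
      ring
    rw [h4] at h3
    exact h3
  have hcont : Continuous (fun t : ℝ => (-I) * (R.eval (zz h (circleMap 0 ρ t)) *
      T h (circleMap 0 ρ t))) :=
    continuous_const.mul ((R.continuous.comp hzzc).mul hTc)
  have hI := intervalIntegral.integral_eq_sub_of_hasDerivAt (a := 0) (b := 2 * π)
    (fun t _ => hd t) (hcont.intervalIntegrable _ _)
  have hper : circleMap 0 ρ (2 * π) = circleMap 0 ρ 0 := by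
    have := (periodic_circleMap (0 : ℂ) ρ) 0
    simpa using this
  rw [hper, sub_self, intervalIntegral.integral_const_mul] at hI
  have hI2 : ∫ t in (0 : ℝ)..2 * π, R.eval (zz h (circleMap 0 ρ t)) * T h (circleMap 0 ρ t) = 0 := by
    have hne : (-I : ℂ) ≠ 0 := by simp
    exact (mul_eq_zero.1 hI).resolve_left hne
  have hav : avg ρ (fun w => R.eval (zz h w) * T h w) = (2 * π)⁻¹ •
      ∫ t in (0 : ℝ)..2 * π, R.eval (zz h (circleMap 0 ρ t)) * T h (circleMap 0 ρ t) := rfl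
  rw [hav, hI2, smul_zero]

/-- Kovari-Pommerenke in the form of a circle average. -/
private lemma Conf.avg_Q_k (C : Conf K h g) {ρ : ℝ} {w₀ : ℂ} (hρ : 0 < ρ) (hρw : ρ < ‖w₀‖) (hw₁ : ‖w₀‖ < 1)
    (Q : ℂ[X]) :
    avg ρ (fun w => Q.eval (zz h w) * k h w (zz h w₀)) = Q.eval (zz h w₀) := by
  have hw₀ : w₀ ∈ ball (0 : ℂ) 1 := mem_ball_of_norm_lt hw₁
  have h0 : w₀ ≠ 0 := by
    rintro rfl
    rw [norm_zero] at hρw
    linarith
  have hρ1 : ρ < 1 := hρw.trans hw₁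
  set τ₀ := zz h w₀ with hτ₀
  set R : ℂ[X] := (Q - Polynomial.C (Q.eval τ₀)) /ₘ (X - Polynomial.C τ₀) with hR
  have hRmul : (X - Polynomial.C τ₀) * R = Q - Polynomial.C (Q.eval τ₀) := by
    rw [hR, mul_divByMonic_eq_iff_isRoot]
    simp [IsRoot]
  have hval : ∀ x : ℂ, Q.eval x = Q.eval τ₀ + (x - τ₀) * R.eval x := by
    intro x
    have := congrArg (Polynomial.eval x) hRmul
    simp only [eval_mul, eval_sub, eval_X, eval_C] at this
    rw [this]
    ring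
  have hkd := C.k_diff' hw₀ h0
  have hk1 : avg ρ (fun w => k h w τ₀) = 1 := by
    rw [avg_of_diff hρ hρw hkd, C.k_zero]
  have hcongr : avg ρ (fun w => Q.eval (zz h w) * k h w τ₀) =
      avg ρ (fun w => Q.eval τ₀ * k h w τ₀ + R.eval (zz h w) * T h w) := by
    apply Real.circleAverage_congr_sphere
    intro w hw
    have hw' := sphere_mem_abs hρ hw
    have hwb : w ∈ ball (0 : ℂ) 1 := by simpa [hw'] using hρ1
    have hw0 : w ≠ 0 := by
      rintro rfl
      rw [norm_zero] at hw'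
      exact hρ.ne hw'
    have hne : w ≠ w₀ := by
      rintro rfl
      rw [hw'] at hρw
      exact lt_irrefl _ hρw
    obtain ⟨e1, e2⟩ := C.k_eq' hw₀ h0 hwb hw0 hne
    simp only
    rw [hval (zz h w), e1, hτ₀]
    field_simp
  have hci1 : CircleIntegrable (fun w => Q.eval τ₀ * k h w τ₀) 0 ρ :=
    ci_of_diff hρ hρw (hkd.const_mul _)
  have hci2 : CircleIntegrable (fun w => R.eval (zz h w) * T h w) 0 ρ := by
    apply ContinuousOn.circleIntegrable hρ.le
    have h1 := sphere_sub hρ hρ1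
    exact (R.continuous.comp_continuousOn (C.contOn_zz.mono h1)).mul (C.contOn_T.mono h1)
  rw [hcongr, fb_avg_add hci1 hci2, fb_avg_const_mul, hk1, C.avg_poly_T hρ hρ1]
  ring

/-- The doubly stochastic kernel. -/
private noncomputable def Lam (h : ℂ → ℂ) (w₀ w : ℂ) : ℂ := 2 * k h w (zz h w₀) - (w₀ + w) / (w₀ - w)

private lemma Conf.Lam_diff (C : Conf K h g) {w₀ : ℂ} (hw₀ : w₀ ∈ ball (0 : ℂ) 1) (h0 : w₀ ≠ 0) :
    DifferentiableOn ℂ (Lam h w₀) (ball 0 ‖w₀‖) := by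
  apply DifferentiableOn.sub ((C.k_diff' hw₀ h0).const_mul _)
  apply DifferentiableOn.div (by fun_prop) (by fun_prop)
  intro w hw hz
  have : w = w₀ := by linear_combination -hz
  rw [this] at hw
  simp at hw

private lemma Conf.Lam_zero (C : Conf K h g) {w₀ : ℂ} (h0 : w₀ ≠ 0) : Lam h w₀ 0 = 1 := by
  simp only [Lam, C.k_zero]
  field_simp
  ring

private lemma Conf.avg_Lam (C : Conf K h g) {ρ : ℝ} {w₀ : ℂ} (hρ : 0 < ρ) (hρw : ρ < ‖w₀‖) (hw₁ : ‖w₀‖ < 1) :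
    avg ρ (Lam h w₀) = 1 := by
  have h0 : w₀ ≠ 0 := by
    rintro rfl
    rw [norm_zero] at hρw
    linarith
  rw [avg_of_diff hρ hρw (C.Lam_diff (mem_ball_of_norm_lt hw₁) h0), C.Lam_zero h0]

private lemma Conf.avg_re_Lam (C : Conf K h g) {ρ : ℝ} {w₀ : ℂ} (hρ : 0 < ρ) (hρw : ρ < ‖w₀‖)
    (hw₁ : ‖w₀‖ < 1) : avg ρ (fun w => (Lam h w₀ w).re) = 1 := by
  have h0 : w₀ ≠ 0 := by
    rintro rfl
    rw [norm_zero] at hρw
    linarith
  rw [fb_avg_re (ci_of_diff hρ hρw (C.Lam_diff (mem_ball_of_norm_lt hw₁) h0)), C.avg_Lam hρ hρw hw₁]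
  simp

/-- The first expression of `W` through the kernel. -/
private lemma Conf.avg_v_k (C : Conf K h g) {ρ : ℝ} {w₀ : ℂ} (hρ : 0 < ρ) (hρw : ρ < ‖w₀‖) (hw₁ : ‖w₀‖ < 1)
    {v Q : ℂ[X]} {W : ℂ → ℂ} (hWd : DifferentiableOn ℂ W (ball 0 1)) (hW0 : W 0 = 0)
    (hQ : ∀ w ∈ ball (0 : ℂ) 1, w ≠ 0 → Q.eval (zz h w) = v.eval w⁻¹ + W w) :
    avg ρ (fun w => v.eval w⁻¹ * k h w (zz h w₀)) = v.eval w₀⁻¹ + W w₀ := by
  have hw₀ : w₀ ∈ ball (0 : ℂ) 1 := mem_ball_of_norm_lt hw₁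
  have h0 : w₀ ≠ 0 := by
    rintro rfl
    rw [norm_zero] at hρw
    linarith
  have hρ1 : ρ < 1 := hρw.trans hw₁
  have hkd := C.k_diff' hw₀ h0
  have hsub : ball (0 : ℂ) ‖w₀‖ ⊆ ball 0 1 := ball_subset_ball hw₁.le
  have hWk : DifferentiableOn ℂ (fun w => W w * k h w (zz h w₀)) (ball 0 ‖w₀‖) :=
    (hWd.mono hsub).mul hkd
  have hWk0 : avg ρ (fun w => W w * k h w (zz h w₀)) = 0 := by
    rw [avg_of_diff hρ hρw hWk]
    simp [hW0]
  have hcongr : avg ρ (fun w => v.eval w⁻¹ * k h w (zz h w₀)) =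
      avg ρ (fun w => Q.eval (zz h w) * k h w (zz h w₀) - W w * k h w (zz h w₀)) := by
    apply Real.circleAverage_congr_sphere
    intro w hw
    have hw' := sphere_mem_abs hρ hw
    have hwb : w ∈ ball (0 : ℂ) 1 := by simpa [hw'] using hρ1
    have hw0 : w ≠ 0 := by
      rintro rfl
      rw [norm_zero] at hw'
      exact hρ.ne hw'
    simp only
    rw [hQ w hwb hw0]
    ring
  have hci1 : CircleIntegrable (fun w => Q.eval (zz h w) * k h w (zz h w₀)) 0 ρ := by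
    apply ContinuousOn.circleIntegrable hρ.le
    exact (Q.continuous.comp_continuousOn (C.contOn_zz.mono (sphere_sub hρ hρ1))).mul
      (hkd.continuousOn.mono (sphere_subset_ball hρw))
  rw [hcongr, fb_avg_sub hci1 (ci_of_diff hρ hρw hWk), hWk0, C.avg_Q_k hρ hρw hw₁, hQ w₀ hw₀ h0]
  ring

private lemma Conf.avg_v_Lam (C : Conf K h g) {ρ : ℝ} {w₀ : ℂ} (hρ : 0 < ρ) (hρw : ρ < ‖w₀‖) (hw₁ : ‖w₀‖ < 1)
    {v Q : ℂ[X]} {W : ℂ → ℂ} (hv : v.coeff 0 = 0) (hWd : DifferentiableOn ℂ W (ball 0 1))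
    (hW0 : W 0 = 0) (hQ : ∀ w ∈ ball (0 : ℂ) 1, w ≠ 0 → Q.eval (zz h w) = v.eval w⁻¹ + W w) :
    avg ρ (fun w => v.eval w⁻¹ * Lam h w₀ w) = 2 * W w₀ := by
  have hw₀ : w₀ ∈ ball (0 : ℂ) 1 := mem_ball_of_norm_lt hw₁
  have h0 : w₀ ≠ 0 := by
    rintro rfl
    rw [norm_zero] at hρw
    linarith
  have hkd := C.k_diff' hw₀ h0
  have he : (fun w => v.eval w⁻¹ * Lam h w₀ w) =
      fun w => 2 * (v.eval w⁻¹ * k h w (zz h w₀)) - v.eval w⁻¹ * ((w₀ + w) / (w₀ - w)) := by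
    ext w
    simp only [Lam]
    ring
  have hPd : DifferentiableOn ℂ (fun w : ℂ => (w₀ + w) / (w₀ - w)) (ball 0 ‖w₀‖) := by
    apply DifferentiableOn.div (by fun_prop) (by fun_prop)
    intro w hw hz
    have : w = w₀ := by linear_combination -hz
    rw [this] at hw
    simp at hw
  have hci1 : CircleIntegrable (fun w => 2 * (v.eval w⁻¹ * k h w (zz h w₀))) 0 ρ := by
    apply ContinuousOn.circleIntegrable hρ.le
    exact continuousOn_const.mul ((cont_inv_poly hρ v).mul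
      (hkd.continuousOn.mono (sphere_subset_ball hρw)))
  have hci2 : CircleIntegrable (fun w => v.eval w⁻¹ * ((w₀ + w) / (w₀ - w))) 0 ρ := by
    apply ContinuousOn.circleIntegrable hρ.le
    exact (cont_inv_poly hρ v).mul (hPd.continuousOn.mono (sphere_subset_ball hρw))
  rw [he, fb_avg_sub hci1 hci2, fb_avg_const_mul, C.avg_v_k hρ hρw hw₁ hWd hW0 hQ, avg_poisson hρ hρw hv]
  ring

private lemma Conf.avg_v_reLam (C : Conf K h g) {ρ : ℝ} {w₀ : ℂ} (hρ : 0 < ρ) (hρw : ρ < ‖w₀‖)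
    (hw₁ : ‖w₀‖ < 1) {v Q : ℂ[X]} {W : ℂ → ℂ} (hv : v.coeff 0 = 0)
    (hWd : DifferentiableOn ℂ W (ball 0 1)) (hW0 : W 0 = 0)
    (hQ : ∀ w ∈ ball (0 : ℂ) 1, w ≠ 0 → Q.eval (zz h w) = v.eval w⁻¹ + W w) :
    avg ρ (fun w => v.eval w⁻¹ * ((Lam h w₀ w).re : ℂ)) = W w₀ := by
  have hw₀ : w₀ ∈ ball (0 : ℂ) 1 := mem_ball_of_norm_lt hw₁
  have h0 : w₀ ≠ 0 := by
    rintro rfl
    rw [norm_zero] at hρw
    linarith
  have hLd := C.Lam_diff hw₀ h0
  have h1 := C.avg_v_Lam hρ hρw hw₁ hv hWd hW0 hQ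
  have h2 := avg_poly_conj hρ hρw hv hLd
  have he : (fun w => v.eval w⁻¹ * ((Lam h w₀ w).re : ℂ)) =
      fun w => (1 / 2 : ℂ) * (v.eval w⁻¹ * Lam h w₀ w + v.eval w⁻¹ * conj (Lam h w₀ w)) := by
    ext w
    rw [Complex.re_eq_add_conj]
    ring
  have hci1 : CircleIntegrable (fun w => v.eval w⁻¹ * Lam h w₀ w) 0 ρ := by
    apply ContinuousOn.circleIntegrable hρ.le
    exact (cont_inv_poly hρ v).mul (hLd.continuousOn.mono (sphere_subset_ball hρw))
  have hci2 : CircleIntegrable (fun w => v.eval w⁻¹ * conj (Lam h w₀ w)) 0 ρ := by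
    apply ContinuousOn.circleIntegrable hρ.le
    exact (cont_inv_poly hρ v).mul
      (Complex.continuous_conj.comp_continuousOn (hLd.continuousOn.mono (sphere_subset_ball hρw)))
  rw [he, fb_avg_const_mul, fb_avg_add hci1 hci2, h1, h2]
  ring

end kernel

section final

variable {K : Set ℂ} {h g : ℂ → ℂ}

private lemma Conf.re_Lam_nonneg (C : Conf K h g) {ρ : ℝ} {w₀ w : ℂ} (hρ : 0 < ρ) (hρw : ρ < ‖w₀‖)
    (hw₁ : ‖w₀‖ < 1) (hw : ‖w‖ = ρ) : 0 ≤ (Lam h w₀ w).re := by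
  obtain ⟨L, -, -, hL, hLe⟩ := C.exists_Lambda (r := ‖w₀‖) (hρ.trans hρw) hw₁ (w₀ := w₀) rfl
  have hwb : w ∈ ball (0 : ℂ) 1 := mem_ball_of_norm_lt (by rw [hw]; exact hρw.trans hw₁)
  have hne : w ≠ w₀ := by
    rintro rfl
    rw [hw] at hρw
    exact lt_irrefl _ hρw
  have := hL w (by rw [hw]; exact hρw.le)
  rwa [hLe w hwb hne] at this

/-- Jensen for a probability density on the circle. -/
private lemma avg_jensen {ρ : ℝ} (hρ : 0 < ρ) {f : ℂ → ℂ} {L : ℂ → ℝ}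
    (hf : ContinuousOn f (sphere 0 ρ)) (hL : ContinuousOn L (sphere 0 ρ))
    (hL0 : ∀ w, ‖w‖ = ρ → 0 ≤ L w) (hL1 : avg ρ L = 1) :
    ‖avg ρ (fun w => f w * (L w : ℂ))‖ ^ 2 ≤ avg ρ (fun w => ‖f w‖ ^ 2 * L w) := by
  set z := avg ρ (fun w => f w * (L w : ℂ)) with hz
  have hLc : ContinuousOn (fun w => (L w : ℂ)) (sphere 0 ρ) :=
    Complex.continuous_ofReal.comp_continuousOn hL
  have hfL : ContinuousOn (fun w => f w * (L w : ℂ)) (sphere 0 ρ) := hf.mul hLc
  have hci : CircleIntegrable (fun w => conj z * (f w * (L w : ℂ))) 0 ρ :=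
    ContinuousOn.circleIntegrable hρ.le (continuousOn_const.mul hfL)
  have h1 : ‖z‖ ^ 2 = avg ρ (fun w => (conj z * (f w * (L w : ℂ))).re) := by
    rw [fb_avg_re hci, fb_avg_const_mul, ← hz]
    rw [Complex.sq_norm, Complex.normSq_apply]
    simp only [mul_re, conj_re, conj_im]
    ring
  have hF : ContinuousOn (fun w => ‖f w‖ ^ 2 * L w) (sphere 0 ρ) := (hf.norm.pow 2).mul hL
  have h2 : avg ρ (fun w => (conj z * (f w * (L w : ℂ))).re) ≤
      avg ρ (fun w => (1 / 2 : ℝ) * (‖z‖ ^ 2 * L w + ‖f w‖ ^ 2 * L w)) := by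
    apply Real.circleAverage_mono
    · exact ContinuousOn.circleIntegrable hρ.le
        (Complex.continuous_re.comp_continuousOn (continuousOn_const.mul hfL))
    · apply ContinuousOn.circleIntegrable hρ.le
      exact continuousOn_const.mul ((continuousOn_const.mul hL).add hF)
    · intro w hw
      have hw' : ‖w‖ = ρ := sphere_mem_abs hρ hw
      have hL' := hL0 w hw'
      have e1 : (conj z * (f w * (L w : ℂ))).re = L w * (conj z * f w).re := by
        simp only [mul_re, mul_im, conj_re, conj_im, ofReal_re, ofReal_im]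
        ring
      have e2 : (conj z * f w).re ≤ (1 / 2 : ℝ) * (‖z‖ ^ 2 + ‖f w‖ ^ 2) := by
        rw [Complex.sq_norm, Complex.sq_norm, Complex.normSq_apply, Complex.normSq_apply]
        simp only [mul_re, conj_re, conj_im]
        nlinarith [sq_nonneg (z.re - (f w).re), sq_nonneg (z.im - (f w).im)]
      rw [e1]
      nlinarith [mul_le_mul_of_nonneg_left e2 hL']
  have h3 : avg ρ (fun w => (1 / 2 : ℝ) * (‖z‖ ^ 2 * L w + ‖f w‖ ^ 2 * L w)) =
      (1 / 2 : ℝ) * (‖z‖ ^ 2 + avg ρ (fun w => ‖f w‖ ^ 2 * L w)) := by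
    have hci1 : CircleIntegrable (fun w => ‖z‖ ^ 2 * L w) 0 ρ :=
      ContinuousOn.circleIntegrable hρ.le (continuousOn_const.mul hL)
    have hci2 : CircleIntegrable (fun w => ‖f w‖ ^ 2 * L w) 0 ρ :=
      ContinuousOn.circleIntegrable hρ.le hF
    have e1 : avg ρ (fun w => (1 / 2 : ℝ) * (‖z‖ ^ 2 * L w + ‖f w‖ ^ 2 * L w)) =
        (1 / 2 : ℝ) * avg ρ (fun w => ‖z‖ ^ 2 * L w + ‖f w‖ ^ 2 * L w) :=
      avg_const_mul_real _ _
    have e3 : avg ρ (fun w => ‖z‖ ^ 2 * L w + ‖f w‖ ^ 2 * L w) =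
        avg ρ (fun w => ‖z‖ ^ 2 * L w) + avg ρ (fun w => ‖f w‖ ^ 2 * L w) :=
      Real.circleAverage_fun_add hci1 hci2
    have e2 : avg ρ (fun w => ‖z‖ ^ 2 * L w) = ‖z‖ ^ 2 * avg ρ L :=
      avg_const_mul_real _ _
    rw [e1, e3, e2, hL1, mul_one]
  rw [h3] at h2
  rw [h1] at *
  linarith

/-- Change of the order in a double circle average. -/
private lemma avg_swap {G : ℂ → ℂ → ℝ} {r ρ : ℝ}
    (hG : Continuous (fun p : ℝ × ℝ => G (circleMap 0 r p.1) (circleMap 0 ρ p.2))) :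
    avg r (fun w₀ => avg ρ (G w₀)) = avg ρ (fun w => avg r (fun w₀ => G w₀ w)) := by
  have e1 : avg r (fun w₀ => avg ρ (G w₀)) = (2 * π)⁻¹ • ∫ φ in (0 : ℝ)..2 * π, (2 * π)⁻¹ •
      ∫ θ in (0 : ℝ)..2 * π, G (circleMap 0 r φ) (circleMap 0 ρ θ) := rfl
  have e2 : avg ρ (fun w => avg r (fun w₀ => G w₀ w)) = (2 * π)⁻¹ • ∫ θ in (0 : ℝ)..2 * π, (2 * π)⁻¹ •
      ∫ φ in (0 : ℝ)..2 * π, G (circleMap 0 r φ) (circleMap 0 ρ θ) := rfl
  rw [e1, e2, intervalIntegral.integral_smul, intervalIntegral.integral_smul]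
  rw [MeasureTheory.intervalIntegral_intervalIntegral_swap]
  exact MeasureTheory.IntegrableOn.mono_set
    (ContinuousOn.integrableOn_compact (isCompact_uIcc.prod isCompact_uIcc) hG.continuousOn)
    (prod_mono uIoc_subset_uIcc uIoc_subset_uIcc)

/-- The average in the other variable: the doubly stochastic identity. -/
private lemma Conf.avg_dual (C : Conf K h g) {ρ r : ℝ} {w : ℂ} (hρ : 0 < ρ) (hρr : ρ < r) (hr1 : r < 1)
    (hw : ‖w‖ = ρ) : avg r (fun w₀ => (Lam h w₀ w).re) = 1 := by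
  have hr : 0 < r := hρ.trans hρr
  have hwb : w ∈ ball (0 : ℂ) 1 := mem_ball_of_norm_lt (by rw [hw]; exact hρr.trans hr1)
  have hw0 : w ≠ 0 := by
    rintro rfl
    rw [norm_zero] at hw
    exact hρ.ne hw
  have hball : ball (0 : ℂ) 1 ∈ 𝓝 w := isOpen_ball.mem_nhds hwb
  set S : ℂ → ℂ := dslope h w with hS
  have hSd : DifferentiableOn ℂ S (ball 0 1) := (Complex.differentiableOn_dslope hball).mpr C.diff
  have hSne : ∀ x ∈ ball (0 : ℂ) 1, S x ≠ 0 := by
    intro x hx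
    by_cases hxw : x = w
    · rw [hxw, hS, dslope_same]
      exact C.deriv_ne w hwb
    · rw [hS, dslope_of_ne _ hxw, slope_def_field]
      apply div_ne_zero
      · intro he
        exact hxw (C.inj hx hwb (sub_eq_zero.mp he))
      · exact sub_ne_zero.mpr hxw
  set N : ℂ → ℂ := fun x => 2 * (q h w * h x / S x) - x - w with hN
  have hNd : DifferentiableOn ℂ N (ball 0 1) :=
    (((differentiableOn_const _).mul (((differentiableOn_const _).mul C.diff).div hSd hSne)).sub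
      differentiableOn_id).sub (differentiableOn_const _)
  have hNw : N w = 0 := by
    simp only [hN]
    have h1 : S w = deriv h w := by rw [hS, dslope_same]
    rw [h1, C.q_eq hwb hw0]
    have h2 := C.deriv_ne w hwb
    have h3 := C.h_ne_zero hwb hw0
    field_simp
    ring
  set E : ℂ → ℂ := dslope N w with hE
  have hEd : DifferentiableOn ℂ E (ball 0 1) := (Complex.differentiableOn_dslope hball).mpr hNd
  have hE0 : E 0 = 1 := by
    rw [hE, dslope_of_ne _ (Ne.symm hw0), slope_def_field, hNw]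
    simp only [hN, C.zero]
    field_simp
    simp
  have hEL : ∀ x ∈ ball (0 : ℂ) 1, x ≠ 0 → x ≠ w → Lam h x w = E x := by
    intro x hx hx0 hxw
    have hSx := hSne x hx
    have hh := C.h_ne_zero hx hx0
    have hsub : x - w ≠ 0 := sub_ne_zero.mpr hxw
    have hden := C.denom_ne hx hx0 hwb (Ne.symm hxw)
    have hSx' : S x = (h x - h w) / (x - w) := by
      rw [hS, dslope_of_ne _ hxw, slope_def_field]
    have hdiff : h x - h w ≠ 0 := by
      intro he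
      exact hxw (C.inj hx hwb (sub_eq_zero.mp he))
    rw [hE, dslope_of_ne _ hxw, slope_def_field, hNw]
    simp only [Lam, k, zz, hN, hSx']
    have e1 : (1 : ℂ) - (h x)⁻¹ * h w = (h x - h w) / h x := by
      field_simp
    rw [e1]
    field_simp
    ring
  have hEcont : ContinuousOn E (sphere 0 r) :=
    hEd.continuousOn.mono (sphere_subset_ball hr1)
  have hcongr : avg r (fun w₀ => (Lam h w₀ w).re) = avg r (fun w₀ => (E w₀).re) := by
    apply Real.circleAverage_congr_sphere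
    intro x hx
    have hx' := sphere_mem_abs hr hx
    have hxb : x ∈ ball (0 : ℂ) 1 := mem_ball_of_norm_lt (by rw [hx']; exact hr1)
    have hx0 : x ≠ 0 := by
      rintro rfl
      rw [norm_zero] at hx'
      exact hr.ne hx'
    have hxw : x ≠ w := by
      rintro rfl
      rw [hx', ] at hw
      rw [hw] at hρr
      exact lt_irrefl _ hρr
    simp only
    rw [hEL x hxb hx0 hxw]
  rw [hcongr, fb_avg_re (ContinuousOn.circleIntegrable hr.le hEcont),
    avg_of_diff hr hr1 hEd, hE0]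
  simp

/-- Joint continuity of the kernel on a product of circles. -/
private lemma Conf.cont_Lam (C : Conf K h g) {ρ r : ℝ} (hρ : 0 < ρ) (hρr : ρ < r) (hr1 : r < 1) :
    Continuous (fun p : ℝ × ℝ => Lam h (circleMap 0 r p.1) (circleMap 0 ρ p.2)) := by
  have hr : 0 < r := hρ.trans hρr
  have hρ1 : ρ < 1 := hρr.trans hr1
  have c1 : Continuous (fun p : ℝ × ℝ => circleMap 0 r p.1) :=
    (continuous_circleMap 0 r).comp continuous_fst
  have c2 : Continuous (fun p : ℝ × ℝ => circleMap 0 ρ p.2) :=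
    (continuous_circleMap 0 ρ).comp continuous_snd
  have hb1 : ∀ p : ℝ × ℝ, circleMap 0 r p.1 ∈ ball (0 : ℂ) 1 := fun p => (circle_mem hr hr1 p.1).1
  have hb2 : ∀ p : ℝ × ℝ, circleMap 0 ρ p.2 ∈ ball (0 : ℂ) 1 := fun p => (circle_mem hρ hρ1 p.2).1
  have hne1 : ∀ p : ℝ × ℝ, circleMap 0 r p.1 ≠ 0 := fun p => circleMap_ne_center hr.ne'
  have hne2 : ∀ p : ℝ × ℝ, circleMap 0 r p.1 ≠ circleMap 0 ρ p.2 := by
    intro p he
    have := congrArg norm he
    rw [norm_circleMap_zero, norm_circleMap_zero, abs_of_pos hr, abs_of_pos hρ] at this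
    exact hρr.ne' this
  have hh1 : Continuous (fun p : ℝ × ℝ => h (circleMap 0 r p.1)) :=
    C.diff.continuousOn.comp_continuous c1 hb1
  have hh2 : Continuous (fun p : ℝ × ℝ => h (circleMap 0 ρ p.2)) :=
    C.diff.continuousOn.comp_continuous c2 hb2
  have hq2 : Continuous (fun p : ℝ × ℝ => q h (circleMap 0 ρ p.2)) :=
    C.q_diff.continuousOn.comp_continuous c2 hb2
  have hz : Continuous (fun p : ℝ × ℝ => zz h (circleMap 0 r p.1)) :=
    hh1.inv₀ (fun p => C.h_ne_zero (hb1 p) (hne1 p))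
  unfold Lam k
  refine Continuous.sub (continuous_const.mul (hq2.div (continuous_const.sub (hz.mul hh2)) ?_))
    ((c1.add c2).div (c1.sub c2) ?_)
  · intro p
    exact C.denom_ne (hb1 p) (hne1 p) (hb2 p) (hne2 p).symm
  · intro p
    exact sub_ne_zero.mpr (hne2 p)

/-- The key estimate for a radius below the given one. -/
private lemma Conf.faber_bound_aux (C : Conf K h g) {ρ r : ℝ} (hρ : 0 < ρ) (hρr : ρ < r) (hr1 : r < 1)
    {v Q : ℂ[X]} {W : ℂ → ℂ} (hv : v.coeff 0 = 0) (hWd : DifferentiableOn ℂ W (ball 0 1))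
    (hW0 : W 0 = 0) (hQ : ∀ w ∈ ball (0 : ℂ) 1, w ≠ 0 → Q.eval (zz h w) = v.eval w⁻¹ + W w) :
    avg r (fun w => ‖W w‖ ^ 2) ≤ avg ρ (fun w => ‖v.eval w⁻¹‖ ^ 2) := by
  have hr : 0 < r := hρ.trans hρr
  set F : ℂ → ℝ := fun w => ‖v.eval w⁻¹‖ ^ 2 with hF
  set G : ℂ → ℂ → ℝ := fun w₀ w => F w * (Lam h w₀ w).re with hG
  have hFc : ContinuousOn F (sphere 0 ρ) := (cont_inv_poly hρ v).norm.pow 2
  have hc2 : Continuous (fun θ : ℝ => F (circleMap 0 ρ θ)) :=
    hFc.comp_continuous (continuous_circleMap 0 ρ) (fun θ => by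
      simp [abs_of_pos hρ])
  have hGc : Continuous (fun p : ℝ × ℝ => G (circleMap 0 r p.1) (circleMap 0 ρ p.2)) :=
    (hc2.comp continuous_snd).mul (Complex.continuous_re.comp (C.cont_Lam hρ hρr hr1))
  have hmem : ∀ {w₀ : ℂ}, w₀ ∈ sphere (0 : ℂ) |r| → ‖w₀‖ = r := fun hw => sphere_mem_abs hr hw
  have step1 : avg r (fun w => ‖W w‖ ^ 2) ≤ avg r (fun w₀ => avg ρ (G w₀)) := by
    apply Real.circleAverage_mono
    · apply ContinuousOn.circleIntegrable hr.le
      exact ((hWd.continuousOn.mono (sphere_subset_ball hr1)).norm.pow 2)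
    · have : Continuous (fun φ : ℝ => avg ρ (G (circleMap 0 r φ))) := by
        have h1 : Continuous (Function.uncurry (fun φ θ : ℝ =>
            G (circleMap 0 r φ) (circleMap 0 ρ θ))) := hGc
        have h2 : Continuous (fun φ : ℝ => (2 * π)⁻¹ • ∫ θ in (0 : ℝ)..2 * π,
            G (circleMap 0 r φ) (circleMap 0 ρ θ)) :=
          Continuous.const_smul (intervalIntegral.continuous_parametric_intervalIntegral_of_continuous'
            (μ := MeasureTheory.volume) h1 0 (2 * π)) ((2 * π)⁻¹ : ℝ)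
        exact h2
      exact this.intervalIntegrable _ _
    · intro w₀ hw₀
      have hw₀' := hmem hw₀
      have hρw : ρ < ‖w₀‖ := by rw [hw₀']; exact hρr
      have hw₁ : ‖w₀‖ < 1 := by rw [hw₀']; exact hr1
      have h0 : w₀ ≠ 0 := by
        rintro rfl
        rw [norm_zero] at hw₀'
        exact hr.ne hw₀'
      have hLd := C.Lam_diff (mem_ball_of_norm_lt hw₁) h0
      have hLc : ContinuousOn (fun w => (Lam h w₀ w).re) (sphere 0 ρ) :=
        Complex.continuous_re.comp_continuousOn (hLd.continuousOn.mono (sphere_subset_ball hρw))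
      have hj := avg_jensen hρ (cont_inv_poly hρ v) hLc
        (fun w hw => C.re_Lam_nonneg hρ hρw hw₁ hw) (C.avg_re_Lam hρ hρw hw₁)
      rwa [C.avg_v_reLam hρ hρw hw₁ hv hWd hW0 hQ] at hj
  refine step1.trans (le_of_eq ?_)
  rw [avg_swap hGc]
  apply Real.circleAverage_congr_sphere
  intro w hw
  have hw' := sphere_mem_abs hρ hw
  simp only [hG]
  have h1 : avg r (fun w₀ => F w * (Lam h w₀ w).re) = F w * avg r (fun w₀ => (Lam h w₀ w).re) :=
    avg_const_mul_real _ _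
  rw [h1, C.avg_dual hρ hρr hr1 hw', mul_one]

/-- F2: the key contraction. -/
theorem Conf.faber_bound (C : Conf K h g) {r : ℝ} (hr : 0 < r) (hr1 : r < 1) {v Q : ℂ[X]}
    {W : ℂ → ℂ} (hv : v.coeff 0 = 0) (hWd : DifferentiableOn ℂ W (ball 0 1)) (hW0 : W 0 = 0)
    (hQ : ∀ w ∈ ball (0 : ℂ) 1, w ≠ 0 → Q.eval (zz h w) = v.eval w⁻¹ + W w) :
    avg r (fun w => ‖W w‖ ^ 2) ≤ avg r (fun w => ‖v.eval w⁻¹‖ ^ 2) := by
  have hc : ContinuousOn (fun w : ℂ => ‖v.eval w⁻¹‖ ^ 2) {z : ℂ | ‖z - 0‖ ∈ Ioi (0 : ℝ)} := by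
    have h1 : ContinuousOn (fun w : ℂ => w⁻¹) {z : ℂ | ‖z - 0‖ ∈ Ioi (0 : ℝ)} := by
      apply continuousOn_inv₀.mono
      intro z hz
      have hz' : (0 : ℝ) < ‖z - 0‖ := hz
      rw [sub_zero, norm_pos_iff] at hz'
      exact hz'
    exact ((v.continuous.comp_continuousOn h1).norm).pow 2
  have hcc : ContinuousOn (Real.circleAverage (fun w : ℂ => ‖v.eval w⁻¹‖ ^ 2) 0) (Ioi 0) :=
    Real.ContinuousOn.circleAverage hc (fun _ hr' => le_of_lt hr')
  have ht : Tendsto (Real.circleAverage (fun w : ℂ => ‖v.eval w⁻¹‖ ^ 2) 0) (𝓝[<] r)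
      (𝓝 (Real.circleAverage (fun w : ℂ => ‖v.eval w⁻¹‖ ^ 2) 0 r)) := by
    have h1 : ContinuousAt (Real.circleAverage (fun w : ℂ => ‖v.eval w⁻¹‖ ^ 2) 0) r :=
      hcc.continuousAt (Ioi_mem_nhds hr)
    exact h1.tendsto.mono_left nhdsWithin_le_nhds
  apply ge_of_tendsto ht
  filter_upwards [Ioo_mem_nhdsLT hr] with ρ hρ
  exact C.faber_bound_aux hρ.1 hρ.2 hr1 hv hWd hW0 hQ

end final


end Vale.Agent.P123C
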