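import Vale.Agent.P123C.Basic

/-! F1: the Faber decomposition, by induction with `dslope` (no Laurent theory). -/

open Complex Metric Set Filter Topology Polynomial
open scoped Real

namespace Vale.Agent.P123C

variable {K : Set ℂ} {h g : ℂ → ℂ}

/-- For `G` analytic on the disc, `G w * w^{-n}` is a polynomial in `zz h w`, up to an analytic
function vanishing at `0`. -/
theorem Conf.faber_aux (C : Conf K h g) (n : ℕ) :
    ∀ G : ℂ → ℂ, DifferentiableOn ℂ G (ball 0 1) →
      ∃ (Q : ℂ[X]) (W : ℂ → ℂ), DifferentiableOn ℂ W (ball 0 1) ∧ W 0 = 0 ∧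
        ∀ w ∈ ball (0 : ℂ) 1, w ≠ 0 → G w * (w⁻¹) ^ n = Q.eval (zz h w) + W w := by
  induction n with
  | zero =>
    intro G hG
    refine ⟨Polynomial.C (G 0), fun w => G w - G 0, hG.sub (differentiableOn_const _), by simp, ?_⟩
    intro w _ _
    simp
  | succ n ih =>
    intro G hG
    obtain ⟨F, hFd, hFne, -, hFeq⟩ := C.exists_wz
    have hF0 : F 0 ≠ 0 := hFne 0 (mem_ball_self one_pos)
    set c : ℂ := G 0 / F 0 ^ (n + 1) with hc
    set D : ℂ → ℂ := fun w => G w - c * F w ^ (n + 1) with hD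
    have hDd : DifferentiableOn ℂ D (ball 0 1) :=
      hG.sub ((differentiableOn_const _).mul (hFd.pow _))
    have hD0 : D 0 = 0 := by
      simp only [hD, hc]
      field_simp
      ring
    have hG1 : DifferentiableOn ℂ (dslope D 0) (ball 0 1) :=
      (Complex.differentiableOn_dslope (ball_mem_nhds _ one_pos)).2 hDd
    obtain ⟨Q1, W1, hW1d, hW10, hW1⟩ := ih (dslope D 0) hG1
    refine ⟨Polynomial.C c * X ^ (n + 1) + Q1, W1, hW1d, hW10, ?_⟩
    intro w hw h0
    have h1 := hW1 w hw h0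
    have h2 : dslope D 0 w = D w / w := by
      rw [dslope_of_ne _ h0, slope_def_field, hD0]
      simp
    rw [h2] at h1
    have h3 : F w = w * zz h w := hFeq w hw h0
    simp only [eval_add, eval_mul, eval_C, eval_pow, eval_X]
    rw [add_assoc, ← h1]
    have h4 : w ^ (n + 1) * (w⁻¹) ^ (n + 1) = 1 := by
      rw [← mul_pow, mul_inv_cancel₀ h0, one_pow]
    have h5 : D w = G w - c * (w ^ (n + 1) * zz h w ^ (n + 1)) := by
      simp only [hD, h3, mul_pow]
    have h6 : D w / w * (w⁻¹) ^ n = D w * (w⁻¹) ^ (n + 1) := by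
      rw [pow_succ, div_eq_mul_inv]
      ring
    rw [h6, h5]
    linear_combination (c * zz h w ^ (n + 1)) * h4

/-- F1: Faber decomposition. -/
theorem Conf.faber_exists' (C : Conf K h g) (v : ℂ[X]) :
    ∃ (Q : ℂ[X]) (W : ℂ → ℂ), DifferentiableOn ℂ W (ball 0 1) ∧ W 0 = 0 ∧
      ∀ w ∈ ball (0 : ℂ) 1, w ≠ 0 → Q.eval (zz h w) = v.eval w⁻¹ + W w := by
  induction v using Polynomial.induction_on' with
  | add p q hp hq =>
    obtain ⟨Q1, W1, h1, h2, h3⟩ := hp
    obtain ⟨Q2, W2, h4, h5, h6⟩ := hq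
    refine ⟨Q1 + Q2, fun w => W1 w + W2 w, h1.add h4, by simp [h2, h5], ?_⟩
    intro w hw h0
    simp only [eval_add]
    rw [h3 w hw h0, h6 w hw h0]
    ring
  | monomial n a =>
    obtain ⟨Q, W, h1, h2, h3⟩ := C.faber_aux n (fun _ => a) (differentiableOn_const _)
    refine ⟨Q, fun w => - W w, h1.neg, by simp [h2], ?_⟩
    intro w hw h0
    have := h3 w hw h0
    simp only [eval_monomial]
    rw [this]
    ring

end Vale.Agent.P123C
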