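import Vale.Agent.P123C.Chord

/-! Piece of MODULE F2: the analytic function `Λ = 2 k₀ - (w₀ + w)/(w₀ - w)` on the disc has nonnegative
real part on `‖w‖ ≤ r` (removable singularity at `w₀`, chord positivity on the circle, minimum
principle). -/

open Complex Metric Set Filter Topology
open scoped Real ComplexConjugate

namespace Vale.Agent.P123C

variable {K : Set ℂ} {h g : ℂ → ℂ}

/-- A unimodular curve through `1`, avoiding `1` except at `t = 0`. -/
private lemma unimod_curve (t : ℝ) : ‖(1 + I * t) / (1 - I * t)‖ = 1 := by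
  have h1 : ‖(1 : ℂ) - I * t‖ = ‖(1 : ℂ) + I * t‖ := by
    have : (1 : ℂ) - I * t = conj (1 + I * t) := by
      simp [map_add, map_mul, Complex.conj_I, Complex.conj_ofReal]
      ring
    rw [this, Complex.norm_conj]
  have h2 : (1 : ℂ) + I * t ≠ 0 := by
    intro he
    have := congrArg Complex.re he
    simp at this
  rw [norm_div, h1, div_self (norm_ne_zero_iff.mpr h2)]

private lemma unimod_den (t : ℝ) : (1 : ℂ) - I * t ≠ 0 := by
  intro he
  have := congrArg Complex.re he
  simp at this

private lemma re_cayley {a b : ℂ} (hab : ‖b‖ = ‖a‖) (hne : b ≠ a) : ((a + b) / (a - b)).re = 0 := by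
  have hsub : a - b ≠ 0 := sub_ne_zero.mpr (Ne.symm hne)
  rw [Complex.div_re]
  have hns : Complex.normSq (a - b) ≠ 0 := by simpa using hsub
  have key : (a + b).re * (a - b).re + (a + b).im * (a - b).im = 0 := by
    have h2 : Complex.normSq b = Complex.normSq a := by
      rw [Complex.normSq_eq_norm_sq, Complex.normSq_eq_norm_sq, hab]
    simp only [Complex.normSq_apply] at h2
    simp only [add_re, sub_re, add_im, sub_im]
    nlinarith
  field_simp
  linarith

/-- The key analytic function in `faber_bound`. -/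
theorem Conf.exists_Lambda (C : Conf K h g) {r : ℝ} (hr : 0 < r) (hr1 : r < 1) {w₀ : ℂ}
    (hw0 : ‖w₀‖ = r) :
    ∃ L : ℂ → ℂ, DifferentiableOn ℂ L (ball 0 1) ∧ L 0 = 1 ∧ (∀ w : ℂ, ‖w‖ ≤ r → 0 ≤ (L w).re) ∧
      ∀ w ∈ ball (0 : ℂ) 1, w ≠ w₀ → L w = 2 * k h w (zz h w₀) - (w₀ + w) / (w₀ - w) := by
  have hw00 : w₀ ≠ 0 := by
    intro he
    rw [he, norm_zero] at hw0
    linarith
  have hw0b : w₀ ∈ ball (0 : ℂ) 1 := by
    rw [mem_ball_zero_iff, hw0]; exact hr1
  have hball : ball (0 : ℂ) 1 ∈ 𝓝 w₀ := isOpen_ball.mem_nhds hw0b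
  have hu0 : h w₀ ≠ 0 := C.h_ne_zero hw0b hw00
  set u₀ := h w₀ with hu0def
  set D : ℂ → ℂ := dslope h w₀ with hD
  have hDd : DifferentiableOn ℂ D (ball 0 1) :=
    (Complex.differentiableOn_dslope hball).mpr C.diff
  have hDne : ∀ w ∈ ball (0 : ℂ) 1, D w ≠ 0 := by
    intro w hw
    by_cases hww : w = w₀
    · rw [hww, hD, dslope_same]
      exact C.deriv_ne w₀ hw0b
    · rw [hD, dslope_of_ne _ hww, slope_def_field]
      apply div_ne_zero
      · intro he
        exact hww (C.inj hw hw0b (sub_eq_zero.mp he))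
      · exact sub_ne_zero.mpr hww
  set A : ℂ → ℂ := fun w => q h w * u₀ / D w with hA
  have hAd : DifferentiableOn ℂ A (ball 0 1) :=
    (C.q_diff.mul (differentiableOn_const _)).div hDd hDne
  have hAw0 : A w₀ = w₀ := by
    simp only [hA]
    have h1 : D w₀ = deriv h w₀ := by rw [hD, dslope_same]
    rw [h1, C.q_eq hw0b hw00]
    have := C.deriv_ne w₀ hw0b
    field_simp
    exact div_self hu0
  -- relation with `k`
  have hkA : ∀ w ∈ ball (0 : ℂ) 1, w ≠ w₀ → k h w (zz h w₀) = A w / (w₀ - w) := by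
    intro w hw hww
    have hD' : D w = (h w - u₀) / (w - w₀) := by
      rw [hD, dslope_of_ne _ hww, slope_def_field]
    have hsub : w - w₀ ≠ 0 := sub_ne_zero.mpr hww
    have hsub' : w₀ - w ≠ 0 := sub_ne_zero.mpr (Ne.symm hww)
    have hDw := hDne w hw
    have hhsub : h w - u₀ ≠ 0 := by
      intro he
      exact hww (C.inj hw hw0b (sub_eq_zero.mp he))
    simp only [k, hA, zz]
    rw [hD']
    have h1 : (1 : ℂ) - u₀⁻¹ * h w = (u₀ - h w) / u₀ := by
      field_simp
    rw [h1]
    have hus : u₀ - h w ≠ 0 := by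
      intro he
      apply hhsub
      linear_combination -he
    have h2 : w₀ - w = -(w - w₀) := by ring
    have h3 : u₀ - h w = -(h w - u₀) := by ring
    rw [h2, h3]
    field_simp
  set N : ℂ → ℂ := fun w => 2 * A w - w₀ - w with hN
  have hNd : DifferentiableOn ℂ N (ball 0 1) :=
    (((differentiableOn_const _).mul hAd).sub (differentiableOn_const _)).sub differentiableOn_id
  have hNw0 : N w₀ = 0 := by
    simp only [hN, hAw0]; ring
  set L : ℂ → ℂ := fun w => -dslope N w₀ w with hL
  have hLd : DifferentiableOn ℂ L (ball 0 1) :=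
    ((Complex.differentiableOn_dslope hball).mpr hNd).neg
  have hLeq : ∀ w ∈ ball (0 : ℂ) 1, w ≠ w₀ → L w = 2 * k h w (zz h w₀) - (w₀ + w) / (w₀ - w) := by
    intro w hw hww
    have hsub : w - w₀ ≠ 0 := sub_ne_zero.mpr hww
    have hsub' : w₀ - w ≠ 0 := sub_ne_zero.mpr (Ne.symm hww)
    simp only [hL]
    rw [dslope_of_ne _ hww, slope_def_field, hNw0, hkA w hw hww]
    simp only [hN]
    have h2 : w - w₀ = -(w₀ - w) := by ring
    rw [h2]
    field_simp
    ring
  have h0b : (0 : ℂ) ∈ ball (0 : ℂ) 1 := mem_ball_self one_pos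
  have hL0 : L 0 = 1 := by
    rw [hLeq 0 h0b (Ne.symm hw00), C.k_zero]
    have : (w₀ + 0) / (w₀ - 0) = 1 := by
      rw [add_zero, sub_zero, div_self hw00]
    rw [this]
    norm_num
  -- positivity on the sphere, away from `w₀`
  have hpos1 : ∀ w : ℂ, ‖w‖ = r → w ≠ w₀ → 0 ≤ (L w).re := by
    intro w hw hww
    have hwb : w ∈ ball (0 : ℂ) 1 := by
      rw [mem_ball_zero_iff, hw]; exact hr1
    have hw0' : w ≠ 0 := by
      intro he
      rw [he, norm_zero] at hw
      linarith
    rw [hLeq w hwb hww]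
    have hre0 : ((w₀ + w) / (w₀ - w)).re = 0 := re_cayley (by rw [hw, hw0]) hww
    simp only [sub_re, hre0, sub_zero]
    -- chord positivity with `lam = w₀ / w`
    have hlam : ‖w₀ / w‖ = 1 := by
      rw [norm_div, hw, hw0, div_self hr.ne']
    have hlam1 : w₀ / w ≠ 1 := by
      intro he
      apply hww
      rw [div_eq_one_iff_eq hw0'] at he
      exact he.symm
    have hchord := C.re_chord_nonneg hwb hw0' hlam hlam1
    have hmul : w₀ / w * w = w₀ := by field_simp
    rw [hmul] at hchord
    have huw := C.h_ne_zero hwb hw0'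
    have hk : k h w (zz h w₀) = T h w / (zz h w - zz h w₀) := by
      simp only [k, T, zz]
      have h1 : (h w)⁻¹ - (h w₀)⁻¹ = (1 - (h w₀)⁻¹ * h w) / h w := by
        field_simp
      rw [h1]
      by_cases h1' : (1 : ℂ) - (h w₀)⁻¹ * h w = 0
      · simp [h1']
      · field_simp
    rw [hk]
    have h2 : (2 * (T h w / (zz h w - zz h w₀))).re = 2 * (T h w / (zz h w - zz h w₀)).re := by
      simp
    rw [h2]
    linarith
  -- positivity at `w₀` by continuity
  have hpos2 : 0 ≤ (L w₀).re := by
    have hcont : ContinuousAt L w₀ := (hLd.differentiableAt hball).continuousAt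
    set γ : ℝ → ℂ := fun t => w₀ * ((1 + I * t) / (1 - I * t)) with hγ
    have hγ0 : γ 0 = w₀ := by simp [hγ]
    have hγc : ContinuousAt γ 0 := by
      have hden : (1 : ℂ) - I * ((0 : ℝ) : ℂ) ≠ 0 := unimod_den 0
      simp only [hγ]
      apply ContinuousAt.mul continuousAt_const
      apply ContinuousAt.div
      · fun_prop
      · fun_prop
      · exact hden
    have htend : Tendsto (fun t => (L (γ t)).re) (𝓝[≠] 0) (𝓝 (L w₀).re) := by
      have h1 : Tendsto γ (𝓝[≠] 0) (𝓝 w₀) := by
        have := hγc.tendsto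
        rw [hγ0] at this
        exact this.mono_left nhdsWithin_le_nhds
      exact Complex.continuous_re.continuousAt.tendsto.comp (hcont.tendsto.comp h1)
    refine ge_of_tendsto htend ?_
    filter_upwards [self_mem_nhdsWithin] with t ht
    have ht0 : t ≠ 0 := ht
    apply hpos1
    · simp only [hγ]
      rw [norm_mul, unimod_curve, mul_one, hw0]
    · simp only [hγ]
      intro he
      have h1 : (1 + I * t) / (1 - I * t) = 1 := by
        have : w₀ * ((1 + I * t) / (1 - I * t)) = w₀ * 1 := by rw [he, mul_one]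
        exact mul_left_cancel₀ hw00 this
      rw [div_eq_one_iff_eq (unimod_den t)] at h1
      have h2 := congrArg Complex.im h1
      simp at h2
      apply ht0
      linarith
  have hposS : ∀ w : ℂ, ‖w‖ = r → 0 ≤ (L w).re := by
    intro w hw
    by_cases hww : w = w₀
    · rw [hww]; exact hpos2
    · exact hpos1 w hw hww
  -- minimum principle
  have hmin : ∀ w : ℂ, ‖w‖ ≤ r → 0 ≤ (L w).re := by
    intro w hw
    have hsub : closedBall (0 : ℂ) r ⊆ ball 0 1 := by
      intro z hz
      rw [mem_closedBall_zero_iff] at hz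
      rw [mem_ball_zero_iff]
      linarith
    have hF : DiffContOnCl ℂ (fun z => Complex.exp (-L z)) (ball 0 r) := by
      exact DifferentiableOn.diffContOnCl_ball (U := closedBall 0 r)
        ((hLd.mono hsub).neg.cexp) (Subset.refl _)
    have hbd : ∀ z ∈ frontier (ball (0 : ℂ) r), ‖Complex.exp (-L z)‖ ≤ 1 := by
      intro z hz
      rw [frontier_ball (0 : ℂ) hr.ne', mem_sphere_zero_iff_norm] at hz
      rw [Complex.norm_exp]
      simp only [neg_re]
      rw [Real.exp_le_one_iff]
      linarith [hposS z hz]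
    have hcl : w ∈ closure (ball (0 : ℂ) r) := by
      rw [closure_ball (0 : ℂ) hr.ne', mem_closedBall_zero_iff]
      exact hw
    have := Complex.norm_le_of_forall_mem_frontier_norm_le isBounded_ball hF hbd hcl
    rw [Complex.norm_exp] at this
    simp only [neg_re] at this
    rw [Real.exp_le_one_iff] at this
    linarith
  exact ⟨L, hLd, hL0, hmin, hLeq⟩

end Vale.Agent.P123C
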