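import Vale.Agent.P123C.RMTAux1

/-! MODULE A2, part 1: Moebius maps of the unit disc, square roots, the extremal family. -/

open Complex Metric Set Filter Topology
open scoped ComplexConjugate

namespace Vale.Agent.P123C

/-- The Moebius map of the unit disc sending `a` to `0`. -/
noncomputable def mob (a w : ℂ) : ℂ := (w - a) / (1 - conj a * w)

/-- Its derivative. -/
noncomputable def mobD (a w : ℂ) : ℂ := (1 - a * conj a) / (1 - conj a * w) ^ 2

theorem mob_den_ne {a w : ℂ} (ha : ‖a‖ < 1) (hw : ‖w‖ < 1) : 1 - conj a * w ≠ 0 := by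
  intro h
  have h1 : conj a * w = 1 := by linear_combination -h
  have h2 : ‖conj a * w‖ = 1 := by rw [h1]; simp
  rw [norm_mul, RCLike.norm_conj] at h2
  nlinarith [norm_nonneg a, norm_nonneg w]

theorem mob_norm_lt {a w : ℂ} (ha : ‖a‖ < 1) (hw : ‖w‖ < 1) : ‖mob a w‖ < 1 := by
  have hne := mob_den_ne ha hw
  have hpos : 0 < ‖1 - conj a * w‖ := norm_pos_iff.2 hne
  unfold mob
  rw [norm_div, div_lt_one hpos]
  have key : ‖1 - conj a * w‖ ^ 2 - ‖w - a‖ ^ 2 = (1 - ‖a‖ ^ 2) * (1 - ‖w‖ ^ 2) := by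
    simp only [Complex.sq_norm, Complex.normSq_apply, Complex.sub_re, Complex.sub_im, Complex.mul_re,
      Complex.mul_im, Complex.conj_re, Complex.conj_im, Complex.one_re, Complex.one_im]
    ring
  have h3 : 0 < (1 - ‖a‖ ^ 2) * (1 - ‖w‖ ^ 2) := by
    apply mul_pos <;> nlinarith [norm_nonneg a, norm_nonneg w]
  have h4 : ‖w - a‖ ^ 2 < ‖1 - conj a * w‖ ^ 2 := by linarith
  exact lt_of_pow_lt_pow_left₀ 2 hpos.le h4

theorem mob_inj {a w w' : ℂ} (ha : ‖a‖ < 1) (hw : ‖w‖ < 1) (hw' : ‖w'‖ < 1)
    (h : mob a w = mob a w') : w = w' := by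
  have hne := mob_den_ne ha hw
  have hne' := mob_den_ne ha hw'
  unfold mob at h
  rw [div_eq_div_iff hne hne'] at h
  have h1 : (w - w') * (1 - a * conj a) = 0 := by linear_combination h
  have h2 : 1 - a * conj a ≠ 0 := by
    have := mob_den_ne (w := a) ha ha
    intro h3
    apply this
    linear_combination h3
  have h3 := (mul_eq_zero.1 h1).resolve_right h2
  linear_combination h3

theorem mob_self (a : ℂ) : mob a a = 0 := by
  simp [mob]

theorem mob_zero (a : ℂ) : mob a 0 = -a := by
  simp [mob]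

theorem mob_hasDerivAt {a w : ℂ} (ha : ‖a‖ < 1) (hw : ‖w‖ < 1) :
    HasDerivAt (mob a) (mobD a w) w := by
  have hne := mob_den_ne ha hw
  have h1 : HasDerivAt (fun z : ℂ => z - a) 1 w := (hasDerivAt_id w).sub_const a
  have h2 : HasDerivAt (fun z : ℂ => 1 - conj a * z) (- conj a) w := by
    simpa using ((hasDerivAt_id w).const_mul (conj a)).const_sub 1
  have h3 := h1.div h2 hne
  have : (1 * (1 - conj a * w) - (w - a) * -conj a) / (1 - conj a * w) ^ 2 = mobD a w := by
    unfold mobD
    congr 1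
    ring
  rw [this] at h3
  exact h3

theorem mobD_ne {a w : ℂ} (ha : ‖a‖ < 1) (hw : ‖w‖ < 1) : mobD a w ≠ 0 := by
  unfold mobD
  apply div_ne_zero
  · have := mob_den_ne (w := a) ha ha
    intro h3
    apply this
    linear_combination h3
  · exact pow_ne_zero 2 (mob_den_ne ha hw)

/-- Derivative of a continuous square root. -/
theorem hasDerivAt_of_sq {S G : ℂ → ℂ} {G' x : ℂ} (hc : ContinuousAt S x) (hG : HasDerivAt G G' x)
    (hS : ∀ᶠ z in 𝓝 x, S z ^ 2 = G z) (hne : S x ≠ 0) :
    HasDerivAt S (G' / (2 * S x)) x := by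
  rw [hasDerivAt_iff_tendsto_slope] at hG ⊢
  have hadd : Tendsto (fun z => S z + S x) (𝓝[≠] x) (𝓝 (2 * S x)) := by
    have h1 : Tendsto S (𝓝[≠] x) (𝓝 (S x)) := hc.tendsto.mono_left nhdsWithin_le_nhds
    have := h1.add_const (S x)
    rwa [← two_mul] at this
  have h2ne : (2 * S x) ≠ 0 := mul_ne_zero two_ne_zero hne
  have hq := hG.div hadd h2ne
  refine hq.congr' ?_
  have hev : ∀ᶠ z in 𝓝[≠] x, S z + S x ≠ 0 := hadd.eventually_ne h2ne
  have hS' : ∀ᶠ z in 𝓝[≠] x, S z ^ 2 = G z := hS.filter_mono nhdsWithin_le_nhds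
  have hSx : S x ^ 2 = G x := hS.self_of_nhds
  filter_upwards [hev, hS', self_mem_nhdsWithin] with z h1 h2 h3
  show slope G x z / (S z + S x) = slope S x z
  simp only [slope_def_field]
  have h3' : z - x ≠ 0 := sub_ne_zero.2 h3
  rw [div_div, div_eq_div_iff (mul_ne_zero h3' h1) h3', ← h2, ← hSx]
  ring

/-- The extremal family of the Riemann mapping theorem. -/
structure Fam (U : Set ℂ) (f : ℂ → ℂ) : Prop where
  diff : DifferentiableOn ℂ f U
  maps : MapsTo f U (ball 0 1)
  inj : InjOn f U
  zero : f 0 = 0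
  der : ∀ z ∈ U, deriv f z ≠ 0

/-- Isolated zeros: an analytic function on a preconnected open set that is not identically zero
does not vanish on small circles. -/
theorem exists_sphere_ne {U : Set ℂ} (hU : IsOpen U) (hc : IsPreconnected U) {Φ : ℂ → ℂ}
    (hd : DifferentiableOn ℂ Φ U) {a b : ℂ} (ha : a ∈ U) (hb : b ∈ U) (hb0 : Φ b ≠ 0)
    {r₀ : ℝ} (hr₀ : 0 < r₀) :
    ∃ ρ > 0, ρ < r₀ ∧ closedBall a ρ ⊆ U ∧ ∀ z ∈ sphere a ρ, Φ z ≠ 0 := by
  have han : AnalyticOnNhd ℂ Φ U := hd.analyticOnNhd hU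
  rcases (han a ha).eventually_eq_zero_or_eventually_ne_zero with h | h
  · exfalso
    have := han.eqOn_zero_of_preconnected_of_eventuallyEq_zero hc ha h
    exact hb0 (this hb)
  · rw [eventually_nhdsWithin_iff, Metric.eventually_nhds_iff] at h
    obtain ⟨ε, hε, hball⟩ := h
    obtain ⟨r, hr, hrU⟩ := Metric.nhds_basis_closedBall.mem_iff.1 (hU.mem_nhds ha)
    refine ⟨min (min (ε / 2) r) (r₀ / 2), by positivity, ?_, ?_, ?_⟩
    · have := min_le_right (min (ε / 2) r) (r₀ / 2)
      linarith
    · exact (closedBall_subset_closedBall ((min_le_left _ _).trans (min_le_right _ _))).trans hrU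
    · intro z hz
      rw [mem_sphere] at hz
      apply hball
      · rw [hz]
        have := (min_le_left (min (ε / 2) r) (r₀ / 2)).trans (min_le_left _ _)
        linarith
      · intro h0
        rw [h0, dist_self] at hz
        have : 0 < min (min (ε / 2) r) (r₀ / 2) := by positivity
        linarith

/-- The limit of a family in `Fam`, with nonzero derivative at `0`, is again in `Fam`. -/
theorem Fam.of_tendsto {ι : Type*} {l : Filter ι} [l.NeBot] {U : Set ℂ} (hU : IsOpen U)
    (hc : IsPreconnected U) (h0 : (0 : ℂ) ∈ U) {f : ι → ℂ → ℂ} {F : ℂ → ℂ}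
    (hf : ∀ i, Fam U (f i)) (hu : TendstoLocallyUniformlyOn f F l U) (hF0 : deriv F 0 ≠ 0) :
    Fam U F := by
  have hFd : DifferentiableOn ℂ F U :=
    hu.differentiableOn (Eventually.of_forall fun i => (hf i).diff) hU
  have hder := hu.deriv (Eventually.of_forall fun i => (hf i).diff) hU
  have hFan : AnalyticOnNhd ℂ F U := hFd.analyticOnNhd hU
  have hF'd : DifferentiableOn ℂ (deriv F) U := hFd.deriv hU
  refine ⟨hFd, ?_, ?_, ?_, ?_⟩
  · -- maps to the open ball
    intro z hz
    have hle : ∀ z ∈ U, ‖F z‖ ≤ 1 := by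
      intro z hz
      have h1 : Tendsto (fun i => ‖f i z‖) l (𝓝 ‖F z‖) := (hu.tendsto_at hz).norm
      refine le_of_tendsto h1 (Eventually.of_forall fun i => ?_)
      have := (hf i).maps hz
      rw [mem_ball_zero_iff] at this
      exact this.le
    rw [mem_ball_zero_iff]
    refine lt_of_le_of_ne (hle z hz) ?_
    intro heq
    have hmax : IsMaxOn (norm ∘ F) U z := by
      intro y hy
      simp only [Function.comp_apply, mem_ofPred_eq]
      rw [heq]
      exact hle y hy
    have hconst := Complex.eqOn_of_isPreconnected_of_isMaxOn_norm hc hU hFd hz hmax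
    apply hF0
    have hev : F =ᶠ[𝓝 0] fun _ => F z := by
      filter_upwards [hU.mem_nhds h0] with y hy using hconst hy
    rw [hev.deriv_eq]
    simp
  · -- injective
    intro a ha b hb hab
    by_contra hne
    set Φ : ℂ → ℂ := fun z => F z - F b with hΦ
    have hΦd : DifferentiableOn ℂ Φ U := hFd.sub_const _
    -- `Φ` is not identically zero
    have hnz : ∃ y ∈ U, Φ y ≠ 0 := by
      by_contra hall
      push Not at hall
      apply hF0
      have hev : F =ᶠ[𝓝 0] fun _ => F b := by
        filter_upwards [hU.mem_nhds h0] with y hy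
        have := hall y hy
        rw [hΦ] at this
        exact sub_eq_zero.1 this
      rw [hev.deriv_eq]
      simp
    obtain ⟨y, hy, hy0⟩ := hnz
    obtain ⟨ρ, hρ, hρb, hsub, hsph⟩ := exists_sphere_ne hU hc hΦd ha hy hy0
      (r₀ := dist a b) (dist_pos.2 hne)
    have hlim : TendstoLocallyUniformlyOn (fun i z => f i z - f i b) Φ l U := by
      rw [Metric.tendstoLocallyUniformlyOn_iff] at hu ⊢
      intro ε hε x hx
      obtain ⟨t, ht, hev⟩ := hu (ε / 2) (by positivity) x hx
      obtain ⟨t', ht', hev'⟩ := hu (ε / 2) (by positivity) b hb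
      refine ⟨t, ht, ?_⟩
      have hbmem : b ∈ t' := mem_of_mem_nhdsWithin hb ht'
      filter_upwards [hev, hev'] with i h1 h2 z hz
      have h3 := h1 z hz
      have h4 := h2 b hbmem
      rw [dist_eq_norm] at h3 h4 ⊢
      have : Φ z - (f i z - f i b) = (F z - f i z) - (F b - f i b) := by
        simp [hΦ]; ring
      rw [this]
      calc _ ≤ ‖F z - f i z‖ + ‖F b - f i b‖ := norm_sub_le _ _
        _ < ε := by linarith
    have hres := hurwitz_local hU hρ hsub
      (Eventually.of_forall fun i => (hf i).diff.sub_const _)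
      (Eventually.of_forall fun i => ?_) hlim hsph
    · exact hres (by simp [hΦ, hab])
    · intro z hz hzero
      have hzU := hsub hz
      have : z = b := (hf i).inj hzU hb (sub_eq_zero.1 hzero)
      rw [this, mem_closedBall, dist_comm] at hz
      linarith
  · -- F 0 = 0
    have h1 := hu.tendsto_at h0
    have h2 : Tendsto (fun i => f i 0) l (𝓝 0) := by
      simp [(hf _).zero]
    exact tendsto_nhds_unique h1 h2
  · -- derivative nonzero
    intro a ha
    obtain ⟨ρ, hρ, -, hsub, hsph⟩ := exists_sphere_ne hU hc hF'd ha h0 hF0 (r₀ := 1) one_pos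
    exact hurwitz_local hU hρ hsub
      (Eventually.of_forall fun i => (hf i).diff.deriv hU)
      (Eventually.of_forall fun i z hz => (hf i).der z (hsub hz)) hder hsph

end Vale.Agent.P123C
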