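import Vale.Agent.P123C.Defs
import Vale.Agent.P123C.RMTAux2

/-! MODULE A: the Riemann mapping theorem for `UK K` (bounded, open, star-shaped). -/

open Complex Metric Set Filter Topology
open scoped Real ComplexConjugate

namespace Vale.Agent.P123C

/-- The extremal problem has a solution. -/
theorem exists_extremal {U : Set ℂ} (hU : IsOpen U) (hb : Bornology.IsBounded U)
    (hc : IsPreconnected U) (h0 : (0 : ℂ) ∈ U) :
    ∃ F, Fam U F ∧ ∀ f, Fam U f → ‖deriv f 0‖ ≤ ‖deriv F 0‖ := by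
  classical
  obtain ⟨B, hB, hBsub⟩ : ∃ B > 0, U ⊆ ball (0 : ℂ) B := hb.subset_ball_lt 0 0 |>.imp fun B h => ⟨h.1, h.2⟩
  have hBne : (B : ℂ) ≠ 0 := by exact_mod_cast hB.ne'
  have hf₀ : Fam U (fun z => z / (B : ℂ)) := by
    refine ⟨?_, ?_, ?_, by simp, ?_⟩
    · exact (differentiable_id.div_const _).differentiableOn
    · intro z hz
      have := hBsub hz
      rw [mem_ball_zero_iff] at this ⊢
      rw [norm_div, norm_real, Real.norm_of_nonneg hB.le, div_lt_one hB]
      exact this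
    · intro x _ y _ hxy
      field_simp at hxy
      exact hxy
    · intro z _
      have : deriv (fun z : ℂ => z / (B : ℂ)) z = 1 / B := by
        simp
      rw [this]
      exact one_div_ne_zero hBne
  obtain ⟨δ, hδ, hδsub⟩ : ∃ δ > 0, closedBall (0 : ℂ) δ ⊆ U :=
    Metric.nhds_basis_closedBall.mem_iff.1 (hU.mem_nhds h0)
  have hbd : ∀ f, Fam U f → ‖deriv f 0‖ ≤ 1 / δ := by
    intro f hf
    have hdc : DiffContOnCl ℂ f (ball 0 δ) := by
      apply DifferentiableOn.diffContOnCl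
      rw [closure_ball _ hδ.ne']
      exact hf.diff.mono hδsub
    apply Complex.norm_deriv_le_of_forall_mem_sphere_norm_le hδ hdc
    intro z hz
    have := hf.maps (hδsub (sphere_subset_closedBall hz))
    rw [mem_ball_zero_iff] at this
    exact this.le
  set S : Set ℝ := {x | ∃ f, Fam U f ∧ x = ‖deriv f 0‖} with hS
  have hSb : BddAbove S := ⟨1 / δ, by rintro x ⟨f, hf, rfl⟩; exact hbd f hf⟩
  have hSn : S.Nonempty := ⟨_, _, hf₀, rfl⟩
  set η := sSup S with hη
  have hle : ∀ f, Fam U f → ‖deriv f 0‖ ≤ η := fun f hf => le_csSup hSb ⟨f, hf, rfl⟩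
  have hηpos : 0 < η := by
    have h1 := hle _ hf₀
    have h2 : deriv (fun z : ℂ => z / (B : ℂ)) 0 = 1 / B := by
      simp
    rw [h2] at h1
    have h3 : 0 < ‖(1 : ℂ) / B‖ := norm_pos_iff.2 (one_div_ne_zero hBne)
    linarith
  have hseq : ∀ n : ℕ, ∃ f, Fam U f ∧ η - 1 / ((n : ℝ) + 1) < ‖deriv f 0‖ := by
    intro n
    have hlt : η - 1 / ((n : ℝ) + 1) < sSup S := by
      have : 0 < 1 / ((n : ℝ) + 1) := by positivity
      linarith
    obtain ⟨x, ⟨f, hf, rfl⟩, hx⟩ := exists_lt_of_lt_csSup hSn hlt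
    exact ⟨f, hf, hx⟩
  choose f hf hlt using hseq
  set 𝔘 : Ultrafilter ℕ := Ultrafilter.of atTop with h𝔘
  have h𝔘le : (𝔘 : Filter ℕ) ≤ atTop := Ultrafilter.of_le atTop
  obtain ⟨F, hu⟩ := montel_ultrafilter 𝔘 hU (f := f) (M := 1) (fun n => (hf n).diff)
    (fun n z hz => by
      have := (hf n).maps hz
      rw [mem_ball_zero_iff] at this
      exact this.le)
  have hder := hu.deriv (Eventually.of_forall fun n => (hf n).diff) hU
  have hlim1 : Tendsto (fun n => ‖deriv (f n) 0‖) (𝔘 : Filter ℕ) (𝓝 ‖deriv F 0‖) :=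
    (hder.tendsto_at h0).norm
  have hlim2 : Tendsto (fun n => ‖deriv (f n) 0‖) atTop (𝓝 η) := by
    have hl : Tendsto (fun n : ℕ => η - 1 / ((n : ℝ) + 1)) atTop (𝓝 η) := by
      have := tendsto_one_div_add_atTop_nhds_zero_nat (𝕜 := ℝ)
      simpa using tendsto_const_nhds.sub this
    exact tendsto_of_tendsto_of_tendsto_of_le_of_le hl tendsto_const_nhds
      (fun n => (hlt n).le) (fun n => hle _ (hf n))
  have heq : ‖deriv F 0‖ = η := tendsto_nhds_unique hlim1 (hlim2.mono_left h𝔘le)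
  have hF0 : deriv F 0 ≠ 0 := by
    intro h
    rw [h, norm_zero] at heq
    linarith
  refine ⟨F, Fam.of_tendsto hU hc h0 hf hu hF0, fun g hg => ?_⟩
  rw [heq]
  exact hle g hg

/-- Koebe's square root trick: an extremal element is onto the disc. -/
theorem Fam.surj {U : Set ℂ} (hU : IsOpen U) (hsimp : IsSimplyConnected U) (h0 : (0 : ℂ) ∈ U)
    {F : ℂ → ℂ} (hF : Fam U F) (hmax : ∀ f, Fam U f → ‖deriv f 0‖ ≤ ‖deriv F 0‖) :
    ∀ a ∈ ball (0 : ℂ) 1, ∃ z ∈ U, F z = a := by
  intro a ha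
  by_contra hcon
  push Not at hcon
  rw [mem_ball_zero_iff] at ha
  have hFlt : ∀ z ∈ U, ‖F z‖ < 1 := fun z hz => by
    have := hF.maps hz
    rwa [mem_ball_zero_iff] at this
  have ha0 : a ≠ 0 := by
    intro h
    exact hcon 0 h0 (hF.zero.trans h.symm)
  set G : ℂ → ℂ := fun z => mob a (F z) with hG
  have hGder : ∀ z ∈ U, HasDerivAt G (mobD a (F z) * deriv F z) z := by
    intro z hz
    have h1 : HasDerivAt F (deriv F z) z :=
      ((hF.diff z hz).differentiableAt (hU.mem_nhds hz)).hasDerivAt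
    have h2 := mob_hasDerivAt ha (hFlt z hz)
    exact h2.comp z h1
  have hGc : ContinuousOn G U := fun z hz => (hGder z hz).continuousAt.continuousWithinAt
  have hGne : ∀ z ∈ U, G z ≠ 0 := by
    intro z hz h
    have hden := mob_den_ne ha (hFlt z hz)
    simp only [hG, mob, div_eq_zero_iff, hden, or_false] at h
    exact hcon z hz (sub_eq_zero.1 h)
  have h0G : (0 : ℂ) ∉ G '' U := by
    rintro ⟨z, hz, h⟩
    exact hGne z hz h
  obtain ⟨S, hSc, hS⟩ := Complex.exists_continuousOn_pow_eq hsimp hU hGc h0G two_ne_zero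
  have hSne : ∀ z ∈ U, S z ≠ 0 := by
    intro z hz h
    apply hGne z hz
    rw [← hS z, h]
    simp
  have hSder : ∀ z ∈ U, HasDerivAt S (mobD a (F z) * deriv F z / (2 * S z)) z := by
    intro z hz
    exact hasDerivAt_of_sq (hSc.continuousAt (hU.mem_nhds hz)) (hGder z hz)
      (Eventually.of_forall hS) (hSne z hz)
  have hSlt : ∀ z ∈ U, ‖S z‖ < 1 := by
    intro z hz
    have h1 : ‖S z‖ ^ 2 < 1 := by
      rw [← norm_pow, hS z]
      exact mob_norm_lt ha (hFlt z hz)
    nlinarith [norm_nonneg (S z)]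
  set c := S 0 with hc
  have hc2 : c ^ 2 = -a := by
    have := hS 0
    rw [← hc] at this
    rw [this]
    simp only [hG, hF.zero, mob_zero]
  have hcne : c ≠ 0 := hSne 0 h0
  have hclt : ‖c‖ < 1 := hSlt 0 h0
  set H : ℂ → ℂ := fun z => mob c (S z) with hH
  have hHder : ∀ z ∈ U, HasDerivAt H (mobD c (S z) * (mobD a (F z) * deriv F z / (2 * S z))) z := by
    intro z hz
    have h2 := mob_hasDerivAt hclt (hSlt z hz)
    exact h2.comp z (hSder z hz)
  have hHfam : Fam U H := by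
    refine ⟨fun z hz => (hHder z hz).differentiableAt.differentiableWithinAt, ?_, ?_, ?_, ?_⟩
    · intro z hz
      rw [mem_ball_zero_iff]
      exact mob_norm_lt hclt (hSlt z hz)
    · intro x hx y hy hxy
      have h1 := mob_inj hclt (hSlt x hx) (hSlt y hy) hxy
      have h2 : G x = G y := by rw [← hS x, ← hS y, h1]
      exact hF.inj hx hy (mob_inj ha (hFlt x hx) (hFlt y hy) h2)
    · simp only [hH, ← hc, mob_self]
    · intro z hz
      rw [(hHder z hz).deriv]
      exact mul_ne_zero (mobD_ne hclt (hSlt z hz))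
        (div_ne_zero (mul_ne_zero (mobD_ne ha (hFlt z hz)) (hF.der z hz))
          (mul_ne_zero two_ne_zero (hSne z hz)))
  have hineq := hmax H hHfam
  rw [(hHder 0 h0).deriv, hF.zero, ← hc] at hineq
  -- numerics
  set t := ‖c‖ with ht
  have htpos : 0 < t := norm_pos_iff.2 hcne
  have hat : ‖a‖ = t ^ 2 := by
    have : ‖c ^ 2‖ = ‖-a‖ := by rw [hc2]
    rw [norm_pow, norm_neg] at this
    exact this.symm
  have hDc : ‖mobD c c‖ = 1 / (1 - t ^ 2) := by
    have h1 : (1 : ℂ) - c * conj c = ((1 - t ^ 2 : ℝ) : ℂ) := by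
      rw [Complex.mul_conj, Complex.normSq_eq_norm_sq]
      push_cast
      rfl
    have h2 : (1 : ℂ) - conj c * c = ((1 - t ^ 2 : ℝ) : ℂ) := by
      rw [mul_comm, h1]
    have hpos : 0 < 1 - t ^ 2 := by nlinarith
    unfold mobD
    rw [h1, h2, norm_div, norm_pow, norm_real, Real.norm_of_nonneg hpos.le]
    field_simp
  have hDa : ‖mobD a 0‖ = 1 - t ^ 4 := by
    have h1 : (1 : ℂ) - a * conj a = ((1 - t ^ 4 : ℝ) : ℂ) := by
      rw [Complex.mul_conj, Complex.normSq_eq_norm_sq, hat]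
      push_cast
      ring
    have hpos : 0 ≤ 1 - t ^ 4 := by
      have : t ^ 2 < 1 := by nlinarith
      nlinarith [sq_nonneg t]
    unfold mobD
    have h3 : (1 : ℂ) - conj a * 0 = 1 := by simp
    rw [h1, h3, one_pow, div_one, norm_real, Real.norm_of_nonneg hpos]
  rw [norm_mul, norm_div, norm_mul, norm_mul, hDc, hDa] at hineq
  have h2c : ‖(2 : ℂ) * c‖ = 2 * t := by
    rw [norm_mul]; simp [ht]
  have hnorm2 : ‖(2 : ℂ)‖ = 2 := by simp
  rw [hnorm2] at hineq
  set D := ‖deriv F 0‖ with hD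
  have hDpos : 0 < D := norm_pos_iff.2 (hF.der 0 h0)
  have ht2 : 0 < 1 - t ^ 2 := by nlinarith
  have hval : 1 / (1 - t ^ 2) * ((1 - t ^ 4) * D / (2 * t)) = (1 + t ^ 2) / (2 * t) * D := by
    field_simp
    ring
  rw [hval] at hineq
  have hgt : 1 < (1 + t ^ 2) / (2 * t) := by
    rw [lt_div_iff₀ (by positivity)]
    nlinarith [sq_nonneg (1 - t), sq_pos_of_pos (sub_pos.2 hclt)]
  nlinarith

/-- The Riemann mapping theorem for bounded open star-shaped sets. -/
theorem exists_riemann {U : Set ℂ} (hU : IsOpen U) (hb : Bornology.IsBounded U)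
    (hstar : StarConvex ℝ (0 : ℂ) U) (h0 : (0 : ℂ) ∈ U) :
    ∃ F, Fam U F ∧ ∀ a ∈ ball (0 : ℂ) 1, ∃ z ∈ U, F z = a := by
  have := hstar.contractibleSpace ⟨0, h0⟩
  have hsimp : IsSimplyConnected U := (inferInstance : SimplyConnectedSpace U)
  have hc : IsPreconnected U := hsimp.isPathConnected.isConnected.isPreconnected
  obtain ⟨F, hF, hmax⟩ := exists_extremal hU hb hc h0
  exact ⟨F, hF, hF.surj hU hsimp h0 hmax⟩

theorem isOpen_UK {K : Set ℂ} (hc : IsCompact K) : IsOpen (UK K) := by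
  rw [isOpen_iff_mem_nhds]
  intro u hu
  by_cases hu0 : u = 0
  · subst hu0
    obtain ⟨D, hD⟩ := hc.isBounded.exists_norm_le
    have hDpos : 0 < |D| + 1 := by positivity
    filter_upwards [ball_mem_nhds (0 : ℂ) (div_pos one_pos hDpos)] with v hv τ hτ h1
    rw [mem_ball_zero_iff] at hv
    have h2 : ‖τ * v‖ = 1 := by rw [h1]; simp
    rw [norm_mul] at h2
    have h3 := hD τ hτ
    have h4 : ‖τ‖ < |D| + 1 := by have := le_abs_self D; linarith
    have h5 : ‖v‖ * (|D| + 1) < 1 := by rwa [lt_div_iff₀ hDpos] at hv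
    nlinarith [norm_nonneg τ, norm_nonneg v]
  · have hinv : u⁻¹ ∉ K := fun hin => hu _ hin (inv_mul_cancel₀ hu0)
    have hcont : ContinuousAt (fun v : ℂ => v⁻¹) u := continuousAt_inv₀ hu0
    have hmem : Kᶜ ∈ 𝓝 (u⁻¹) := hc.isClosed.isOpen_compl.mem_nhds hinv
    filter_upwards [hcont hmem, isOpen_ne.mem_nhds hu0] with v hv hv0 τ hτ h1
    apply hv
    have : τ = v⁻¹ := eq_inv_of_mul_eq_one_left h1
    simpa [this] using hτ

theorem isBounded_UK {K : Set ℂ} (h0 : (0 : ℂ) ∈ interior K) : Bornology.IsBounded (UK K) := by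
  obtain ⟨ρ, hρ, hsub⟩ := Metric.nhds_basis_closedBall.mem_iff.1 (mem_interior_iff_mem_nhds.1 h0)
  apply (isBounded_ball (x := (0 : ℂ)) (r := 1 / ρ)).subset
  intro u hu
  rw [mem_ball_zero_iff]
  by_contra hcon
  push Not at hcon
  have hρu : 0 < ‖u‖ := lt_of_lt_of_le (by positivity) hcon
  have hu0 : u ≠ 0 := norm_pos_iff.1 hρu
  have hmem : u⁻¹ ∈ K := by
    apply hsub
    rw [mem_closedBall_zero_iff, norm_inv, inv_le_comm₀ hρu hρ]
    simpa using hcon
  exact hu _ hmem (inv_mul_cancel₀ hu0)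

theorem starConvex_UK {K : Set ℂ} (hv : Convex ℝ K) (h0 : (0 : ℂ) ∈ K) :
    StarConvex ℝ (0 : ℂ) (UK K) := by
  intro u hu a b ha hb hab τ hτ h1
  have hmem : b • τ ∈ K := by
    have := hv h0 hτ ha hb hab
    simpa using this
  apply hu _ hmem
  rw [← h1]
  simp only [smul_zero, zero_add, Complex.real_smul]
  ring

/-- Riemann mapping for the exterior of a compact convex set with `0` in its interior. -/
theorem exists_conf {K : Set ℂ} (hc : IsCompact K) (hv : Convex ℝ K) (h0 : (0 : ℂ) ∈ interior K) :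
    ∃ h g : ℂ → ℂ, Conf K h g := by
  classical
  have hU : IsOpen (UK K) := isOpen_UK hc
  have h0U : (0 : ℂ) ∈ UK K := by
    intro τ _ h1
    simp at h1
  obtain ⟨F, hF, hsurj⟩ := exists_riemann hU (isBounded_UK h0)
    (starConvex_UK hv (interior_subset h0)) h0U
  set h : ℂ → ℂ := Function.invFunOn F (UK K) with hh
  have hmem : ∀ w ∈ ball (0 : ℂ) 1, h w ∈ UK K := fun w hw =>
    Function.invFunOn_mem (hsurj w hw)
  have hright : ∀ w ∈ ball (0 : ℂ) 1, F (h w) = w := fun w hw =>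
    Function.invFunOn_eq (hsurj w hw)
  have hleft : ∀ u ∈ UK K, h (F u) = u := fun u hu => hF.inj.leftInvOn_invFunOn hu
  have hstrict : ∀ x ∈ UK K, HasStrictDerivAt F (deriv F x) x := fun x hx =>
    (hF.diff.analyticOnNhd hU x hx).hasStrictDerivAt
  have hder : ∀ w ∈ ball (0 : ℂ) 1, HasDerivAt h (deriv F (h w))⁻¹ w := by
    intro w hw
    have hx := hmem w hw
    have hs := hstrict _ hx
    have hne := hF.der _ hx
    have hcont : ContinuousAt h w := by
      rw [ContinuousAt, Filter.tendsto_def]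
      intro N hN
      have hN' : N ∩ UK K ∈ 𝓝 (h w) := Filter.inter_mem hN (hU.mem_nhds hx)
      have himg : F '' (N ∩ UK K) ∈ 𝓝 (F (h w)) := by
        rw [← hs.map_nhds_eq hne]
        exact Filter.image_mem_map hN'
      rw [hright w hw] at himg
      refine Filter.mem_of_superset himg ?_
      rintro _ ⟨z, ⟨hzN, hzU⟩, rfl⟩
      simp only [mem_preimage]
      rw [hleft z hzU]
      exact hzN
    have hev : ∀ᶠ y in 𝓝 w, F (h y) = y := by
      filter_upwards [isOpen_ball.mem_nhds hw] with y hy using hright y hy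
    exact (hs.of_local_left_inverse hcont hne hev).hasDerivAt
  refine ⟨h, F, hc, hv, h0, ?_, ?_, ?_, ?_, hF.diff, ?_, ?_, ?_⟩
  · exact fun w hw => (hder w hw).differentiableAt.differentiableWithinAt
  · have := hleft 0 h0U
    rwa [hF.zero] at this
  · exact fun w hw => hmem w hw
  · intro w hw
    rw [(hder w hw).deriv]
    exact inv_ne_zero (hF.der _ (hmem w hw))
  · exact fun u hu => hF.maps hu
  · exact hright
  · exact hleft

end Vale.Agent.P123C
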