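import Mathlib

/-! MODULE A1: Montel along an ultrafilter and a local form of Hurwitz's theorem. -/

open Complex Metric Set Filter Topology

namespace Vale.Agent.P123C

/-- Cauchy bound: a function bounded by `M` on `U` is `M / r`-Lipschitz on `ball z₀ r` if
`closedBall z₀ (2 * r) ⊆ U`. -/
theorem lipschitz_of_bound {U : Set ℂ} {f : ℂ → ℂ} {M r : ℝ} {z₀ : ℂ} (hr : 0 < r)
    (hsub : closedBall z₀ (2 * r) ⊆ U) (hd : DifferentiableOn ℂ f U) (hU : IsOpen U)
    (hb : ∀ z ∈ U, ‖f z‖ ≤ M) {x y : ℂ} (hx : x ∈ ball z₀ r) (hy : y ∈ ball z₀ r) :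
    ‖f y - f x‖ ≤ M / r * ‖y - x‖ := by
  have hder : ∀ z ∈ ball z₀ r, ‖deriv f z‖ ≤ M / r := by
    intro z hz
    have hcl : closedBall z r ⊆ U := by
      intro w hw
      apply hsub
      rw [mem_closedBall] at hw ⊢
      rw [mem_ball] at hz
      have := dist_triangle w z z₀
      linarith
    have hdc : DiffContOnCl ℂ f (ball z r) := by
      apply DifferentiableOn.diffContOnCl
      rw [closure_ball z hr.ne']
      exact hd.mono hcl
    apply Complex.norm_deriv_le_of_forall_mem_sphere_norm_le hr hdc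
    intro w hw
    exact hb w (hcl (sphere_subset_closedBall hw))
  have hsubU : ball z₀ r ⊆ U := by
    intro w hw
    apply hsub
    rw [mem_ball] at hw
    rw [mem_closedBall]
    linarith
  have hdiff : ∀ z ∈ ball z₀ r, HasDerivWithinAt f (deriv f z) (ball z₀ r) z := by
    intro z hz
    have : DifferentiableAt ℂ f z := (hd z (hsubU hz)).differentiableAt (hU.mem_nhds (hsubU hz))
    exact this.hasDerivAt.hasDerivWithinAt
  exact (convex_ball z₀ r).norm_image_sub_le_of_norm_hasDerivWithin_le hdiff hder hx hy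

/-- Montel's theorem along an ultrafilter. -/
theorem montel_ultrafilter {ι : Type*} (𝔘 : Ultrafilter ι) {U : Set ℂ} (hU : IsOpen U)
    {f : ι → ℂ → ℂ} {M : ℝ} (hd : ∀ i, DifferentiableOn ℂ (f i) U)
    (hb : ∀ i, ∀ z ∈ U, ‖f i z‖ ≤ M) :
    ∃ F : ℂ → ℂ, TendstoLocallyUniformlyOn f F (𝔘 : Filter ι) U := by
  classical
  have hlim : ∀ z ∈ U, ∃ c, Tendsto (fun i => f i z) (𝔘 : Filter ι) (𝓝 c) := by
    intro z hz
    have hc : IsCompact (closedBall (0 : ℂ) M) := isCompact_closedBall 0 M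
    have hle : ((𝔘.map (fun i => f i z) : Ultrafilter ℂ) : Filter ℂ) ≤ 𝓟 (closedBall (0 : ℂ) M) := by
      rw [le_principal_iff]
      apply Filter.mem_map.2
      apply Filter.univ_mem'
      intro i
      simpa using hb i z hz
    obtain ⟨c, -, hc'⟩ := hc.ultrafilter_le_nhds _ hle
    exact ⟨c, hc'⟩
  choose! F hF using hlim
  refine ⟨F, ?_⟩
  rw [Metric.tendstoLocallyUniformlyOn_iff]
  intro ε hε z₀ hz₀
  obtain ⟨r, hr, hrU⟩ : ∃ r > 0, closedBall z₀ (2 * r) ⊆ U := by
    obtain ⟨r, hr, hrU⟩ := Metric.nhds_basis_closedBall.mem_iff.1 (hU.mem_nhds hz₀)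
    exact ⟨r / 2, by positivity, by simpa [mul_div_cancel₀] using hrU⟩
  set L : ℝ := |M / r| + 1 with hL
  have hLpos : 0 < L := by positivity
  have hLip : ∀ i, ∀ x ∈ ball z₀ r, ∀ y ∈ ball z₀ r, ‖f i y - f i x‖ ≤ L * ‖y - x‖ := by
    intro i x hx y hy
    have := lipschitz_of_bound hr hrU (hd i) hU (hb i) hx hy
    have h2 : M / r ≤ L := by
      have := le_abs_self (M / r)
      rw [hL]; linarith
    nlinarith [norm_nonneg (y - x)]
  have hsubU : ball z₀ r ⊆ U := by
    intro w hw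
    apply hrU
    rw [mem_ball] at hw
    rw [mem_closedBall]
    linarith
  have hLipF : ∀ y ∈ ball z₀ r, ‖F y - F z₀‖ ≤ L * ‖y - z₀‖ := by
    intro y hy
    have h1 := hF y (hsubU hy)
    have h2 := hF z₀ hz₀
    have h3 : Tendsto (fun i => ‖f i y - f i z₀‖) (𝔘 : Filter ι) (𝓝 ‖F y - F z₀‖) :=
      (h1.sub h2).norm
    apply le_of_tendsto h3
    exact Filter.Eventually.of_forall
      (fun i => hLip i z₀ (mem_ball_self hr) y hy)
  set ρ : ℝ := min r (ε / (3 * L)) with hρ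
  have hρpos : 0 < ρ := by positivity
  have hρε : L * ρ ≤ ε / 3 := by
    have : ρ ≤ ε / (3 * L) := min_le_right _ _
    calc L * ρ ≤ L * (ε / (3 * L)) := by gcongr
      _ = ε / 3 := by field_simp
  refine ⟨ball z₀ ρ, mem_nhdsWithin_of_mem_nhds (ball_mem_nhds _ hρpos), ?_⟩
  have hev : ∀ᶠ i in (𝔘 : Filter ι), ‖f i z₀ - F z₀‖ < ε / 3 := by
    have := (hF z₀ hz₀)
    rw [Metric.tendsto_nhds] at this
    filter_upwards [this (ε / 3) (by positivity)] with i hi
    simpa [dist_eq_norm] using hi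
  filter_upwards [hev] with i hi y hy
  have hyr : y ∈ ball z₀ r := ball_subset_ball (min_le_left _ _) hy
  have hyρ : ‖y - z₀‖ < ρ := by simpa [dist_eq_norm] using hy
  have h1 := hLip i z₀ (mem_ball_self hr) y hyr
  have h2 := hLipF y hyr
  have h3 : L * ‖y - z₀‖ < ε / 3 := by
    calc L * ‖y - z₀‖ < L * ρ := by gcongr
      _ ≤ ε / 3 := hρε
  rw [dist_eq_norm]
  have : F y - f i y = (F y - F z₀) + (F z₀ - f i z₀) + (f i z₀ - f i y) := by ring
  rw [this]
  have h4 : ‖F z₀ - f i z₀‖ = ‖f i z₀ - F z₀‖ := norm_sub_rev _ _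
  have h5 : ‖f i z₀ - f i y‖ = ‖f i y - f i z₀‖ := norm_sub_rev _ _
  calc _ ≤ ‖F y - F z₀‖ + ‖F z₀ - f i z₀‖ + ‖f i z₀ - f i y‖ := norm_add₃_le
    _ < ε := by rw [h4, h5]; linarith

/-- A local Hurwitz theorem: a locally uniform limit of functions without zeros on a closed disc
which does not vanish on the circle does not vanish at the centre. -/
theorem hurwitz_local {ι : Type*} {l : Filter ι} [l.NeBot] {V : Set ℂ} (hV : IsOpen V)
    {φ : ι → ℂ → ℂ} {Φ : ℂ → ℂ} {a : ℂ} {ρ : ℝ} (hρ : 0 < ρ) (hsub : closedBall a ρ ⊆ V)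
    (hd : ∀ᶠ i in l, DifferentiableOn ℂ (φ i) V)
    (hz : ∀ᶠ i in l, ∀ z ∈ closedBall a ρ, φ i z ≠ 0)
    (hu : TendstoLocallyUniformlyOn φ Φ l V)
    (hne : ∀ z ∈ sphere a ρ, Φ z ≠ 0) : Φ a ≠ 0 := by
  have hΦc : ContinuousOn Φ V := by
    exact hu.continuousOn (hd.mono fun i hi => hi.continuousOn).frequently
  have hcomp : IsCompact (sphere a ρ) := isCompact_sphere a ρ
  have hsph : sphere a ρ ⊆ V := sphere_subset_closedBall.trans hsub
  have hne' : (sphere a ρ).Nonempty := NormedSpace.sphere_nonempty.2 hρ.le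
  obtain ⟨z₁, hz₁, hmin⟩ := hcomp.exists_isMinOn hne' ((hΦc.mono hsph).norm)
  set δ : ℝ := ‖Φ z₁‖ with hδ
  have hδpos : 0 < δ := norm_pos_iff.2 (hne z₁ hz₁)
  have hsph_le : ∀ z ∈ sphere a ρ, δ ≤ ‖Φ z‖ := fun z hz => hmin hz
  have hunif : TendstoUniformlyOn φ Φ l (closedBall a ρ) :=
    (tendstoLocallyUniformlyOn_iff_forall_isCompact hV).1 hu _ hsub (isCompact_closedBall a ρ)
  rw [Metric.tendstoUniformlyOn_iff] at hunif
  have hmain : ∀ᶠ i in l, δ / 2 ≤ ‖φ i a‖ := by
    filter_upwards [hd, hz, hunif (δ / 2) (by positivity)] with i hdi hzi hui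
    -- lower bound on the circle
    have hcircle : ∀ z ∈ sphere a ρ, δ / 2 ≤ ‖φ i z‖ := by
      intro z hzz
      have h1 := hui z (sphere_subset_closedBall hzz)
      rw [dist_eq_norm] at h1
      have h2 := hsph_le z hzz
      have h3 : ‖Φ z‖ ≤ ‖Φ z - φ i z‖ + ‖φ i z‖ := by
        have := norm_add_le (Φ z - φ i z) (φ i z)
        simpa using this
      linarith
    -- maximum principle for the inverse
    have hinv : DiffContOnCl ℂ (fun z => (φ i z)⁻¹) (ball a ρ) := by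
      apply DifferentiableOn.diffContOnCl
      rw [closure_ball a hρ.ne']
      apply DifferentiableOn.inv (hdi.mono hsub)
      exact hzi
    have hbd : ∀ z ∈ frontier (ball a ρ), ‖(φ i z)⁻¹‖ ≤ (δ / 2)⁻¹ := by
      intro z hzz
      rw [frontier_ball a hρ.ne'] at hzz
      rw [norm_inv]
      exact inv_anti₀ (by positivity) (hcircle z hzz)
    have hcen := Complex.norm_le_of_forall_mem_frontier_norm_le
      (isBounded_ball) hinv hbd (subset_closure (mem_ball_self hρ))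
    rw [norm_inv] at hcen
    have hpos : 0 < ‖φ i a‖ := norm_pos_iff.2 (hzi a (mem_closedBall_self hρ.le))
    exact (inv_le_inv₀ hpos (by positivity)).1 hcen
  have hlim : Tendsto (fun i => ‖φ i a‖) l (𝓝 ‖Φ a‖) := by
    have := hu.tendsto_at (hsub (mem_closedBall_self hρ.le))
    exact this.norm
  have : δ / 2 ≤ ‖Φ a‖ := ge_of_tendsto hlim hmain
  intro h0
  rw [h0, norm_zero] at this
  linarith

end Vale.Agent.P123C
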