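import Vale.Agent.P123C.Core
import Vale.Agent.P123C.RMT

/-! MODULE H: from the level curve theorem to Crouzeix's conjecture.

H1. Toeplitz-Hausdorff: the numerical range of `B` is convex; compact in finite dimension.
H2. `crouzeix_finite`: for `V` finite dimensional, nontrivial. Let `K₀ = W(B)`, `c ∈ K₀`, `ε > 0`, `K = cthickening ε K₀ - c`
(`0` interior, compact convex). Apply `exists_conf` and `Conf.core` to `B - c`, `P (X + c)`; by `Conf.exists_near`
for `r` near `1` the level curve is within `ε` of `K`, so `s ≤ sup_{thickening 2ε K₀} |P|`. Let `ε → 0`, using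
uniform continuity of `P` on a compact neighbourhood of `K₀`.
H3. `crouzeix`: general `H`: for a unit `x`, let `V = span {x, A x, ..., A^d x}`, `B = P_V A |_V`;
`B^j x = A^j x` for `j ≤ d`, `W(B) ⊆ W(A)`, so `‖P(A) x‖ = ‖P(B) x‖ ≤ 2 M`. -/

open Complex Metric Set Filter Topology Polynomial
open scoped Real InnerProductSpace

namespace Vale.Agent.P123C

theorem exists_phase (p q : ℂ) :
    ∃ u : ℂ, ‖u‖ = 1 ∧ ((starRingEnd ℂ) u * p + u * q).im = 0 := by
  by_cases hc : q - (starRingEnd ℂ) p = 0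
  · refine ⟨1, by simp, ?_⟩
    have h : q = (starRingEnd ℂ) p := sub_eq_zero.mp hc
    simp [h]
  · set c := q - (starRingEnd ℂ) p with hcdef
    have hn : ((‖c‖ : ℝ) : ℂ) ≠ 0 := by
      simpa using hc
    refine ⟨(starRingEnd ℂ) c / (‖c‖ : ℂ), ?_, ?_⟩
    · rw [norm_div, RCLike.norm_conj, Complex.norm_real, norm_norm]
      exact div_self (by simpa using hc)
    · have hq : q = c + (starRingEnd ℂ) p := by rw [hcdef]; ring
      have key : (starRingEnd ℂ) ((starRingEnd ℂ) c / (‖c‖ : ℂ)) * p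
          + (starRingEnd ℂ) c / (‖c‖ : ℂ) * q
          = ((c * p + (starRingEnd ℂ) (c * p) + (starRingEnd ℂ) c * c) / (‖c‖ : ℂ)) := by
        rw [hq, map_div₀, Complex.conj_conj, Complex.conj_ofReal, map_mul]
        field_simp
        ring
      rw [key]
      have h1 : c * p + (starRingEnd ℂ) (c * p) + (starRingEnd ℂ) c * c
          = (((2 * (c * p).re + Complex.normSq c : ℝ)) : ℂ) := by
        apply Complex.ext
        · simp [Complex.normSq_apply]; ring
        · simp; ring
      rw [h1, ← Complex.ofReal_div]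
      exact Complex.ofReal_im _

/-- Toeplitz-Hausdorff for two unit vectors. -/
theorem th_core {V : Type*} [NormedAddCommGroup V] [InnerProductSpace ℂ V]
    (A : V →L[ℂ] V) {x y : V} (hx : ‖x‖ = 1) (hy : ‖y‖ = 1)
    (hab : inner ℂ x (A x) ≠ inner ℂ y (A y)) {t : ℝ} (ht0 : 0 ≤ t) (ht1 : t ≤ 1) :
    ∃ z : V, ‖z‖ = 1 ∧
      inner ℂ z (A z) = inner ℂ x (A x) + (t : ℂ) * (inner ℂ y (A y) - inner ℂ x (A x)) := by
  set a := inner ℂ x (A x) with ha
  set b := inner ℂ y (A y) with hb
  set d := b - a with hd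
  have hd0 : d ≠ 0 := by
    intro h; exact hab (sub_eq_zero.mp h).symm
  set p := (inner ℂ x (A y) - a * inner ℂ x y) / d with hp
  set q := (inner ℂ y (A x) - a * inner ℂ y x) / d with hq
  obtain ⟨u, hu, hR⟩ := exists_phase p q
  set R := (starRingEnd ℂ) u * p + u * q with hRdef
  have huu : (starRingEnd ℂ) u * u = 1 := by
    rw [Complex.conj_mul']; simp [hu]
  have hxx : inner ℂ x x = (1 : ℂ) := by
    rw [inner_self_eq_norm_sq_to_K]; simp [hx]
  have hyy : inner ℂ y y = (1 : ℂ) := by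
    rw [inner_self_eq_norm_sq_to_K]; simp [hy]
  let W : ℝ → V := fun s => ((1 - s : ℝ) : ℂ) • (u • x) + ((s : ℝ) : ℂ) • y
  have hW0 : ∀ s ∈ Icc (0 : ℝ) 1, W s ≠ 0 := by
    intro s hs h0
    have e1 : ((1 - s : ℝ) : ℂ) • (u • x) = -(((s : ℝ) : ℂ) • y) :=
      eq_neg_of_add_eq_zero_left h0
    have n1 := congrArg norm e1
    rw [norm_neg, norm_smul, norm_smul, norm_smul, hu, hx, hy, Complex.norm_real,
      Complex.norm_real, Real.norm_of_nonneg (by linarith [hs.2]), Real.norm_of_nonneg hs.1] at n1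
    have hs2 : s = 1 / 2 := by linarith
    subst hs2
    have e2 : u • x = -y := by
      have : ((1 - 1 / 2 : ℝ) : ℂ) = ((1 / 2 : ℝ) : ℂ) := by norm_num
      rw [this] at e1
      have h2 : ((1 / 2 : ℝ) : ℂ) ≠ 0 := by norm_num
      rw [← smul_neg] at e1
      exact smul_right_injective V h2 e1
    have e3 : y = -(u • x) := by rw [e2, neg_neg]
    apply hab
    rw [ha, hb, e3]
    simp only [map_neg, map_smul, inner_neg_left, inner_neg_right, inner_smul_left,
      inner_smul_right]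
    linear_combination (-(inner ℂ x (A x))) * huu
  -- the expansion
  have hE : ∀ s : ℝ, inner ℂ (W s) (A (W s)) - a * inner ℂ (W s) (W s)
      = d * (((s ^ 2 + s * (1 - s) * R.re : ℝ)) : ℂ) := by
    intro s
    have hRr : (R.re : ℂ) = R := by
      apply Complex.ext <;> simp [hR]
    have ep : inner ℂ x (A y) - a * inner ℂ x y = d * p := by
      rw [hp]; field_simp
    have eq' : inner ℂ y (A x) - a * inner ℂ y x = d * q := by
      rw [hq]; field_simp
    have hb' : inner ℂ y (A y) = a + d := by rw [hd, hb]; ring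
    simp only [W, map_add, map_smul, inner_add_left, inner_add_right, inner_smul_left,
      inner_smul_right, Complex.conj_ofReal, hxx, hyy, hb']
    rw [← ha]
    push_cast
    rw [hRr, hRdef]
    have ep' : inner ℂ x (A y) = d * p + a * inner ℂ x y := by rw [← ep]; ring
    have eq'' : inner ℂ y (A x) = d * q + a * inner ℂ y x := by rw [← eq']; ring
    rw [ep', eq'']
    have huu2 : (starRingEnd ℂ) u * (u * a) = a := by rw [← mul_assoc, huu, one_mul]
    linear_combination (((1 : ℂ) - s) * ((1 : ℂ) - s) * a - ((1 : ℂ) - s) * ((1 : ℂ) - s) * a) * huu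
  -- real function
  let f : ℝ → ℝ := fun s => (s ^ 2 + s * (1 - s) * R.re) / ‖W s‖ ^ 2
  have hWc : Continuous W := by
    simp only [W]
    fun_prop
  have hf : ContinuousOn f (Icc 0 1) := by
    apply ContinuousOn.div
    · fun_prop
    · exact (hWc.norm.pow 2).continuousOn
    · intro s hs
      exact pow_ne_zero 2 (norm_ne_zero_iff.mpr (hW0 s hs))
  have hf0 : f 0 = 0 := by simp [f]
  have hf1 : f 1 = 1 := by
    have : W 1 = y := by simp [W]
    simp [f, this, hy]
  have hivt : Icc (f 0) (f 1) ⊆ f '' Icc 0 1 :=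
    intermediate_value_Icc (by norm_num) hf
  obtain ⟨s, hs, hst⟩ := hivt (by rw [hf0, hf1]; exact ⟨ht0, ht1⟩)
  have hWs := hW0 s hs
  have hnW : ‖W s‖ ≠ 0 := norm_ne_zero_iff.mpr hWs
  refine ⟨((‖W s‖⁻¹ : ℝ) : ℂ) • W s, ?_, ?_⟩
  · rw [norm_smul, Complex.norm_real, norm_inv, norm_norm, inv_mul_cancel₀ hnW]
  · simp only [map_smul, inner_smul_left, inner_smul_right, Complex.conj_ofReal]
    have h1 := hE s
    have h2 : inner ℂ (W s) (W s) = ((‖W s‖ : ℂ)) ^ 2 := by
      rw [inner_self_eq_norm_sq_to_K]; rfl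
    have h3 : inner ℂ (W s) (A (W s)) =
        a * ((‖W s‖ : ℂ)) ^ 2 + d * (((s ^ 2 + s * (1 - s) * R.re : ℝ)) : ℂ) := by
      rw [← h1, h2]; ring
    rw [h3]
    have hst' : ((s ^ 2 + s * (1 - s) * R.re : ℝ) : ℂ) = (t : ℂ) * ((‖W s‖ : ℂ)) ^ 2 := by
      rw [← hst]
      simp only [f]
      push_cast
      have : ((‖W s‖ : ℂ)) ≠ 0 := by exact_mod_cast hnW
      field_simp
    rw [hst']
    have hn' : ((‖W s‖ : ℂ)) ≠ 0 := by exact_mod_cast hnW
    push_cast
    field_simp

/-- Toeplitz-Hausdorff. -/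
theorem numericalRange_convex {V : Type*} [NormedAddCommGroup V] [InnerProductSpace ℂ V]
    (A : V →L[ℂ] V) : Convex ℝ {z : ℂ | ∃ x : V, ‖x‖ = 1 ∧ inner ℂ x (A x) = z} := by
  intro z1 hz1 z2 hz2 α β hα hβ hαβ
  obtain ⟨x, hx, rfl⟩ := hz1
  obtain ⟨y, hy, rfl⟩ := hz2
  by_cases hab : inner ℂ x (A x) = inner ℂ y (A y)
  · refine ⟨x, hx, ?_⟩
    rw [← hab, ← add_smul, hαβ, one_smul]
  · obtain ⟨z, hz, hzA⟩ := th_core A hx hy hab hβ (by linarith)
    refine ⟨z, hz, ?_⟩
    rw [hzA]
    have : α = 1 - β := by linarith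
    subst this
    simp only [Complex.real_smul]
    push_cast
    ring

/-- Crouzeix on a finite dimensional space. -/
theorem crouzeix_finite {V : Type*} [NormedAddCommGroup V] [InnerProductSpace ℂ V]
    [FiniteDimensional ℂ V] [Nontrivial V] (A : V →L[ℂ] V) (P : ℂ[X]) (M : ℝ)
    (hM : ∀ x : V, ‖x‖ = 1 → ‖P.eval (inner ℂ x (A x))‖ ≤ M) :
    ‖aeval A P‖ ≤ 2 * M := by
  set K₀ : Set ℂ := {z : ℂ | ∃ x : V, ‖x‖ = 1 ∧ inner ℂ x (A x) = z} with hK₀
  have : ProperSpace V := FiniteDimensional.proper ℂ V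
  have hK₀c : IsCompact K₀ := by
    have e : K₀ = (fun x : V => inner ℂ x (A x)) '' (sphere (0 : V) 1) := by
      ext z
      simp [K₀, mem_sphere_zero_iff_norm]
    rw [e]
    exact (isCompact_sphere _ _).image (by fun_prop)
  have hK₀v : Convex ℝ K₀ := numericalRange_convex A
  obtain ⟨x₀, hx₀⟩ : ∃ x : V, ‖x‖ = 1 := by
    obtain ⟨v, hv⟩ := exists_ne (0 : V)
    exact ⟨((‖v‖⁻¹ : ℝ) : ℂ) • v, by
      rw [norm_smul, Complex.norm_real, norm_inv, norm_norm,
        inv_mul_cancel₀ (norm_ne_zero_iff.mpr hv)]⟩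
  set c : ℂ := inner ℂ x₀ (A x₀) with hcdef
  have hc : c ∈ K₀ := ⟨x₀, hx₀, rfl⟩
  refine le_of_forall_pos_le_add fun δ hδ => ?_
  -- uniform continuity of `P` near `K₀`
  have hNc : IsCompact (cthickening 1 K₀) := hK₀c.cthickening
  have hPc : Continuous fun z : ℂ => P.eval z := P.continuous
  have hunif := hNc.uniformContinuousOn_of_continuous hPc.continuousOn
  rw [Metric.uniformContinuousOn_iff] at hunif
  obtain ⟨η, hη, hηP⟩ := hunif (δ / 2) (by positivity)
  set ε : ℝ := min η 1 / 3 with hε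
  have hε0 : 0 < ε := by
    have : 0 < min η 1 := lt_min hη one_pos
    positivity
  have hε2 : 2 * ε < η := by
    have h1 : min η 1 ≤ η := min_le_left _ _
    have h2 : 0 < min η 1 := lt_min hη one_pos
    rw [hε]; linarith
  have hε1 : 2 * ε ≤ 1 := by
    have h1 : min η 1 ≤ 1 := min_le_right _ _
    rw [hε]; linarith
  -- the set `K`
  set K : Set ℂ := (fun z : ℂ => z + c) ⁻¹' (cthickening ε K₀) with hKdef
  have hKc : IsCompact K := by
    have : K = (Homeomorph.addRight c) ⁻¹' (cthickening ε K₀) := rfl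
    rw [this, Homeomorph.isCompact_preimage]
    exact hK₀c.cthickening
  have hKv : Convex ℝ K := by
    have h1 := hK₀v.cthickening ε
    exact h1.translate_preimage_left c
  have hK0 : (0 : ℂ) ∈ interior K := by
    rw [mem_interior]
    refine ⟨ball 0 ε, ?_, isOpen_ball, mem_ball_self hε0⟩
    intro z hz
    have h1 : z + c ∈ thickening ε K₀ := by
      rw [mem_thickening_iff]
      refine ⟨c, hc, ?_⟩
      simpa [dist_eq_norm] using hz
    exact thickening_subset_cthickening ε K₀ h1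
  obtain ⟨h, g, hConf⟩ := exists_conf hKc hKv hK0
  obtain ⟨r, hr01, hnear⟩ := hConf.exists_near hε0
  have hr0 : 0 < r := hr01.1
  have hr1 : r < 1 := hr01.2
  -- operator and polynomial
  set B : V →L[ℂ] V := A - c • (1 : V →L[ℂ] V) with hB
  set P' : ℂ[X] := P.comp (X + C c) with hP'
  have hBA : aeval B P' = aeval A P := by
    rw [hP', aeval_comp]
    have e : aeval B (X + C c) = A := by
      simp only [map_add, aeval_X, aeval_C, hB, Algebra.algebraMap_eq_smul_one]
      abel
    rw [e]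
  have hA' : ∀ x : V, ‖x‖ = 1 → inner ℂ x (B x) ∈ K := by
    intro x hx
    have hxx : inner ℂ x x = (1 : ℂ) := by
      rw [inner_self_eq_norm_sq_to_K]; simp [hx]
    have e : inner ℂ x (B x) + c = inner ℂ x (A x) := by
      simp [hB, hx]
    change inner ℂ x (B x) + c ∈ cthickening ε K₀
    rw [e]
    exact self_subset_cthickening K₀ ⟨x, hx, rfl⟩
  have hs : ∀ w : ℂ, ‖w‖ = r → ‖P'.eval (zz h w)‖ ≤ M + δ / 2 := by
    intro w hw
    have hw1 : ‖w‖ < 1 := hw ▸ hr1
    obtain ⟨y, hy, hyd⟩ := hnear w hw.ge hw1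
    have hy2 : y + c ∈ cthickening ε K₀ := hy
    rw [hK₀c.cthickening_eq_biUnion_closedBall hε0.le] at hy2
    simp only [mem_iUnion, mem_closedBall, exists_prop] at hy2
    obtain ⟨y', hy', hyy'⟩ := hy2
    have hd1 : dist (zz h w + c) (y + c) ≤ ε := by
      rw [dist_add_right, dist_eq_norm]; exact hyd
    have hd2 : dist (zz h w + c) y' ≤ 2 * ε := by
      calc dist (zz h w + c) y' ≤ dist (zz h w + c) (y + c) + dist (y + c) y' :=
            dist_triangle _ _ _
        _ ≤ ε + ε := add_le_add hd1 hyy'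
        _ = 2 * ε := by ring
    have hyN : y' ∈ cthickening 1 K₀ := self_subset_cthickening K₀ hy'
    have hzN : zz h w + c ∈ cthickening 1 K₀ := by
      rw [hK₀c.cthickening_eq_biUnion_closedBall zero_le_one]
      simp only [mem_iUnion, mem_closedBall, exists_prop]
      exact ⟨y', hy', hd2.trans hε1⟩
    have hdP := hηP _ hzN _ hyN (lt_of_le_of_lt hd2 hε2)
    obtain ⟨x, hx, rfl⟩ := hy'
    have hMx := hM x hx
    have e : P'.eval (zz h w) = P.eval (zz h w + c) := by
      simp [hP', eval_comp]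
    rw [e]
    rw [dist_eq_norm] at hdP
    have := norm_sub_norm_le (P.eval (zz h w + c)) (P.eval (inner ℂ x (A x)))
    linarith
  have hcore := hConf.core B hA' P' hr0 hr1 hs
  rw [hBA] at hcore
  linarith

/-- **Crouzeix's conjecture.** -/
theorem crouzeix {H : Type*} [NormedAddCommGroup H] [InnerProductSpace ℂ H] [CompleteSpace H]
    [Nontrivial H] (A : H →L[ℂ] H) (P : ℂ[X]) (M : ℝ)
    (hM : ∀ x : H, ‖x‖ = 1 → ‖P.eval (inner ℂ x (A x))‖ ≤ M) :
    ‖aeval A P‖ ≤ 2 * M := by
  obtain ⟨x₀, hx₀⟩ : ∃ x : H, ‖x‖ = 1 := by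
    obtain ⟨v, hv⟩ := exists_ne (0 : H)
    exact ⟨((‖v‖⁻¹ : ℝ) : ℂ) • v, by
      rw [norm_smul, Complex.norm_real, norm_inv, norm_norm,
        inv_mul_cancel₀ (norm_ne_zero_iff.mpr hv)]⟩
  have hM0 : 0 ≤ M := (norm_nonneg _).trans (hM x₀ hx₀)
  -- unit vectors
  have hunit : ∀ y : H, ‖y‖ = 1 → ‖aeval A P y‖ ≤ 2 * M := by
    intro y hy
    set d := P.natDegree with hd
    set V : Submodule ℂ H := Submodule.span ℂ ((fun j : ℕ => (A ^ j) y) '' Set.Iic d) with hV
    haveI hVf : FiniteDimensional ℂ V :=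
      FiniteDimensional.span_of_finite ℂ ((Set.finite_Iic d).image _)
    haveI : CompleteSpace V := FiniteDimensional.complete ℂ V
    have hmem : ∀ j, j ≤ d → (A ^ j) y ∈ V := fun j hj =>
      Submodule.subset_span ⟨j, hj, rfl⟩
    set y' : V := ⟨y, by simpa using hmem 0 (Nat.zero_le _)⟩ with hy'
    have hy'n : ‖y'‖ = 1 := by simpa [hy'] using hy
    haveI : Nontrivial V := ⟨⟨y', 0, by
      intro h0
      have : ‖y'‖ = 0 := by rw [h0, norm_zero]
      rw [hy'n] at this
      exact one_ne_zero this⟩⟩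
    set B : V →L[ℂ] V := V.orthogonalProjectionOnto ∘L A ∘L V.subtypeL with hB
    have hBinner : ∀ v : V, inner ℂ v (B v) = inner ℂ (v : H) (A v) := by
      intro v
      simp only [hB, ContinuousLinearMap.comp_apply]
      exact Submodule.inner_orthogonalProjectionOnto_eq_of_mem_left v _
    have hBM : ∀ v : V, ‖v‖ = 1 → ‖P.eval (inner ℂ v (B v))‖ ≤ M := by
      intro v hv
      rw [hBinner]
      exact hM v (by simpa using hv)
    have hfin := crouzeix_finite B P M hBM
    have hpow : ∀ j, j ≤ d → (((B ^ j) y' : V) : H) = (A ^ j) y := by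
      intro j
      induction j with
      | zero => intro _; simp [hy']
      | succ j ih =>
        intro hj
        have hih := ih (by omega)
        have hmemS := hmem (j + 1) hj
        rw [pow_succ', ContinuousLinearMap.mul_apply]
        simp only [hB, ContinuousLinearMap.comp_apply, Submodule.subtypeL_apply]
        rw [hih, ← ContinuousLinearMap.mul_apply, ← pow_succ']
        exact congrArg Subtype.val
          (Submodule.orthogonalProjectionOnto_mem_subspace_eq_self (K := V) ⟨_, hmemS⟩)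
    have hP : ((aeval B P y' : V) : H) = aeval A P y := by
      rw [aeval_eq_sum_range, aeval_eq_sum_range]
      simp only [ContinuousLinearMap.coe_sum', Finset.sum_apply, ContinuousLinearMap.smul_apply,
        Submodule.coe_sum, Submodule.coe_smul]
      refine Finset.sum_congr rfl fun j hj => ?_
      rw [hpow j (Nat.lt_succ_iff.mp (Finset.mem_range.mp hj))]
    calc ‖aeval A P y‖ = ‖(aeval B P y' : V)‖ := by rw [← hP]; rfl
      _ ≤ ‖aeval B P‖ * ‖y'‖ := ContinuousLinearMap.le_opNorm _ _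
      _ ≤ 2 * M := by rw [hy'n, mul_one]; exact hfin
  refine ContinuousLinearMap.opNorm_le_bound _ (by positivity) fun x => ?_
  by_cases hx : x = 0
  · simp [hx]
  have hnx : ‖x‖ ≠ 0 := norm_ne_zero_iff.mpr hx
  set y : H := ((‖x‖⁻¹ : ℝ) : ℂ) • x with hy
  have hyn : ‖y‖ = 1 := by
    rw [hy, norm_smul, Complex.norm_real, norm_inv, norm_norm, inv_mul_cancel₀ hnx]
  have hxy : x = ((‖x‖ : ℝ) : ℂ) • y := by
    rw [hy, smul_smul, ← Complex.ofReal_mul, mul_inv_cancel₀ hnx]
    simp
  have := hunit y hyn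
  calc ‖aeval A P x‖ = ‖aeval A P (((‖x‖ : ℝ) : ℂ) • y)‖ := by rw [← hxy]
    _ = ‖x‖ * ‖aeval A P y‖ := by
      rw [map_smul, norm_smul, Complex.norm_real, norm_norm]
    _ ≤ ‖x‖ * (2 * M) := by gcongr
    _ = 2 * M * ‖x‖ := by ring

end Vale.Agent.P123C
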