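import Vale.Agent.P123C.Basic

/-! MODULE C: positivity of the Faber kernel for `τ ∈ K` (Schwarz lemma applied to dilations from `τ`)
and the Caratheodory bound. -/

open Complex Metric Set Filter Topology
open scoped Real ComplexConjugate

namespace Vale.Agent.P123C

variable {K : Set ℂ} {h g : ℂ → ℂ}

/-- Algebraic core of the dilation: if `u ∈ UK K`, `τ, τ' ∈ K`, `s ≥ 1`, then `τ' u` avoids the
value `s + τ u (1 - s)`. -/
lemma dil_avoid (hv : Convex ℝ K) {u τ τ' : ℂ} (hu : u ∈ UK K) (hτ : τ ∈ K) (hτ' : τ' ∈ K)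
    {s : ℝ} (hs : 1 ≤ s) : τ' * u ≠ (s : ℂ) + τ * u * (1 - s) := by
  intro he
  have hs0 : (0 : ℝ) < s := by linarith
  have hs0' : (s : ℂ) ≠ 0 := by exact_mod_cast hs0.ne'
  have hmem : ((1 / s : ℝ) : ℂ) * τ' + ((1 - 1 / s : ℝ) : ℂ) * τ ∈ K := by
    have := hv hτ' hτ (by positivity : (0 : ℝ) ≤ 1 / s)
      (by
        have : 1 / s ≤ 1 := by
          rw [div_le_one hs0]; exact hs
        linarith : (0 : ℝ) ≤ 1 - 1 / s) (by ring)
    simpa [real_smul] using this
  apply hu _ hmem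
  push_cast
  field_simp
  linear_combination he

/-- The dilation in the coordinate `u = 1/z`. -/
noncomputable def dil (τ : ℂ) (s u : ℂ) : ℂ := u / (s + τ * u * (1 - s))

lemma dil_den_ne (hv : Convex ℝ K) (h0 : (0 : ℂ) ∈ K) {u τ : ℂ} (hu : u ∈ UK K) (hτ : τ ∈ K)
    {s : ℝ} (hs : 1 ≤ s) : (s : ℂ) + τ * u * (1 - s) ≠ 0 := by
  intro he
  have := dil_avoid hv hu hτ h0 hs
  apply this
  rw [he]; simp

lemma dil_mem (hv : Convex ℝ K) (h0 : (0 : ℂ) ∈ K) {u τ : ℂ} (hu : u ∈ UK K) (hτ : τ ∈ K)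
    {s : ℝ} (hs : 1 ≤ s) : dil τ s u ∈ UK K := by
  intro τ' hτ' he
  have hd := dil_den_ne hv h0 hu hτ hs
  have := dil_avoid hv hu hτ hτ' hs
  apply this
  unfold dil at he
  calc τ' * u = τ' * (u / ((s : ℂ) + τ * u * (1 - s))) * ((s : ℂ) + τ * u * (1 - s)) := by
        rw [mul_assoc, div_mul_cancel₀ _ hd]
    _ = (s : ℂ) + τ * u * (1 - s) := by rw [he, one_mul]

lemma Conf.isOpen_UK_aux (C : Conf K h g) : IsOpen (UK K) := by
  rw [isOpen_iff_mem_nhds]
  intro u hu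
  obtain ⟨B, hB⟩ := C.compact.isBounded.exists_norm_le
  have hB0 : 0 ≤ B := le_trans (norm_nonneg _) (hB 0 (interior_subset C.zero_interior))
  -- the continuous function `τ ↦ ‖τ u - 1‖` has a positive minimum on `K`
  have hne : K.Nonempty := ⟨0, interior_subset C.zero_interior⟩
  obtain ⟨τ₀, hτ₀, hmin⟩ := C.compact.exists_isMinOn hne
    (f := fun τ => ‖τ * u - 1‖) (by fun_prop)
  have hm : 0 < ‖τ₀ * u - 1‖ := by
    rw [norm_pos_iff]
    intro hh
    exact hu τ₀ hτ₀ (by linear_combination hh)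
  set m := ‖τ₀ * u - 1‖ with hmdef
  have hball : ball u (m / (B + 1)) ⊆ UK K := by
    intro v hv τ hτ he
    have h1 : m ≤ ‖τ * u - 1‖ := hmin hτ
    have h2 : τ * u - 1 = τ * (u - v) := by linear_combination he
    have h3 : ‖τ * u - 1‖ ≤ B * ‖u - v‖ := by
      rw [h2, norm_mul]
      exact mul_le_mul_of_nonneg_right (hB τ hτ) (norm_nonneg _)
    have h4 : ‖u - v‖ < m / (B + 1) := by
      rw [← dist_eq_norm, dist_comm]; exact hv
    have h5 : B * ‖u - v‖ < m := by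
      have hb1 : (0 : ℝ) < B + 1 := by linarith
      rw [lt_div_iff₀ hb1] at h4
      nlinarith [norm_nonneg (u - v)]
    linarith
  have hpos : 0 < m / (B + 1) := by positivity
  exact Filter.mem_of_superset (ball_mem_nhds u hpos) hball

/-- Schwarz lemma for the dilation. -/
lemma Conf.schwarz_dil (C : Conf K h g) {w τ : ℂ} (hw : w ∈ ball (0 : ℂ) 1) (hτ : τ ∈ K)
    {s : ℝ} (hs : 1 ≤ s) : ‖g (dil τ s (h w))‖ ≤ ‖w‖ := by
  have h0K : (0 : ℂ) ∈ K := interior_subset C.zero_interior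
  have hg0 : g 0 = 0 := by
    have := C.left_inv 0 (mem_ball_self one_pos)
    rwa [C.zero] at this
  have hmaps : MapsTo (fun w => g (dil τ s (h w))) (ball 0 1) (closedBall 0 1) := fun w hw =>
    ball_subset_closedBall (C.mapsTo_g (dil_mem C.convex h0K (C.mapsTo hw) hτ hs))
  have hd : DifferentiableOn ℂ (fun w => g (dil τ s (h w))) (ball 0 1) := by
    apply C.diff_g.comp _ (fun w hw => dil_mem C.convex h0K (C.mapsTo hw) hτ hs)
    intro v hv
    have hden := dil_den_ne C.convex h0K (C.mapsTo hv) hτ hs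
    have hhv : DifferentiableWithinAt ℂ h (ball 0 1) v := C.diff v hv
    unfold dil
    exact hhv.div (by
      exact (differentiableWithinAt_const _).add
        (((differentiableWithinAt_const _).mul hhv).mul (differentiableWithinAt_const _))) hden
  have h00 : g (dil τ s (h 0)) = 0 := by
    simp [dil, C.zero, hg0]
  exact Complex.norm_le_norm_of_mapsTo_ball hd hmaps h00 (by simpa using hw)

/-- The first variation at `s = 1`. -/
lemma Conf.first_var (C : Conf K h g) {w τ : ℂ} (hw : w ∈ ball (0 : ℂ) 1) (hτ : τ ∈ K) :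
    0 ≤ (conj w * (h w * (1 - τ * h w) / deriv h w)).re := by
  have huUK := C.mapsTo hw
  have hopen := C.isOpen_UK_aux
  set u := h w with hu
  have hwop : ball (0 : ℂ) 1 ∈ 𝓝 w := isOpen_ball.mem_nhds hw
  have hh : HasDerivAt h (deriv h w) w := (C.diff.differentiableAt hwop).hasDerivAt
  have hg : HasDerivAt g (deriv g u) u :=
    (C.diff_g.differentiableAt (hopen.mem_nhds huUK)).hasDerivAt
  -- derivative of g at u
  have hgh : deriv g u * deriv h w = 1 := by
    have h1 : HasDerivAt (fun v => g (h v)) (deriv g u * deriv h w) w :=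
      HasDerivAt.comp w hg hh
    have h2 : HasDerivAt (fun v => g (h v)) 1 w := by
      have : (fun v => g (h v)) =ᶠ[𝓝 w] id := by
        filter_upwards [hwop] with v hv using C.left_inv v hv
      exact (hasDerivAt_id w).congr_of_eventuallyEq this
    exact h1.unique h2
  have hgd : deriv g u = (deriv h w)⁻¹ := by
    exact eq_inv_of_mul_eq_one_left hgh
  -- derivative of the dilation in `s`
  have hdil : HasDerivAt (fun z : ℂ => dil τ z u) (-(u * (1 - τ * u))) 1 := by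
    have hden : HasDerivAt (fun z : ℂ => z + τ * u * (1 - z)) (1 + τ * u * (0 - 1)) 1 :=
      (hasDerivAt_id' (1 : ℂ)).add
        (((hasDerivAt_const (1 : ℂ) (1 : ℂ)).sub (hasDerivAt_id' (1 : ℂ))).const_mul (τ * u))
    have hval : (1 : ℂ) + τ * u * (1 - 1) ≠ 0 := by simp
    have := (hasDerivAt_const (1 : ℂ) u).div hden hval
    unfold dil
    refine this.congr_deriv ?_
    simp only [sub_self, mul_zero, add_zero, one_pow, div_one, zero_mul, zero_sub]
    ring
  have hd1 : dil τ 1 u = u := by simp [dil]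
  have hcomp : HasDerivAt (fun z : ℂ => g (dil τ z u)) (deriv g u * (-(u * (1 - τ * u)))) 1 := by
    have hg' : HasDerivAt g (deriv g u) (dil τ 1 u) := by rw [hd1]; exact hg
    exact HasDerivAt.comp (1 : ℂ) hg' hdil
  have hreal : HasDerivAt (fun s : ℝ => g (dil τ (s : ℂ) u)) (deriv g u * (-(u * (1 - τ * u)))) 1 := by
    have := hcomp.comp_ofReal
    simpa using this
  have hn := hreal.norm_sq
  have hval1 : g (dil τ ((1 : ℝ) : ℂ) u) = w := by
    simp only [ofReal_one, hd1]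
    exact C.left_inv w hw
  -- slope argument
  have hslope : Tendsto (slope (fun s : ℝ => ‖g (dil τ (s : ℂ) u)‖ ^ 2) 1) (𝓝[>] 1) _ :=
    hn.tendsto_slope.mono_left (nhdsWithin_mono _ (fun x hx => ne_of_gt hx))
  have hle : 2 * inner ℝ (g (dil τ ((1 : ℝ) : ℂ) u)) (deriv g u * (-(u * (1 - τ * u)))) ≤ 0 := by
    refine le_of_tendsto hslope ?_
    filter_upwards [self_mem_nhdsWithin] with s hs
    have hs1 : (1 : ℝ) < s := hs
    have hS := C.schwarz_dil hw hτ hs1.le
    rw [slope_def_field]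
    apply div_nonpos_of_nonpos_of_nonneg _ (by linarith)
    have h1 : ‖g (dil τ ((1 : ℝ) : ℂ) u)‖ = ‖w‖ := by rw [hval1]
    rw [h1]
    have : ‖g (dil τ (s : ℂ) u)‖ ^ 2 ≤ ‖w‖ ^ 2 := by
      exact pow_le_pow_left₀ (norm_nonneg _) hS 2
    linarith
  rw [hval1, hgd, Complex.inner] at hle
  have : ((deriv h w)⁻¹ * -(u * (1 - τ * u)) * conj w).re = -(conj w * (u * (1 - τ * u) / deriv h w)).re := by
    rw [← Complex.neg_re]
    have he : (deriv h w)⁻¹ * -(u * (1 - τ * u)) * conj w = -(conj w * (u * (1 - τ * u) / deriv h w)) := by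
      rw [div_eq_mul_inv]; ring
    rw [he]
  rw [this] at hle
  linarith

/-- The dilation `z ↦ τ + s (z - τ)`, `s ≥ 1`, preserves the exterior of `K` since `K` is convex and
`τ ∈ K`.  In the coordinate `u = 1/z` it is `d_s u = u / (s + τ u (1 - s))`, and it maps `UK K` to
itself fixing `0`.  Schwarz for `g ∘ d_s ∘ h` gives `‖g (d_s (h w))‖ ≤ ‖w‖`, with equality at `s = 1`;
the `s`-derivative at `s = 1` of `g (d_s (h w))` is `- h (1 - τ h) / h'`.  Hence
`Re (conj w * h (1 - τ h) / h') ≥ 0`, that is `Re (w h' / (h (1 - τ h))) ≥ 0`. -/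
theorem Conf.re_k_nonneg (C : Conf K h g) {w τ : ℂ} (hw : w ∈ ball (0 : ℂ) 1) (hτ : τ ∈ K) :
    0 ≤ (k h w τ).re := by
  by_cases h0 : w = 0
  · subst h0
    rw [C.k_zero τ]; simp
  have hu := C.h_ne_zero hw h0
  have hd := C.deriv_ne w hw
  have h1 := C.one_sub_ne hw hτ
  have hfv := C.first_var hw hτ
  set ζ := conj w * (h w * (1 - τ * h w) / deriv h w) with hζ
  have hcw : conj w ≠ 0 := by simpa using h0
  have hk : k h w τ = ((‖w‖ ^ 2 : ℝ) : ℂ) * ζ⁻¹ := by
    unfold k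
    rw [C.q_eq hw h0, hζ]
    have hnorm : ((‖w‖ ^ 2 : ℝ) : ℂ) = w * conj w := by
      rw [Complex.mul_conj, Complex.normSq_eq_norm_sq]
    rw [hnorm]
    field_simp
  rw [hk, Complex.re_ofReal_mul, Complex.inv_re]
  apply mul_nonneg (by positivity)
  exact div_nonneg hfv (Complex.normSq_nonneg _)

/-- Caratheodory: `Re f ≥ 0` on the disc, `f 0 = 1` implies `‖f w‖ ≤ (1 + ‖w‖) / (1 - ‖w‖)`. Use the
Schwarz lemma for `(f - 1) / (f + 1)`. -/
theorem caratheodory_bound {f : ℂ → ℂ} (hf : DifferentiableOn ℂ f (ball 0 1))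
    (hre : ∀ w ∈ ball (0 : ℂ) 1, 0 ≤ (f w).re) (h0 : f 0 = 1) {w : ℂ} (hw : w ∈ ball (0 : ℂ) 1) :
    ‖f w‖ ≤ (1 + ‖w‖) / (1 - ‖w‖) := by
  have hne : ∀ z ∈ ball (0 : ℂ) 1, f z + 1 ≠ 0 := by
    intro z hz he
    have := congrArg Complex.re he
    simp only [add_re, one_re, zero_re] at this
    linarith [hre z hz]
  set φ : ℂ → ℂ := fun z => (f z - 1) / (f z + 1) with hφ
  have hφd : DifferentiableOn ℂ φ (ball 0 1) := by
    exact (hf.sub (differentiableOn_const _)).div (hf.add (differentiableOn_const _)) hne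
  have hφ0 : φ 0 = 0 := by simp [hφ, h0]
  have hle1 : ∀ z ∈ ball (0 : ℂ) 1, ‖φ z‖ ≤ 1 := by
    intro z hz
    rw [hφ]
    simp only
    rw [norm_div, div_le_one (norm_pos_iff.mpr (hne z hz))]
    have hr := hre z hz
    rw [← sq_le_sq₀ (norm_nonneg _) (norm_nonneg _), ← Complex.normSq_eq_norm_sq,
      ← Complex.normSq_eq_norm_sq, Complex.normSq_apply, Complex.normSq_apply]
    simp only [sub_re, one_re, sub_im, one_im, sub_zero, add_re, add_im, add_zero]
    nlinarith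
  have hw1' : ‖w‖ < 1 := by simpa using hw
  have hφw : ‖φ w‖ ≤ ‖w‖ :=
    Complex.norm_le_norm_of_mapsTo_ball hφd
      (fun z hz => by simpa using hle1 z hz) hφ0 hw1'
  have hw1 : ‖w‖ < 1 := by simpa using hw
  rw [le_div_iff₀ (by linarith)]
  have hrel : f w * (1 - φ w) = 1 + φ w := by
    have := hne w hw
    rw [hφ]
    simp only
    field_simp
    ring
  have h1 : ‖f w‖ * (1 - ‖φ w‖) ≤ 1 + ‖φ w‖ := by
    have h2 : ‖f w‖ * ‖1 - φ w‖ = ‖1 + φ w‖ := by rw [← norm_mul, hrel]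
    have h3 : 1 - ‖φ w‖ ≤ ‖1 - φ w‖ := by
      have := norm_sub_norm_le (1 : ℂ) (φ w)
      simpa using this
    have h4 : ‖1 + φ w‖ ≤ 1 + ‖φ w‖ := by
      simpa using norm_add_le (1 : ℂ) (φ w)
    calc ‖f w‖ * (1 - ‖φ w‖) ≤ ‖f w‖ * ‖1 - φ w‖ :=
          mul_le_mul_of_nonneg_left h3 (norm_nonneg _)
      _ = ‖1 + φ w‖ := h2
      _ ≤ _ := h4
  have hfn := norm_nonneg (f w)
  nlinarith

theorem Conf.norm_k_le (C : Conf K h g) {w τ : ℂ} (hw : w ∈ ball (0 : ℂ) 1) (hτ : τ ∈ K) :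
    ‖k h w τ‖ ≤ (1 + ‖w‖) / (1 - ‖w‖) :=
  caratheodory_bound (C.k_diff hτ) (fun _ hv => C.re_k_nonneg hv hτ) (C.k_zero τ) hw

end Vale.Agent.P123C
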