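import Mathlib

/-! MODULE H1: the Toeplitz-Hausdorff theorem. -/

open Complex
open scoped ComplexConjugate InnerProductSpace

namespace Vale.Agent.P123C

variable {V : Type*} [NormedAddCommGroup V] [InnerProductSpace ℂ V]

private theorem quad_expand (B : V →L[ℂ] V) (x y : V) (s : ℝ) :
    inner ℂ (((1 - s : ℝ) : ℂ) • x + ((s : ℝ) : ℂ) • y) (B (((1 - s : ℝ) : ℂ) • x + ((s : ℝ) : ℂ) • y))
      = ((1 - s : ℝ) : ℂ) ^ 2 * inner ℂ x (B x) + ((s : ℝ) : ℂ) ^ 2 * inner ℂ y (B y)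
        + ((1 - s : ℝ) : ℂ) * ((s : ℝ) : ℂ) * (inner ℂ x (B y) + inner ℂ y (B x)) := by
  simp only [map_add, map_smul, inner_add_left, inner_add_right, inner_smul_left, inner_smul_right,
    Complex.conj_ofReal]
  ring

private theorem norm_sq_expand (x y : V) (s : ℝ) :
    ‖((1 - s : ℝ) : ℂ) • x + ((s : ℝ) : ℂ) • y‖ ^ 2
      = (1 - s) ^ 2 * ‖x‖ ^ 2 + s ^ 2 * ‖y‖ ^ 2 + 2 * ((1 - s) * s) * (inner ℂ x y).re := by
  have h := @norm_add_sq ℂ V _ _ _ (((1 - s : ℝ) : ℂ) • x) (((s : ℝ) : ℂ) • y)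
  have h1 : ‖((1 - s : ℝ) : ℂ) • x‖ ^ 2 = (1 - s) ^ 2 * ‖x‖ ^ 2 := by
    rw [norm_smul, mul_pow, Complex.norm_real, Real.norm_eq_abs, sq_abs]
  have h2 : ‖((s : ℝ) : ℂ) • y‖ ^ 2 = s ^ 2 * ‖y‖ ^ 2 := by
    rw [norm_smul, mul_pow, Complex.norm_real, Real.norm_eq_abs, sq_abs]
  have h3 : RCLike.re (inner ℂ (((1 - s : ℝ) : ℂ) • x) (((s : ℝ) : ℂ) • y))
      = (1 - s) * s * (inner ℂ x y).re := by
    simp only [inner_smul_left, inner_smul_right, Complex.conj_ofReal]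
    simp
    ring
  rw [h, h1, h2, h3]
  ring

/-- The core of Toeplitz-Hausdorff: a quadratic form taking values `0` and `1` at unit vectors takes
every value in `[0,1]`. -/
private theorem core {B : V →L[ℂ] V} {x y : V} (hx : ‖x‖ = 1) (hy : ‖y‖ = 1)
    (h0 : inner ℂ x (B x) = 0) (h1 : inner ℂ y (B y) = 1) {t : ℝ} (ht0 : 0 ≤ t) (ht1 : t ≤ 1) :
    ∃ w : V, w ≠ 0 ∧ inner ℂ w (B w) = ((t * ‖w‖ ^ 2 : ℝ) : ℂ) := by
  -- choose the phase
  set p := inner ℂ x (B y) with hp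
  set p' := inner ℂ y (B x) with hp'
  obtain ⟨l, hl, hlim⟩ : ∃ l : ℂ, ‖l‖ = 1 ∧ (conj l * p + l * p').im = 0 := by
    by_cases hd : p' - conj p = 0
    · refine ⟨1, by simp, ?_⟩
      have : p' = conj p := sub_eq_zero.1 hd
      simp [this, Complex.add_im]
    · refine ⟨conj (p' - conj p) / ((‖p' - conj p‖ : ℝ) : ℂ), ?_, ?_⟩
      · rw [norm_div, RCLike.norm_conj, Complex.norm_real, norm_norm]
        exact div_self (norm_ne_zero_iff.2 hd)
      · set d := p' - conj p with hdd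
        have hn : ((‖d‖ : ℝ) : ℂ) ≠ 0 := by
          exact_mod_cast norm_ne_zero_iff.2 hd
        have hl' : conj (conj d / ((‖d‖ : ℝ) : ℂ)) = d / ((‖d‖ : ℝ) : ℂ) := by
          simp
        rw [hl']
        -- `l * d` is real
        have hp'' : p' = d + conj p := by rw [hdd]; ring
        rw [hp'']
        have h2 : conj d / ((‖d‖ : ℝ) : ℂ) * d = ((‖d‖ : ℝ) : ℂ) := by
          have h5 : conj d * d = ((‖d‖ : ℝ) : ℂ) * ((‖d‖ : ℝ) : ℂ) := by
            rw [mul_comm, Complex.mul_conj, Complex.normSq_eq_norm_sq]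
            push_cast
            ring
          rw [div_mul_eq_mul_div, h5, mul_div_assoc, div_self hn, mul_one]
        have h3 : d / ((‖d‖ : ℝ) : ℂ) * p + conj d / ((‖d‖ : ℝ) : ℂ) * (d + conj p)
            = ((‖d‖ : ℝ) : ℂ) + (d / ((‖d‖ : ℝ) : ℂ) * p + conj (d / ((‖d‖ : ℝ) : ℂ) * p)) := by
          have h4 : conj (d / ((‖d‖ : ℝ) : ℂ) * p)
              = conj d / ((‖d‖ : ℝ) : ℂ) * conj p := by
            simp
          rw [h4]
          linear_combination h2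
        rw [h3, Complex.add_im, Complex.ofReal_im, zero_add, Complex.add_conj, Complex.ofReal_im]
  have hlc : conj l * l = 1 := by
    rw [mul_comm, Complex.mul_conj, Complex.normSq_eq_norm_sq, hl]
    simp
  set x' := l • x with hx'
  have hx'n : ‖x'‖ = 1 := by rw [hx', norm_smul, hl, hx, one_mul]
  have hq0 : inner ℂ x' (B x') = 0 := by
    rw [hx', map_smul, inner_smul_left, inner_smul_right, h0]
    simp
  have hγ : (inner ℂ x' (B y) + inner ℂ y (B x')).im = 0 := by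
    rw [hx', map_smul, inner_smul_left, inner_smul_right]
    exact hlim
  set γ := (inner ℂ x' (B y) + inner ℂ y (B x')).re with hγr
  have hγc : inner ℂ x' (B y) + inner ℂ y (B x') = (γ : ℂ) := by
    apply Complex.ext <;> simp [hγ, hγr]
  set ip := (inner ℂ x' y : ℂ).re with hip
  -- the real function
  let f : ℝ → ℝ := fun s => s ^ 2 + (1 - s) * s * γ
    - t * ((1 - s) ^ 2 + s ^ 2 + 2 * ((1 - s) * s) * ip)
  have hfc : Continuous f := by
    simp only [f]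
    fun_prop
  have hf0 : f 0 ≤ 0 := by
    simp only [f]
    norm_num
    exact ht0
  have hf1 : 0 ≤ f 1 := by
    simp only [f]
    norm_num
    exact ht1
  obtain ⟨s, hs, hfs⟩ : ∃ s ∈ Set.Icc (0 : ℝ) 1, f s = 0 := by
    have := intermediate_value_Icc (zero_le_one) hfc.continuousOn
    exact this ⟨hf0, hf1⟩
  set w := ((1 - s : ℝ) : ℂ) • x' + ((s : ℝ) : ℂ) • y with hw
  have hq : inner ℂ w (B w) = ((s ^ 2 + (1 - s) * s * γ : ℝ) : ℂ) := by
    rw [hw, quad_expand, hq0, h1, hγc]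
    push_cast
    ring
  have hn : ‖w‖ ^ 2 = (1 - s) ^ 2 + s ^ 2 + 2 * ((1 - s) * s) * ip := by
    rw [hw, norm_sq_expand, hx'n, hy]
    ring
  refine ⟨w, ?_, ?_⟩
  · -- `w ≠ 0`
    intro hw0
    have h3 : ((1 - s : ℝ) : ℂ) • x' = -(((s : ℝ) : ℂ) • y) := by
      rw [eq_neg_iff_add_eq_zero]
      exact hw0
    have h4 : ‖((1 - s : ℝ) : ℂ) • x'‖ = ‖((s : ℝ) : ℂ) • y‖ := by rw [h3, norm_neg]
    have e1 : ‖((1 - s : ℝ) : ℂ) • x'‖ = 1 - s := by
      rw [norm_smul, hx'n, mul_one, Complex.norm_real, Real.norm_of_nonneg (by linarith [hs.2])]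
    have e2 : ‖((s : ℝ) : ℂ) • y‖ = s := by
      rw [norm_smul, hy, mul_one, Complex.norm_real, Real.norm_of_nonneg hs.1]
    rw [e1, e2] at h4
    have hs2 : s = 1 / 2 := by linarith
    have hy' : y = -x' := by
      have h5 : ((1 / 2 : ℝ) : ℂ) • x' = -(((1 / 2 : ℝ) : ℂ) • y) := by
        rw [hs2] at h3
        convert h3 using 2
        norm_num
      have h6 : ((1 / 2 : ℝ) : ℂ) ≠ 0 := by norm_num
      have h7 : ((1 / 2 : ℝ) : ℂ) • (y + x') = 0 := by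
        rw [smul_add, h5]
        simp
      have h8 := (smul_eq_zero.1 h7).resolve_left h6
      exact eq_neg_of_add_eq_zero_left h8
    rw [hy'] at h1
    rw [map_neg, inner_neg_neg, hq0] at h1
    exact zero_ne_one h1
  · rw [hq, hn]
    have : s ^ 2 + (1 - s) * s * γ = t * ((1 - s) ^ 2 + s ^ 2 + 2 * ((1 - s) * s) * ip) := by
      simp only [f] at hfs
      linarith
    rw [this]

/-- Toeplitz-Hausdorff. -/
theorem numericalRange_convex' (A : V →L[ℂ] V) :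
    Convex ℝ {z : ℂ | ∃ x : V, ‖x‖ = 1 ∧ inner ℂ x (A x) = z} := by
  rintro _ ⟨x, hx, rfl⟩ _ ⟨y, hy, rfl⟩ a b ha hb hab
  by_cases heq : inner ℂ x (A x) = inner ℂ y (A y)
  · refine ⟨x, hx, ?_⟩
    rw [← heq, ← add_smul, hab, one_smul]
  set z₁ := inner ℂ x (A x) with hz₁
  set z₂ := inner ℂ y (A y) with hz₂
  set δ := z₂ - z₁ with hδ
  have hδne : δ ≠ 0 := sub_ne_zero.2 (Ne.symm heq)
  set B : V →L[ℂ] V := δ⁻¹ • (A - z₁ • ContinuousLinearMap.id ℂ V) with hB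
  have hBq : ∀ u : V, inner ℂ u (B u) = δ⁻¹ * (inner ℂ u (A u) - z₁ * ((‖u‖ ^ 2 : ℝ) : ℂ)) := by
    intro u
    simp only [hB, smul_apply, sub_apply,
      ContinuousLinearMap.id_apply, inner_smul_right, inner_sub_right]
    rw [inner_self_eq_norm_sq_to_K]
    push_cast
    rfl
  have h0 : inner ℂ x (B x) = 0 := by
    rw [hBq, hx, ← hz₁]
    simp
  have h1 : inner ℂ y (B y) = 1 := by
    rw [hBq, hy, ← hz₂]
    simp [← hδ, hδne]
  obtain ⟨w, hw0, hw⟩ := core hx hy h0 h1 hb (by linarith)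
  have hwn : ‖w‖ ≠ 0 := norm_ne_zero_iff.2 hw0
  have hwc : ((‖w‖ ^ 2 : ℝ) : ℂ) ≠ 0 := by exact_mod_cast pow_ne_zero 2 hwn
  have hqw : inner ℂ w (A w) = (z₁ + b * δ) * ((‖w‖ ^ 2 : ℝ) : ℂ) := by
    rw [hBq] at hw
    have h2 : inner ℂ w (A w) - z₁ * ((‖w‖ ^ 2 : ℝ) : ℂ) = δ * ((b * ‖w‖ ^ 2 : ℝ) : ℂ) := by
      rw [← hw]
      field_simp
    push_cast at h2 ⊢
    linear_combination h2
  refine ⟨((‖w‖⁻¹ : ℝ) : ℂ) • w, ?_, ?_⟩
  · rw [norm_smul, Complex.norm_real, norm_inv, norm_norm, inv_mul_cancel₀ hwn]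
  · rw [map_smul, inner_smul_left, inner_smul_right, Complex.conj_ofReal, hqw]
    have ha' : (a : ℂ) = 1 - b := by
      have : a = 1 - b := by linarith
      rw [this]
      push_cast
      rfl
    simp only [Complex.real_smul]
    rw [ha', hδ]
    have hwc' : ((‖w‖ : ℝ) : ℂ) ≠ 0 := by exact_mod_cast hwn
    push_cast
    field_simp
    ring

end Vale.Agent.P123C
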